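import Vale.Agent.P354XA.Far

/-!
The time functions of an end: the fields time, rad and lid of EndOK.
-/

open scoped ContDiff
open MeasureTheory Set Filter Topology

noncomputable section

namespace Vale.Agent.P354XA

open Vale.Agent.P354n (R4)
open Vale.Agent.P354 (Bilin)
open Vale.Agent.P354I (rm rp)
open Vale.Agent.P354R (Del Met)
open Vale.Agent.P354XE

variable {M a : ℝ} {p v : R4}

/-- A bounded primitive of the weight. -/
theorem exists_prim {s : ℝ} (hs : 1 < s) : ∃ (G : ℝ → ℝ) (C : ℝ), ContDiff ℝ 1 G ∧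
    ∀ u, HasDerivAt G (√(1 + u ^ 2) ^ (-s)) u ∧ 0 ≤ G u ∧ G u ≤ C := by
  have c : Continuous fun u : ℝ => √(1 + u ^ 2) ^ (-s) :=
    Continuous.rpow_const (by fun_prop) fun u => Or.inl (by positivity)
  have i : Integrable fun u : ℝ => √(1 + u ^ 2) ^ (-s) :=
    (integrable_rpow_neg_one_add_norm_sq (E := ℝ) (μ := volume) (r := s) (by simpa using hs)).congr
      (Eventually.of_forall fun u => by
        simp only [Real.norm_eq_abs, sq_abs]
        rw [Real.sqrt_eq_rpow, ← Real.rpow_mul (by positivity)]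
        congr 1
        ring)
  have d : ∀ u, HasDerivAt (fun u => ∫ x in Iic u, √(1 + x ^ 2) ^ (-s)) (√(1 + u ^ 2) ^ (-s)) u :=
    fun u => ((c.integral_hasStrictDerivAt 0 u).hasDerivAt.const_add
      (∫ x in Iic 0, √(1 + x ^ 2) ^ (-s))).congr_of_eventuallyEq (Eventually.of_forall fun b => by
        simp only [← intervalIntegral.integral_Iic_sub_Iic i.integrableOn i.integrableOn]
        ring)
  refine ⟨_, ∫ x : ℝ, √(1 + x ^ 2) ^ (-s), contDiff_one_iff_deriv.2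
    ⟨fun u => (d u).differentiableAt, ?_⟩, fun u => ⟨d u, integral_nonneg fun x => by positivity,
      setIntegral_le_integral i (Eventually.of_forall fun x => by positivity)⟩⟩
  rwa [show deriv _ = _ from funext fun u => (d u).deriv]

/-- A regularised positive part. -/
theorem exists_pos : ∃ ρ ρ' : ℝ → ℝ, ContDiff ℝ 1 ρ ∧ (∀ x ≤ 0, ρ x = 0) ∧ ∀ x,
    HasDerivAt ρ (ρ' x) x ∧ 0 ≤ ρ' x ∧ ρ' x ≤ 1 ∧ x - 1 ≤ ρ x ∧ 0 ≤ ρ x ∧ ρ x ≤ |x| := by
  have q : ∀ x, 0 < P354V.sq x + 1 := fun x => by unfold P354V.sq; positivity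
  refine ⟨fun x => √(P354V.sq x + 1) - 1, fun x => 2 * max x 0 / (2 * √(P354V.sq x + 1)),
    ((P354V.sq_cd.add contDiff_const).sqrt fun x => (q x).ne').sub contDiff_const,
    fun x hx => by simp [P354V.sq, max_eq_right hx], fun x => ?_⟩
  have m : max x 0 ≤ √(P354V.sq x + 1) := Real.le_sqrt_of_sq_le (by unfold P354V.sq; linarith)
  have m0 := le_max_right x 0
  have m1 : max x 0 ≤ |x| := max_le (le_abs_self x) (abs_nonneg x)
  refine ⟨(((P354V.sq_deriv x).add_const 1).sqrt (q x).ne').sub_const 1, by positivity,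
    div_le_one_of_le₀ (by linarith) (by positivity), by linarith [le_max_left x 0],
    sub_nonneg.2 (Real.one_le_sqrt.2 (by unfold P354V.sq; linarith [sq_nonneg (max x 0)])),
    sub_le_iff_le_add.2 (Real.sqrt_le_iff.2 ⟨by positivity, by unfold P354V.sq; nlinarith⟩)⟩

/-- The function t - u of r. -/
def psi (M a r : ℝ) : ℝ :=
  r + (Real.log (r - rp M a) - rm M a / rp M a * Real.log (r - rm M a)) / ka M a

theorem ur_eq (M a : ℝ) (p : R4) : ur M a p = p.1 - psi M a (rd p) := by unfold ur psi; ring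

theorem psi_cd (h : |a| < M) {r : ℝ} (hr : rp M a < r) {n : WithTop ℕ∞} :
    ContDiffAt ℝ n (psi M a) r := by
  have h2 := (hor h).2.2.1
  exact contDiffAt_id.add ((((contDiffAt_id.sub contDiffAt_const).log (sub_pos.2 hr).ne').sub
    (contDiffAt_const.mul ((contDiffAt_id.sub contDiffAt_const).log
      (sub_pos.2 (h2.trans hr)).ne'))).div_const _)

theorem psi_deriv (h : |a| < M) {r : ℝ} (hr : rp M a < r) : HasDerivAt (psi M a) (lo1 M a r) r := by
  obtain ⟨h0, h1, h2, -, h4, h5, h6⟩ := hor h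
  have a1 := (sub_pos.2 hr).ne'
  have a2 := (sub_pos.2 (h2.trans hr)).ne'
  have a3 : rp M a ≠ 0 := (h1.trans_lt h2).ne'
  refine ((hasDerivAt_id r).add (((((hasDerivAt_id r).sub_const _).log a1).sub
    ((((hasDerivAt_id r).sub_const _).log a2).const_mul _)).div_const _)).congr_deriv ?_
  have e : r ^ 2 + a ^ 2 = Del M a r + 2 * M * r := by unfold Del; ring
  rw [lo1, e, h5]
  simp only [id]
  field_simp
  linear_combination r * h6

theorem lo1_mem (h : |a| < M) {r : ℝ} (hr : 82 * M ≤ r) : 1 ≤ lo1 M a r ∧ lo1 M a r ≤ 21 / 20 := by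
  have h0 := (hor h).1
  have D : 80 * M * r ≤ Del M a r := by unfold Del; nlinarith [sq_nonneg a]
  have D0 : 0 < 80 * M * r := by nlinarith
  have e : 2 * (r ^ 2 + a ^ 2) = 2 * Del M a r + 4 * M * r := by unfold Del; ring
  rw [lo1, le_sub_iff_add_le, sub_le_iff_le_add, le_div_iff₀ (by linarith),
    div_le_iff₀ (by linarith)]
  constructor <;> linarith

theorem small (K : ℝ) {c : ℝ} (hc : 0 < c) : ∀ᶠ ε in 𝓝[>] (0 : ℝ), ε * K < c :=
  ((show ContinuousAt (fun ε : ℝ => ε * K) 0 by fun_prop).eventually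
    (gt_mem_nhds (by simpa using hc))).filter_mono nhdsWithin_le_nhds

theorem pos_near {g : Tw} {N : ℕ} {ε c : ℝ} (h : Bd N (g - gin M a) p ε) (c0 : 0 < c)
    (hc : ε * c < 1) (v0 : v ≠ 0) (hv : ‖v‖ ^ 2 ≤ c * gin M a p v v) : 0 < g p v v := by
  have k := h 0 (Nat.zero_le _) v v
  rw [norm_iteratedFDeriv_zero] at k
  have k2 : -(ε * (‖v‖ * ‖v‖)) ≤ g p v v - gin M a p v v := (abs_le.1 k).1
  have n0 := pow_pos (norm_pos_iff.2 v0) 2
  exact (mul_pos_iff_of_pos_left c0).1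
    (by nlinarith [mul_le_mul_of_nonneg_left k2 c0.le, mul_lt_mul_of_pos_right hc n0])

/-- The time function in the far part. -/
theorem tm_far {s δ ε R C : ℝ} {N : ℕ} {g : Tw} {Y : R4 → R4} {β : Fin 3 → R4 → ℝ} {q : Par}
    {G ρ ρ' : ℝ → ℝ} (hG : ContDiff ℝ 1 G ∧
      ∀ u, HasDerivAt G (√(1 + u ^ 2) ^ (-s)) u ∧ 0 ≤ G u ∧ G u ≤ C) (hρ : ContDiff ℝ 1 ρ ∧ ∀ x,
      HasDerivAt ρ (ρ' x) x ∧ 0 ≤ ρ' x ∧ ρ' x ≤ 1 ∧ x - 1 ≤ ρ x ∧ 0 ≤ ρ x ∧ ρ x ≤ |x|)
    (hq : q.R.transpose * q.R = 1) (l0 : q.l ≠ 0) (ha : |q.a| < q.M) (s0 : 0 ≤ s) (d0 : 0 ≤ δ)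
    (e0 : 0 ≤ ε) (e1 : ε * (q.M + 1) ≤ 1 / 60) (e2 : ε * C ≤ 1 / 20) (e3 : ε * (R + 3) ≤ 1 / 5)
    (hR : 82 * (q.M + 1) ≤ R) (hr : R + 1 ≤ rd p) (hB : Bilin (g (q.lin p)))
    (hs : ∀ a b, g (q.lin p) a b = g (q.lin p) b a)
    (hY : g (q.lin p) (Y (q.lin p)) (Y (q.lin p)) < 0)
    (hL : g (q.lin p) (Y (q.lin p)) (q.lin (Lo q.M q.a p)) < 0)
    (h : Far q.M q.a s δ ε N (pb q.lin g) β p) : Tm g Y (fun x => x.1 / q.l +
      ε * (ρ (rd x - (R + 1)) * G (x.1 / q.l - psi q.M q.a (rd x)))) (q.lin p) := by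
  obtain ⟨M0, -, -, h3, -⟩ := hor ha
  have e := rd_lin hq p
  have r0 : 0 < rd p := by linarith
  have r1 : rp q.M q.a < rd (q.lin p) := by rw [e]; linarith
  have c1 : ContDiffAt ℝ 1 rd (q.lin p) := rd_cd (by rw [e]; exact r0.ne')
  have d1 := (c1.differentiableAt one_ne_zero).hasFDerivAt
  have d0' := (hasFDerivAt_fst (𝕜 := ℝ) (p := q.lin p)).mul_const q.l⁻¹
  have d := d0'.add ((((hρ.2 _).1.comp_hasFDerivAt _ (d1.sub_const (R + 1))).mul
    ((hG.2 _).1.comp_hasFDerivAt _ (d0'.sub ((psi_deriv ha r1).comp_hasFDerivAt _ d1)))).const_mul ε)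
  set τ : R4 → ℝ := fun x => x.1 / q.l +
    ε * (ρ (rd x - (R + 1)) * G (x.1 / q.l - psi q.M q.a (rd x))) with hτ
  set A := lo1 q.M q.a (rd p) + ε * (ρ' (rd p - (R + 1)) * G (ur q.M q.a p)) with hA
  set B := 1 + ε * (ρ (rd p - (R + 1)) * uw q.M q.a p ^ (-s)) with hB'
  have fd : ∀ v, fderiv ℝ τ (q.lin p) (q.lin v) =
      A * dr p v + B * (v.1 - lo1 q.M q.a (rd p) * dr p v) := fun v => by
    rw [show fderiv ℝ τ (q.lin p) = _ from (d.congr_of_eventuallyEq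
      (Eventually.of_forall fun x => by simp [hτ, div_eq_mul_inv])).fderiv]
    have t : ∀ x : ℝ, q.l * x * q.l⁻¹ = x := fun x => by field_simp
    have t' : ∀ x : ℝ, q.l⁻¹ * (q.l * x) = x := fun x => by field_simp
    simp [rd_fd (e ▸ r0.ne' : rd (q.lin p) ≠ 0), dr_lin hq, e, lin_fst, t, t', hA, hB', uw, ur_eq]
    ring
  obtain ⟨m0, m1⟩ := uw_le s0 q.M q.a p
  obtain ⟨-, p0, p1, p2, p3, p4⟩ := hρ.2 (rd p - (R + 1))
  obtain ⟨-, g0, g1⟩ := hG.2 (ur q.M q.a p)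
  obtain ⟨l1, l2⟩ := lo1_mem ha (r := rd p) (by linarith)
  rw [abs_of_nonneg (by linarith)] at p4
  have A1 : 1 ≤ A := by rw [hA]; nlinarith [mul_nonneg e0 (mul_nonneg p0 g0)]
  have A2 : A ≤ 11 / 10 := by
    have : ρ' (rd p - (R + 1)) * G (ur q.M q.a p) ≤ C := by nlinarith
    linarith [mul_le_mul_of_nonneg_left this e0]
  have B1 : 1 ≤ B := by rw [hB']; nlinarith [mul_nonneg e0 (mul_nonneg p3 m0.le)]
  have B2 : B ≤ 1 + ε * rd p := by
    have : ρ (rd p - (R + 1)) * uw q.M q.a p ^ (-s) ≤ rd p := by nlinarith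
    linarith [mul_le_mul_of_nonneg_left this e0]
  have B3 : ε * (rd p * uw q.M q.a p ^ (-s)) ≤ B - 1 + ε * (R + 2) := by
    have : rd p * uw q.M q.a p ^ (-s) ≤ ρ (rd p - (R + 1)) * uw q.M q.a p ^ (-s) + (R + 2) := by
      nlinarith [mul_le_mul_of_nonneg_right p2 m0.le]
    linarith [mul_le_mul_of_nonneg_left this e0]
  have k1 : B / A ≤ B := div_le_self (by linarith) A1
  have k2 : 17 / 19 * B ≤ B / A := by rw [le_div_iff₀ (by linarith)]; nlinarith
  have ker : ∀ v ≠ 0, fderiv ℝ τ (q.lin p) v = 0 → 0 < g (q.lin p) v v := by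
    intro v v0 hv
    obtain ⟨v, rfl⟩ := lin_surj hq l0 v
    rw [← pb_lin q g]
    refine far_pos (k := B / A) h ?_ (fun a b => by rw [pb_lin, pb_lin, hs]) ha s0 d0 e0 e1
      (by linarith) (by linarith) ?_ (by linarith) (fun z => v0 (z ▸ (linL q).map_zero)) ?_
    · have a1 : ∀ a b, q.lin (a + b) = q.lin a + q.lin b := (linL q).map_add
      have a2 : ∀ (t : ℝ) a, q.lin (t • a) = t • q.lin a := (linL q).map_smul
      constructor <;> intros <;> simp only [pb_lin, a1, a2, hB.add_left, hB.add_right,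
        hB.smul_left, hB.smul_right]
    · nlinarith [mul_le_mul_of_nonneg_right (k1.trans B2) (show 0 ≤ q.M + 1 by linarith),
        mul_le_mul_of_nonneg_right e1 r0.le]
    · rw [fd] at hv
      field_simp
      linarith
  refine ⟨(contDiffAt_fst.div_const _).add (contDiffAt_const.mul
    ((hρ.1.contDiffAt.comp _ (c1.sub contDiffAt_const)).mul (hG.1.contDiffAt.comp _
      ((contDiffAt_fst.div_const _).sub ((psi_cd ha r1).comp _ c1))))),
    pos_of_ker hB hs _ ker (Z := q.lin (Lo q.M q.a p)) ?_ ?_ hY.le hL, ker⟩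
  · rw [fd, dr_Lo r0.ne', Lo_fst]; linarith
  · rw [← pb_lin q g]; exact h.gauge.self_of_nhds.1.le

/-- **The fields time, rad and lid of EndOK.** -/
theorem lid (M a s δ r1 r0 θ : ℝ) (ha : |a| < M) (hs : 1 < s) (hδ : 0 < δ) (h1 : rm M a < r1)
    (h2 : r1 < r0) (h3 : r0 < rp M a) (hθ : 0 < θ) : ∃ R0, ∀ R ≥ R0, ∃ ε0 > 0, ∀ ε ∈ Ioc 0 ε0,
      ∀ N g D Y q q' β, Met g D → En M a r1 θ ⊆ D → (∀ p ∈ En M a r1 θ, g p (Y p) (Y p) < 0) →
      IsEnd M a r1 θ R s δ ε N g Y q q' β →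
      (∀ p ∈ En M a r1 θ, rd p ≤ R + 2 → Tm g Y (fun x => x.1) p) ∧
      (∀ p ∈ En M a r1 θ, Real.exp (ka M a * p.1) ≤ 2 * θ → Tm g Y (fun x => x.1) p) ∧
      (∀ p ∈ En M a r1 θ, rd p = r0 → Tm g Y (fun x => -rd x) p) ∧
      ∃ τ, (∀ p ∈ Er M a r1 r0 θ, Tm g Y τ p) ∧ ∀ c, IsCompact {p ∈ Er M a r1 r0 θ | τ p ≤ c} := by
  obtain ⟨M0, m0, m1, m2, k0, hD, -⟩ := hor ha
  obtain ⟨C0, hC0⟩ := proper ha (Real.log (2 * θ) / ka M a)
  obtain ⟨G, C, hG⟩ := exists_prim hs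
  obtain ⟨ρ, ρ', p1, p2, p3⟩ := exists_pos
  obtain ⟨c1, c10, hc1⟩ := near_t M0.le a (m0.trans_lt h1)
  have r00 : 0 < r0 := by linarith
  obtain ⟨c2, c20, hc2⟩ := near_r (M := M) (a := a) r00
    (by rw [hD]; exact mul_neg_of_neg_of_pos (by linarith) (by linarith))
  refine ⟨max C0 (82 * (M + 2)), fun R hR => ?_⟩
  have R1 : C0 ≤ R := (le_max_left _ _).trans hR
  have R2 : 82 * (M + 2) ≤ R := (le_max_right _ _).trans hR
  obtain ⟨ε0, hε0, hε⟩ := mem_nhdsGT_iff_exists_Ioc_subset.1 ((small c1 one_pos).and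
    ((small c2 one_pos).and ((small (20 * M ^ 2) (pow_pos r00 2)).and
    ((small (M + 2) (show (0 : ℝ) < 1 / 60 by norm_num)).and
    ((small C (show (0 : ℝ) < 1 / 20 by norm_num)).and
    ((small (R + 3) (show (0 : ℝ) < 1 / 5 by norm_num)).and (small 2 (sub_pos.2 ha))))))))
  refine ⟨ε0, hε0, fun ε e N g D Y q q' β hg hD' hY h => ?_⟩
  obtain ⟨e1, e2, e3, e4, e5, e6, e7⟩ := hε e
  have nt : ∀ p ∈ En M a r1 θ, rd p ≤ R + 2 → ∀ v ≠ 0, v.1 = 0 → 0 < g p v v :=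
    fun p hp hr v v0 hv => pos_near (h.near p hp hr).2.1 c10 e1 v0 (hc1 p hp.1.le v hv)
  have tm : ∀ p ∈ En M a r1 θ, rd p ≤ R + 2 → Tm g Y (fun x => x.1) p := fun p hp hr =>
    ⟨contDiffAt_fst, by rw [fderiv_fst]; exact (h.near p hp hr).1, fun v v0 hv =>
      nt p hp hr v v0 (by rwa [fderiv_fst] at hv)⟩
  refine ⟨tm, fun p hp k => tm p hp (by
    linarith [hC0 r1 θ h1.le p hp (by
      rwa [le_div_iff₀' k0, Real.le_log_iff_exp_le (by linarith)])]), fun p hp hr => ?_, ?_⟩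
  · have r0' : 0 < rd p := by rwa [hr]
    have hr' : rd p ≤ R + 2 := by linarith
    have B := met_bil hg (hD' hp)
    have sy := hg.symm p (hD' hp)
    have fd : ∀ v, fderiv ℝ (fun x => -rd x) p v = -dr p v := fun v => by
      rw [fderiv_fun_neg, _root_.neg_apply, rd_fd r0'.ne']
    have ker : ∀ v ≠ 0, fderiv ℝ (fun x => -rd x) p v = 0 → 0 < g p v v := fun v v0 hv =>
      pos_near (h.near p hp hr').2.1 c20 e2 v0 (hc2 p hr v (by rwa [fd, neg_eq_zero] at hv))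
    obtain ⟨Z, z1, z2, z3, z4⟩ := near_Z (a := a) M0 r0' (by linarith)
    have zz : g p Z Z < 0 := by
      have k := (h.near p hp hr').2.1 0 (Nat.zero_le _) Z Z
      rw [norm_iteratedFDeriv_zero] at k
      have k2 : g p Z Z - gin M a p Z Z ≤ ε * (‖Z‖ * ‖Z‖) := (abs_le.1 k).2
      rw [hr] at z4
      linarith [mul_le_mul_of_nonneg_left z3 e.1.le]
    have y1 := (h.near p hp hr').1
    have yz : g p (Y p) Z < 0 := by
      have yy := hY p hp
      rcases eq_or_ne (Z.1 • Y p + (-(Y p).1) • Z) 0 with k | k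
      · have := congrArg (fun u => g p u Z) k
        simp only [B.add_left, B.smul_left, show g p 0 Z = 0 by
          simpa using B.smul_left 0 0 Z] at this
        nlinarith
      · have := nt p hp hr' _ k (by simp [mul_comm])
        simp only [B.add_left, B.add_right, B.smul_left, B.smul_right, sy Z (Y p)] at this
        by_contra! k2
        nlinarith [mul_nonneg (mul_pos z1 y1).le k2, mul_pos (mul_pos z1 z1) (neg_pos.2 yy),
          mul_pos (mul_pos y1 y1) (neg_pos.2 zz)]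
    exact ⟨(rd_cd r0'.ne').neg, pos_of_ker B sy _ ker (by rw [fd]; linarith) zz.le (hY p hp).le yz,
      ker⟩
  obtain ⟨q1, q2, q3, q4, -⟩ := h.par.2
  rw [abs_lt] at q1 q3
  have qa : |q'.a| < q'.M := by linarith [abs_sub_abs_le_abs_sub q'.a a, q1.1]
  have e8 : ε < 1 / 120 := by nlinarith [e.1]
  have l0 : 0 < q'.l := by linarith [q3.1]
  have T : ∀ p ∈ En M a r1 θ, Tm g Y (fun x => x.1 / q'.l +
      ε * (ρ (rd x - (R + 1)) * G (x.1 / q'.l - psi q'.M q'.a (rd x)))) p := by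
    intro p hp
    rcases lt_or_ge (rd p) (R + 1) with k | k
    · have ev : (fun x : R4 => x.1 / q'.l + ε * (ρ (rd x - (R + 1)) *
          G (x.1 / q'.l - psi q'.M q'.a (rd x)))) =ᶠ[𝓝 p] fun x => x.1 * q'.l⁻¹ := by
        filter_upwards [rd_cont.continuousAt.eventually (gt_mem_nhds k)] with x hx
        rw [p2 _ (by linarith), zero_mul, mul_zero, add_zero, div_eq_mul_inv]
      have d := ((hasFDerivAt_fst (𝕜 := ℝ) (p := p)).mul_const q'.l⁻¹).fderiv
      refine ⟨(contDiffAt_fst.mul contDiffAt_const).congr_of_eventuallyEq ev, ?_, fun v v0 hv => ?_⟩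
      · rw [ev.fderiv_eq, d]
        exact mul_pos (inv_pos.2 l0) (h.near p hp (by linarith)).1
      · rw [ev.fderiv_eq, d] at hv
        exact nt p hp (by linarith) v v0 ((mul_eq_zero.1 hv).resolve_left (inv_pos.2 l0).ne')
    · obtain ⟨p, rfl⟩ := lin_surj q4 l0.ne' p
      rw [rd_lin q4] at k
      exact tm_far hG ⟨p1, p3⟩ q4 l0.ne' qa (by linarith) hδ.le e.1.le (by nlinarith [q1.2, e.1])
        e5.le e6.le (by linarith [q1.2]) k (met_bil hg (hD' hp)) (hg.symm _ (hD' hp)) (hY _ hp)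
        (h.far p hp k).1 (h.far p hp k).2
  refine ⟨_, fun p hp => T p hp.1, fun c => Er_compact ha (c := c * q'.l) h1.le hθ
    (ContinuousOn.preimage_isClosed_of_isClosed (fun p hp => (T p hp.1).1.continuousAt.continuousWithinAt)
      (Er_closed ha h1.le h2) isClosed_Iic) fun p hp => ⟨hp.1.1, ?_⟩⟩
  rw [← div_le_iff₀ l0]
  linarith [hp.2, mul_nonneg e.1.le (mul_nonneg (p3 (rd p - (R + 1))).2.2.2.2.1
    (hG.2 (p.1 / q'.l - psi q'.M q'.a (rd p))).2.1)]

end Vale.Agent.P354XA
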