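import Vale.Agent.P354XE.Iface

/-!
Elementary facts on the ingoing chart: coordinates, the radius, the linear maps Par.lin, values of
the Kerr metric, and the properness of t on an end.
-/

open scoped ContDiff
open Set Filter Topology Matrix

noncomputable section

namespace Vale.Agent.P354XA

open Vale.Agent.P354n (R4)
open Vale.Agent.P354I (X dT dP rnd Sg rm rp)
open Vale.Agent.P354R (Del)
open Vale.Agent.P354XE

variable {M a : ℝ} {p v w : R4}

/-- The product of the space parts. -/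
def ip (p v : R4) : ℝ := p.2.1 * v.2.1 + p.2.2.1 * v.2.2.1 + p.2.2.2 * v.2.2.2

theorem inn (p v : R4) : inner ℝ (xs p) (xs v) = ip p v := by
  simp [xs, ip, PiLp.inner_apply, Fin.sum_univ_three]
  ring

theorem rd_sq (p : R4) : rd p ^ 2 = ip p p := by rw [← inn, real_inner_self_eq_norm_sq, rd]

theorem rd_nonneg (p : R4) : 0 ≤ rd p := norm_nonneg _

theorem rd_eq : rd = fun p => √(ip p p) := by
  funext p; rw [← rd_sq, Real.sqrt_sq (rd_nonneg p)]

theorem dr_eq (p v : R4) : dr p v = ip p v / rd p := by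
  rw [dr, dT, inn, ← rd]
  rcases eq_or_ne (rd p) 0 with h | h
  · simp [h]
  · field_simp

theorem dq_eq (p v : R4) : dq p v = (p.2.1 * v.2.2.1 - p.2.2.1 * v.2.1) / rd p ^ 2 := rfl

theorem rnd_eq (p v w : R4) : rnd (xs p) (xs v) (xs w) =
    ip v w / rd p ^ 2 - ip p v / rd p ^ 2 * (ip p w / rd p ^ 2) := by
  simp only [rnd, dT, inn, rd]

theorem Sg_eq (a : ℝ) (p : R4) :
    Sg a (rd p) (xs p) = rd p ^ 2 + a ^ 2 * (p.2.2.2 ^ 2 / rd p ^ 2) := rfl

theorem Sg_ge (a : ℝ) (p : R4) : rd p ^ 2 ≤ Sg a (rd p) (xs p) := by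
  rw [Sg_eq]; exact le_add_of_nonneg_right (by positivity)

theorem Sg_le (a : ℝ) (p : R4) : Sg a (rd p) (xs p) ≤ rd p ^ 2 + a ^ 2 := by
  have : p.2.2.2 ^ 2 / rd p ^ 2 ≤ 1 := div_le_one_of_le₀ (by
    rw [rd_sq, ip]; nlinarith [mul_self_nonneg p.2.1, mul_self_nonneg p.2.2.1]) (sq_nonneg _)
  rw [Sg_eq]; nlinarith [sq_nonneg a]

theorem rd_cont : Continuous rd := by rw [rd_eq]; unfold ip; fun_prop

theorem rd_cd {n : WithTop ℕ∞} (h : rd p ≠ 0) : ContDiffAt ℝ n rd p := by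
  have k : ip p p ≠ 0 := by rw [← rd_sq]; exact pow_ne_zero 2 h
  rw [rd_eq]
  exact ContDiffAt.sqrt (by unfold ip; fun_prop) k

theorem rd_fd (h : rd p ≠ 0) (v : R4) : fderiv ℝ rd p v = dr p v := by
  have d := ((rd_cd (n := 1) h).differentiableAt one_ne_zero).hasFDerivAt
  have x := (hasFDerivAt_id (𝕜 := ℝ) p).snd.fst
  have y := (hasFDerivAt_id (𝕜 := ℝ) p).snd.snd.fst
  have z := (hasFDerivAt_id (𝕜 := ℝ) p).snd.snd.snd
  have k := DFunLike.congr_fun ((d.mul d).unique ((((x.mul x).add (y.mul y)).add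
    (z.mul z)).congr_of_eventuallyEq (Eventually.of_forall fun q => by
      have := rd_sq q
      simp only [ip, sq] at this
      exact this))) v
  simp at k
  rw [dr_eq, eq_div_iff h, ip]
  linarith

theorem norm_sq_le (v : R4) : ‖v‖ ^ 2 ≤ v.1 ^ 2 + ip v v := by
  have e1 : ‖v‖ = max |v.1| (max |v.2.1| (max |v.2.2.1| |v.2.2.2|)) := rfl
  have s1 := sq_nonneg v.1
  have s2 := sq_nonneg v.2.1
  have s3 := sq_nonneg v.2.2.1
  have s4 := sq_nonneg v.2.2.2
  rw [e1, ip]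
  rcases max_choice |v.1| (max |v.2.1| (max |v.2.2.1| |v.2.2.2|)) with k | k <;> rw [k]
  · rw [sq_abs]; linarith
  rcases max_choice |v.2.1| (max |v.2.2.1| |v.2.2.2|) with k | k <;> rw [k]
  · rw [sq_abs]; linarith
  rcases max_choice |v.2.2.1| |v.2.2.2| with k | k <;> rw [k, sq_abs] <;> linarith

theorem norm_le (p : R4) : ‖p‖ ≤ |p.1| + rd p := by
  refine le_of_sq_le_sq ?_ (by linarith [abs_nonneg p.1, rd_nonneg p])
  nlinarith [norm_sq_le p, rd_sq p, sq_abs p.1, mul_nonneg (abs_nonneg p.1) (rd_nonneg p)]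

/-- The round part, and the angle form. -/
theorem ip_split (h : rd p ≠ 0) (v : R4) :
    ip v v = dr p v ^ 2 + rd p ^ 2 * rnd (xs p) (xs v) (xs v) := by
  rw [dr_eq, rnd_eq]; field_simp; ring

theorem dq_sq (h : rd p ≠ 0) (v : R4) :
    dq p v ^ 2 ≤ (1 - p.2.2.2 ^ 2 / rd p ^ 2) * rnd (xs p) (xs v) (xs v) := by
  have k := rd_sq p
  have h2 : 0 < rd p ^ 2 := by positivity
  rw [dq_eq, rnd_eq, ← sub_nonneg]
  have e : (1 - p.2.2.2 ^ 2 / rd p ^ 2) * (ip v v / rd p ^ 2 - ip p v / rd p ^ 2 *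
      (ip p v / rd p ^ 2)) - ((p.2.1 * v.2.2.1 - p.2.2.1 * v.2.1) / rd p ^ 2) ^ 2 =
      (rd p ^ 2 * v.2.2.2 - p.2.2.2 * ip p v) ^ 2 / (rd p ^ 2) ^ 3 := by
    generalize rd p ^ 2 = s at *
    field_simp
    subst k
    unfold ip
    ring
  rw [e]
  positivity

theorem rnd_nonneg (h : rd p ≠ 0) (v : R4) :
    0 ≤ rnd (xs p) (xs v) (xs v) ∧ dq p v ^ 2 ≤ rnd (xs p) (xs v) (xs v) := by
  have h2 : 0 < rd p ^ 2 := by positivity
  have k : 0 ≤ rnd (xs p) (xs v) (xs v) := by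
    have e : rnd (xs p) (xs v) (xs v) = (ip p p * ip v v - ip p v ^ 2) / (rd p ^ 2) ^ 2 := by
      rw [rnd_eq, ← rd_sq p]; field_simp
    rw [e]
    refine div_nonneg ?_ (sq_nonneg _)
    unfold ip
    nlinarith [sq_nonneg (p.2.1 * v.2.2.1 - p.2.2.1 * v.2.1),
      sq_nonneg (p.2.1 * v.2.2.2 - p.2.2.2 * v.2.1), sq_nonneg (p.2.2.1 * v.2.2.2 - p.2.2.2 * v.2.2.1)]
  exact ⟨k, (dq_sq h v).trans (mul_le_of_le_one_left k (sub_le_self _ (by positivity)))⟩

/-! ### The linear maps -/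

theorem xs_pt (t : ℝ) (z : X) : xs (pt t z) = z := by
  ext i; fin_cases i <;> rfl

theorem lin_fst (q : Par) (p : R4) : (q.lin p).1 = q.l * p.1 := rfl

theorem lin_eq (q : Par) (p : R4) : q.lin p = (q.l * p.1,
    q.R 0 0 * p.2.1 + q.R 0 1 * p.2.2.1 + q.R 0 2 * p.2.2.2,
    q.R 1 0 * p.2.1 + q.R 1 1 * p.2.2.1 + q.R 1 2 * p.2.2.2,
    q.R 2 0 * p.2.1 + q.R 2 1 * p.2.2.1 + q.R 2 2 * p.2.2.2) := by
  simp [Par.lin, pt, xs, mulVec, dotProduct, Fin.sum_univ_three]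

/-- The map lin as a continuous linear map. -/
def linL (q : Par) : R4 →L[ℝ] R4 := LinearMap.toContinuousLinearMap
  { toFun := q.lin
    map_add' := fun p v => by simp only [lin_eq]; ext <;> simp <;> ring
    map_smul' := fun c p => by simp only [lin_eq]; ext <;> simp <;> ring }

theorem lin_fd (q : Par) (p v : R4) : fderiv ℝ q.lin p v = q.lin v :=
  DFunLike.congr_fun (linL q).fderiv v

theorem pb_lin (q : Par) (g : Tw) (p v w : R4) :
    pb q.lin g p v w = g (q.lin p) (q.lin v) (q.lin w) := by rw [pb, lin_fd, lin_fd]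

theorem ip_lin {q : Par} (h : q.Rᵀ * q.R = 1) (p v : R4) : ip (q.lin p) (q.lin v) = ip p v := by
  have k := fun i j => congrFun (congrFun h i) j
  simp only [mul_apply, transpose_apply, Fin.sum_univ_three] at k
  have k00 := k 0 0; have k01 := k 0 1; have k02 := k 0 2
  have k11 := k 1 1; have k12 := k 1 2; have k22 := k 2 2
  simp at k00 k01 k02 k11 k12 k22
  simp only [lin_eq, ip]
  linear_combination p.2.1 * v.2.1 * k00 + (p.2.1 * v.2.2.1 + p.2.2.1 * v.2.1) * k01 +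
    (p.2.1 * v.2.2.2 + p.2.2.2 * v.2.1) * k02 + p.2.2.1 * v.2.2.1 * k11 +
    (p.2.2.1 * v.2.2.2 + p.2.2.2 * v.2.2.1) * k12 + p.2.2.2 * v.2.2.2 * k22

theorem rd_lin {q : Par} (h : q.Rᵀ * q.R = 1) (p : R4) : rd (q.lin p) = rd p := by
  simp only [rd_eq, ip_lin h]

theorem dr_lin {q : Par} (h : q.Rᵀ * q.R = 1) (p v : R4) : dr (q.lin p) (q.lin v) = dr p v := by
  rw [dr_eq, dr_eq, ip_lin h, rd_lin h]

theorem lin_surj {q : Par} (h : q.Rᵀ * q.R = 1) (hl : q.l ≠ 0) : Function.Surjective q.lin := by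
  intro p
  refine ⟨Par.lin ⟨0, 0, q.l⁻¹, q.Rᵀ⟩ p, ?_⟩
  rw [Par.lin, lin_fst, Par.lin, xs_pt]
  simp only [mulVec_mulVec, mul_eq_one_comm.1 h, one_mulVec, mul_inv_cancel_left₀ hl]
  rfl

/-! ### The horizons -/

theorem hor (h : |a| < M) : 0 < M ∧ 0 ≤ rm M a ∧ rm M a < rp M a ∧ rp M a ≤ 2 * M ∧ 0 < ka M a ∧
    (∀ r, Del M a r = (r - rp M a) * (r - rm M a)) ∧
    rp M a - rm M a = 4 * M * rp M a * ka M a := by
  have h0 : 0 < M := (abs_nonneg a).trans_lt h
  have h1 : 0 < M ^ 2 - a ^ 2 := by nlinarith [sq_abs a, abs_nonneg a]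
  have h2 := Real.sqrt_pos.2 h1
  have h3 := Real.sq_sqrt h1.le
  have h4 : √(M ^ 2 - a ^ 2) ≤ M := Real.sqrt_le_iff.2 ⟨h0.le, by nlinarith [sq_nonneg a]⟩
  unfold ka rm rp Del
  refine ⟨h0, by linarith, by linarith, by linarith, by positivity, fun r => by
    linear_combination h3, by field_simp; ring⟩

/-- On an end the radius is bounded where t is bounded above. -/
theorem proper (h : |a| < M) (c : ℝ) : ∃ C, ∀ r1 θ, rm M a ≤ r1 → ∀ p ∈ En M a r1 θ, p.1 ≤ c →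
    rd p ≤ C := by
  obtain ⟨h0, h1, h2, -, h4, -⟩ := hor h
  have hp : 0 < rp M a := by linarith
  have hb : 0 < 1 - rm M a / rp M a := by rw [sub_pos, div_lt_one hp]; exact h2
  have hE := Real.exp_pos (ka M a * c)
  obtain ⟨x0, hx⟩ := eventually_atTop.1 (((tendsto_rpow_neg_atTop hb).eventually
    (gt_mem_nhds (show (0 : ℝ) < 1 / (2 * Real.exp (ka M a * c) ^ 2) by positivity))).and
      (eventually_gt_atTop 0))
  refine ⟨max (x0 + rm M a) (2 * rp M a), fun r1 θ hr p hp' hc => ?_⟩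
  by_contra k
  simp only [not_le, max_lt_iff] at k
  obtain ⟨k1, k2⟩ := hx (rd p - rm M a) (by linarith [k.1])
  have m0 : 0 < mf M a (rd p) := Real.rpow_pos_of_pos k2 _
  have m2 : mf M a (rd p) ^ 2 = (rd p - rm M a) * (rd p - rm M a) ^ (-(1 - rm M a / rp M a)) := by
    rw [mf, ← Real.rpow_natCast, ← Real.rpow_mul k2.le, mul_comm (rd p - rm M a),
      ← Real.rpow_add_one k2.ne']
    congr 1
    field_simp
    ring
  have e0 := Real.exp_pos (ka M a * p.1)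
  have e1 : Real.exp (ka M a * p.1) ≤ Real.exp (ka M a * c) := by gcongr
  have t : 0 ≤ (-(rd p - rp M a) / (mf M a (rd p) * Real.exp (ka M a * p.1)) +
      mf M a (rd p) * Real.exp (ka M a * p.1)) / 2 := hp'.2.2
  rw [div_add' _ _ _ (by positivity), le_div_iff₀ two_pos, zero_mul,
    le_div_iff₀ (by positivity), zero_mul] at t
  rw [lt_div_iff₀ (by positivity)] at k1
  have e2 : Real.exp (ka M a * p.1) ^ 2 ≤ Real.exp (ka M a * c) ^ 2 := by gcongr
  have e3 := mul_le_mul_of_nonneg_left e2 (sq_nonneg (mf M a (rd p)))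
  have e4 := mul_lt_mul_of_pos_left k1 k2
  rw [m2] at e3
  nlinarith [k.2, m2]

/-- The part r ≥ r0 of an end is closed. -/
theorem Er_closed (h : |a| < M) {r1 r0 θ : ℝ} (h1 : rm M a ≤ r1) (h2 : r1 < r0) :
    IsClosed (Er M a r1 r0 θ) := by
  have c0 : IsClosed {p : R4 | r0 ≤ rd p} := isClosed_le continuous_const rd_cont
  have hb : 0 ≤ rm M a / (2 * rp M a) := by
    obtain ⟨-, k1, k2, -⟩ := hor h
    exact div_nonneg k1 (by linarith)
  have cm : Continuous fun p : R4 => mf M a (rd p) * Real.exp (ka M a * p.1) :=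
    ((rd_cont.sub continuous_const).rpow_const fun _ => Or.inr hb).mul (by fun_prop)
  have c1 : ContinuousOn (fun p => (kap M a p).1) {p : R4 | r0 ≤ rd p} :=
    ((((rd_cont.sub continuous_const).neg.continuousOn.div cm.continuousOn fun p hp =>
      (mul_pos (Real.rpow_pos_of_pos (by linarith [show r0 ≤ rd p from hp]) _)
        (Real.exp_pos _)).ne').add cm.continuousOn).div_const 2)
  have e : Er M a r1 r0 θ = ({p : R4 | r0 ≤ rd p} ∩ (fun p => (kap M a p).1) ⁻¹' Ici 0) ∩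
      {p : R4 | θ ≤ Real.exp (ka M a * p.1)} := by
    ext p
    exact ⟨fun k => ⟨⟨k.2, k.1.2.2⟩, k.1.2.1⟩, fun k => ⟨⟨h2.trans_le k.1.1, k.2, k.1.2⟩, k.1.1⟩⟩
  rw [e]
  exact (c1.preimage_isClosed_of_isClosed c0 isClosed_Ici).inter
    (isClosed_le continuous_const (by fun_prop))

/-- Closed parts of an end on which t is bounded above are compact. -/
theorem Er_compact (h : |a| < M) {r1 θ c : ℝ} (h1 : rm M a ≤ r1) (h2 : 0 < θ) {S : Set R4}
    (hS : IsClosed S) (h3 : ∀ p ∈ S, p ∈ En M a r1 θ ∧ p.1 ≤ c) : IsCompact S := by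
  obtain ⟨C, hC⟩ := proper h c
  have hk := (hor h).2.2.2.2.1
  refine Metric.isCompact_of_isClosed_isBounded hS (isBounded_iff_forall_norm_le.2
    ⟨|c| + |Real.log θ / ka M a| + C, fun p hp => (norm_le p).trans ?_⟩)
  obtain ⟨k1, k2⟩ := h3 p hp
  have k3 : Real.log θ / ka M a ≤ p.1 := by
    rw [div_le_iff₀' hk, Real.log_le_iff_le_exp h2]
    exact k1.2.1
  have k4 : |p.1| ≤ |c| + |Real.log θ / ka M a| := abs_le.2
    ⟨by linarith [abs_nonneg c, neg_abs_le (Real.log θ / ka M a)],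
      by linarith [le_abs_self c, abs_nonneg (Real.log θ / ka M a)]⟩
  linarith [hC r1 θ h1 p k1 k2]

end Vale.Agent.P354XA
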