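import Vale.Agent.P354XA.Fr

/-!
Time functions near Kerr: pointwise algebra in the near and in the far part of an end.
-/

open scoped ContDiff
open Set Filter Topology Matrix

noncomputable section

namespace Vale.Agent.P354XA

open Vale.Agent.P354n (R4)
open Vale.Agent.P354 (Bilin)
open Vale.Agent.P354I (X dT dP rnd Sg rm rp)
open Vale.Agent.P354R (Del Met)
open Vale.Agent.P354XE

variable {M a : ℝ} {p v w : R4} {B : R4 → R4 → ℝ}

theorem met_bil {g : Tw} {D : Set R4} (h : Met g D) (hx : p ∈ D) : Bilin (g p) where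
  add_left a b c := by rw [h.symm p hx, (h.lin p hx c).map_add, h.symm p hx c, h.symm p hx c]
  add_right a b c := (h.lin p hx a).map_add b c
  smul_left t a b := by rw [h.symm p hx, (h.lin p hx b).map_smul, h.symm p hx b, smul_eq_mul]
  smul_right t a b := (h.lin p hx a).map_smul t b

/-- A form with spacelike kernel is positive on the future cone. -/
theorem pos_of_ker (hB : Bilin B) (hs : ∀ a b, B a b = B b a) (f : R4 →L[ℝ] ℝ)
    (hk : ∀ v ≠ 0, f v = 0 → 0 < B v v) {Z : R4} (h1 : 0 < f Z) (h2 : B Z Z ≤ 0) (h3 : B w w ≤ 0)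
    (h4 : B w Z < 0) : 0 < f w := by
  by_contra! k
  have l0 : 0 ≤ -f w / f Z := div_nonneg (neg_nonneg.2 k) h1.le
  set l := -f w / f Z with hl
  rcases eq_or_ne (w + l • Z) 0 with e | e
  · rw [eq_neg_of_add_eq_zero_left e, ← neg_smul, hB.smul_left] at h4
    nlinarith
  · have := hk _ e (by rw [map_add, map_smul, hl, smul_eq_mul]; field_simp; ring)
    simp only [hB.add_left, hB.add_right, hB.smul_left, hB.smul_right, hs Z w] at this
    nlinarith [mul_nonneg l0 (neg_nonneg.2 h4.le), mul_nonneg (mul_nonneg l0 l0) (neg_nonneg.2 h2)]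

theorem gin_bil (M a : ℝ) (p : R4) : Bilin (gin M a p) := by
  constructor <;> intros <;>
    simp only [gin, kf, dr_eq, dq_eq, rnd_eq, ip, Prod.fst_add, Prod.snd_add, Prod.smul_fst,
      Prod.smul_snd, smul_eq_mul] <;> ring

theorem gin_symm (M a : ℝ) (p v w : R4) : gin M a p v w = gin M a p w v := by
  simp only [gin, rnd_eq, ip]; ring

/-- The levels of t are spacelike for Kerr. -/
theorem gin_t (hM : 0 ≤ M) (h : rd p ≠ 0) (hv : v.1 = 0) :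
    (dr p v - a * dq p v) ^ 2 + rd p ^ 2 * rnd (xs p) (xs v) (xs v) ≤ gin M a p v v := by
  have k1 := mul_le_mul_of_nonneg_right (Sg_ge a p) (rnd_nonneg h v).1
  have k2 : 0 ≤ 2 * M * rd p / Sg a (rd p) (xs p) * (kf a p v * kf a p v) :=
    mul_nonneg (div_nonneg (by have := rd_nonneg p; positivity)
      ((sq_nonneg _).trans (Sg_ge a p))) (mul_self_nonneg _)
  rw [gin, hv]
  linarith

theorem near_t (hM : 0 ≤ M) (a : ℝ) {r1 : ℝ} (h1 : 0 < r1) : ∃ c > 0, ∀ p, r1 ≤ rd p → ∀ v : R4,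
    v.1 = 0 → ‖v‖ ^ 2 ≤ c * gin M a p v v := by
  refine ⟨2 + 2 * a ^ 2 / r1 ^ 2, by positivity, fun p hp v hv => ?_⟩
  have h : rd p ≠ 0 := (h1.trans_le hp).ne'
  have k1 := norm_sq_le v
  rw [hv, ip_split h] at k1
  obtain ⟨k2, k3⟩ := rnd_nonneg h v
  have k4 : 2 * a ^ 2 ≤ 2 * a ^ 2 / r1 ^ 2 * rd p ^ 2 := by
    rw [div_mul_eq_mul_div, le_div_iff₀ (by positivity)]
    gcongr
  refine le_trans ?_ (mul_le_mul_of_nonneg_left (gin_t hM h hv) (by positivity))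
  nlinarith [mul_le_mul_of_nonneg_right k4 k2, mul_le_mul_of_nonneg_left k3 (sq_nonneg a),
    sq_nonneg (dr p v - 2 * (a * dq p v)), mul_nonneg (sq_nonneg (rd p)) k2,
    mul_nonneg (show 0 ≤ 2 * a ^ 2 / r1 ^ 2 by positivity) (sq_nonneg (dr p v - a * dq p v))]

theorem r_alg {a D l S n q k z : ℝ} (l0 : 0 < l) (l1 : l < 1)
    (hl : a ^ 2 ≤ l * (a ^ 2 + D / 2)) (z0 : 0 ≤ z) (z1 : z ≤ 1) (n0 : 0 ≤ n)
    (k4 : q ^ 2 ≤ (1 - z) * n) : D / 2 * k ^ 2 + (1 - l) * S ^ 2 * n ≤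
      (D + a ^ 2 * (1 - z)) * k ^ 2 - 2 * a * k * q * S + S ^ 2 * n := by
  have c1 : 2 * l * a * k * q * S ≤ l ^ 2 * S ^ 2 * n + a ^ 2 * (1 - z) * k ^ 2 := by
    refine le_of_sq_le_sq ?_ (by have := sub_nonneg.2 z1; positivity)
    linarith [sq_nonneg (l ^ 2 * S ^ 2 * n - a ^ 2 * (1 - z) * k ^ 2),
      mul_le_mul_of_nonneg_left k4 (show 0 ≤ 4 * l ^ 2 * a ^ 2 * k ^ 2 * S ^ 2 by positivity)]
  have c2 : a ^ 2 * (1 - z) ≤ l * (a ^ 2 * (1 - z) + D / 2) := by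
    linarith [mul_nonneg (mul_nonneg (sub_pos.2 l1).le (sq_nonneg a)) z0]
  refine le_of_mul_le_mul_left ?_ l0
  linarith [mul_le_mul_of_nonneg_right c2 (sq_nonneg k)]

theorem r_alg2 {a D l S n q k r Q : ℝ} (D0 : 0 < D) (l2 : 0 < l) (h0 : 0 < r) (n0 : 0 ≤ n)
    (k3 : q ^ 2 ≤ n) (s1 : r ^ 2 ≤ S) (s2 : S ≤ r ^ 2 + a ^ 2)
    (hQ : D / 2 * k ^ 2 + l * S ^ 2 * n ≤ Q * S) : (k + a * q) ^ 2 + r ^ 2 * n ≤
      (4 * (r ^ 2 + a ^ 2) / D + (2 * a ^ 2 + r ^ 2) / (l * r ^ 2)) * Q := by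
  have S0 : 0 < S := lt_of_lt_of_le (by positivity) s1
  have q0 : 0 ≤ l * S ^ 2 * n := by positivity
  have q1 : 0 ≤ D / 2 * k ^ 2 := by positivity
  have Q0 : 0 ≤ Q := nonneg_of_mul_nonneg_left (by linarith) S0
  have a1 : 2 * k ^ 2 ≤ 4 * (r ^ 2 + a ^ 2) / D * Q := by
    rw [div_mul_eq_mul_div, le_div_iff₀ D0]
    linarith [mul_le_mul_of_nonneg_left s2 Q0]
  have a2 : (2 * a ^ 2 + r ^ 2) * n ≤ (2 * a ^ 2 + r ^ 2) / (l * r ^ 2) * Q := by
    rw [div_mul_eq_mul_div, le_div_iff₀ (by positivity), mul_assoc]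
    refine mul_le_mul_of_nonneg_left (le_of_mul_le_mul_right ?_ S0) (by positivity)
    linarith [mul_le_mul_of_nonneg_left s1 (show 0 ≤ l * S * n by positivity)]
  linarith [mul_le_mul_of_nonneg_left k3 (sq_nonneg a), sq_nonneg (k - a * q)]

/-- The levels of r are spacelike for Kerr between the horizons. -/
theorem near_r {r0 : ℝ} (h0 : 0 < r0) (hD : Del M a r0 < 0) : ∃ c > 0, ∀ p, rd p = r0 →
    ∀ v : R4, dr p v = 0 → ‖v‖ ^ 2 ≤ c * gin M a p v v := by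
  obtain ⟨D, D0, hD'⟩ : ∃ D, 0 < D ∧ 2 * M * r0 = D + r0 ^ 2 + a ^ 2 :=
    ⟨-Del M a r0, by linarith, by unfold Del; ring⟩
  obtain ⟨l, l0, l1, hl⟩ : ∃ l : ℝ, 0 < l ∧ l < 1 ∧ a ^ 2 ≤ l * (a ^ 2 + D / 2) :=
    ⟨(2 * a ^ 2 + D) / (2 * a ^ 2 + 2 * D), by positivity, by
      rw [div_lt_one (by positivity)]; linarith, by
      rw [div_mul_eq_mul_div, le_div_iff₀ (by positivity)]; nlinarith [sq_nonneg D]⟩
  have l2 : 0 < 1 - l := sub_pos.2 l1
  refine ⟨4 * (r0 ^ 2 + a ^ 2) / D + (2 * a ^ 2 + r0 ^ 2) / ((1 - l) * r0 ^ 2), by positivity,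
    fun p hp v hv => ?_⟩
  have h : rd p ≠ 0 := hp ▸ h0.ne'
  have k1 := norm_sq_le v
  rw [ip_split h, hv, hp] at k1
  obtain ⟨k2, k3⟩ := rnd_nonneg h v
  have k4 := dq_sq h v
  have s1 := Sg_ge a p
  have s2 := Sg_le a p
  have s3 := Sg_eq a p
  have z0 : 0 ≤ p.2.2.2 ^ 2 / rd p ^ 2 := by positivity
  have z1 : p.2.2.2 ^ 2 / rd p ^ 2 ≤ 1 := div_le_one_of_le₀ (by
    rw [rd_sq, ip]; nlinarith [mul_self_nonneg p.2.1, mul_self_nonneg p.2.2.1]) (sq_nonneg _)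
  rw [gin, kf, hv]
  generalize p.2.2.2 ^ 2 / rd p ^ 2 = z at *
  generalize Sg a (rd p) (xs p) = S at *
  generalize rnd (xs p) (xs v) (xs v) = n at *
  generalize dq p v = q at *
  rw [hp] at *
  obtain ⟨k, hk⟩ : ∃ k, v.1 = k + a * q := ⟨v.1 - a * q, by ring⟩
  have S0 : 0 < S := lt_of_lt_of_le (by positivity) s1
  rw [hk] at k1 ⊢
  refine le_trans (by linarith only [k1]) (r_alg2 (k := k) D0 l2 h0 k2 k3 s1 s2
    ((r_alg l0 l1 hl z0 z1 k2 k4).trans_eq ?_))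
  rw [hD']
  field_simp
  rw [s3]
  ring

/-- A timelike vector which points to the future and inward. -/
theorem near_Z (hM : 0 < M) (h0 : 0 < rd p) (h1 : rd p ≤ 2 * M) : ∃ Z : R4, 0 < Z.1 ∧ dr p Z < 0 ∧
    ‖Z‖ ^ 2 ≤ 20 * M ^ 2 ∧ gin M a p Z Z ≤ -rd p ^ 2 := by
  set Z : R4 := (2 * M + rd p, (-(2 * M) / rd p) • p.2) with hZ
  have e0 : ∀ v, ip v Z = -(2 * M) / rd p * ip v p := fun v => by simp [hZ, ip]; ring
  have e1 : dr p Z = -(2 * M) := by rw [dr_eq, e0, ← rd_sq]; field_simp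
  have e2 : dq p Z = 0 := by simp [hZ, dq_eq]; ring_nf; simp
  have e3 : ip Z Z = 4 * M ^ 2 := by
    rw [e0, show ip Z p = ip p Z by simp only [ip]; ring, e0, ← rd_sq]; field_simp; ring
  have e4 : rnd (xs p) (xs Z) (xs Z) = 0 := by
    have := ip_split h0.ne' Z
    rw [e1, e3] at this
    exact (mul_eq_zero.1 (by linarith)).resolve_left (pow_pos h0 2).ne'
  have e5 : Z.1 = 2 * M + rd p := rfl
  refine ⟨Z, by rw [e5]; linarith, by rw [e1]; linarith, ?_, ?_⟩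
  · have := norm_sq_le Z
    rw [e3, e5] at this
    nlinarith
  · have : 2 * M * rd p / Sg a (rd p) (xs p) * (rd p * rd p) ≤ 2 * M * rd p := by
      rw [div_mul_eq_mul_div, div_le_iff₀ ((pow_pos h0 2).trans_le (Sg_ge a p))]
      nlinarith [mul_le_mul_of_nonneg_left (Sg_ge a p) (show 0 ≤ 2 * M * rd p by positivity)]
    rw [gin, kf, e1, e2, e4, e5]
    nlinarith [mul_pos hM h0]

end Vale.Agent.P354XA
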