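import Vale.Agent.P354XA.Near

/-!
Pointwise algebra in the far part of an end.
-/

open scoped ContDiff
open Set Filter Topology Matrix

noncomputable section

namespace Vale.Agent.P354XA

open Vale.Agent.P354n (R4)
open Vale.Agent.P354 (Bilin)
open Vale.Agent.P354I (X dT dP rnd Sg rm rp)
open Vale.Agent.P354R (Del Met)
open Vale.Agent.P354XE

variable {M a : ℝ} {p v w : R4} {B : R4 → R4 → ℝ}

/-- The time component of Lo. -/
def lo1 (M a r : ℝ) : ℝ := 2 * (r ^ 2 + a ^ 2) / Del M a r - 1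

theorem Om_fst (i : Fin 3) (p : R4) : (Om i p).1 = 0 := by fin_cases i <;> rfl

theorem ip_Om (i : Fin 3) (p : R4) : ip p (Om i p) = 0 := by
  fin_cases i <;> simp [Om, ip] <;> ring

theorem dr_Om (i : Fin 3) (p : R4) : dr p (Om i p) = 0 := by rw [dr_eq, ip_Om, zero_div]

theorem dq_Om (i : Fin 3) (p : R4) : |dq p (Om i p)| ≤ 1 := by
  rw [dq_eq, abs_div, abs_sq]
  refine div_le_one_of_le₀ ?_ (sq_nonneg _)
  rw [rd_sq, ip, abs_le]
  have s1 := mul_self_nonneg p.2.1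
  have s2 := mul_self_nonneg p.2.2.1
  have s3 := mul_self_nonneg p.2.2.2
  fin_cases i <;> simp [Om] <;> constructor <;>
    nlinarith [sq_nonneg (p.2.1 + p.2.2.2), sq_nonneg (p.2.1 - p.2.2.2),
      sq_nonneg (p.2.2.1 + p.2.2.2), sq_nonneg (p.2.2.1 - p.2.2.2)]

theorem Lo_fst (M a : ℝ) (p : R4) : (Lo M a p).1 = lo1 M a (rd p) := by
  simp [Lo, lo1, Om_fst]

theorem ip_Lo (h : rd p ≠ 0) (v : R4) : ip (Lo M a p) v =
    dr p v + 2 * a / Del M a (rd p) * (rd p ^ 2 * dq p v) := by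
  rw [dr_eq, dq_eq]
  simp [Lo, ip, Om]
  field_simp
  ring

theorem dq_self (p : R4) : dq p p = 0 := by rw [dq_eq, mul_comm, sub_self, zero_div]

theorem dr_Lo (h : rd p ≠ 0) : dr p (Lo M a p) = 1 := by
  rw [dr_eq, show ip p (Lo M a p) = ip (Lo M a p) p by simp only [ip]; ring, ip_Lo h, dq_self,
    dr_eq, ← rd_sq]
  field_simp
  ring

theorem dq_Lo (h : rd p ≠ 0) :
    dq p (Lo M a p) = 2 * a / Del M a (rd p) * (1 - p.2.2.2 ^ 2 / rd p ^ 2) := by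
  have k := rd_sq p
  rw [dq_eq]
  simp [Lo, Om, ip] at k ⊢
  field_simp
  linear_combination (-(2 * a * rd p * (Del M a (rd p))⁻¹)) * k

/-- The form dual to Lo, on vectors tangent to the levels of r. -/
theorem gin_Lo (h : rd p ≠ 0) (hD : Del M a (rd p) ≠ 0) (hv : dr p v = 0) :
    gin M a p (Lo M a p) v = -v.1 + a * dq p v := by
  have S0 : Sg a (rd p) (xs p) ≠ 0 := ((pow_pos ((rd_nonneg p).lt_of_ne' h) 2).trans_le
    (Sg_ge a p)).ne'
  have e : ip p v = 0 := by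
    rw [dr_eq] at hv
    exact (div_eq_zero_iff.1 hv).resolve_right h
  have e2 : p.2.2.2 ^ 2 / rd p ^ 2 * a ^ 2 = Sg a (rd p) (xs p) - rd p ^ 2 := by rw [Sg_eq]; ring
  have e3 : 2 * M * rd p = rd p ^ 2 + a ^ 2 - Del M a (rd p) := by unfold Del; ring
  rw [gin, kf, kf, rnd_eq, ip_Lo h, e, hv, dr_Lo h, dq_Lo h, Lo_fst, lo1, e3]
  generalize p.2.2.2 ^ 2 / rd p ^ 2 = z at *
  generalize Sg a (rd p) (xs p) = S at *
  generalize Del M a (rd p) = D at *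
  have e4 : S = rd p ^ 2 + z * a ^ 2 := by linarith
  field_simp
  rw [e4]
  ring

theorem gin_T (hv : dr p v = 0) : gin M a p eT v =
    -v.1 + 2 * M * rd p / Sg a (rd p) (xs p) * (v.1 - a * dq p v) := by
  have e1 : ∀ u, ip u eT = 0 := fun u => by simp [ip, eT]
  have e2 : ∀ u, ip eT u = 0 := fun u => by simp [ip, eT]
  have e3 : dq p eT = 0 := by simp [dq_eq, eT]
  have e4 : eT.1 = 1 := rfl
  rw [gin, kf, kf, rnd_eq, hv, dr_eq p eT, e1, e2, e3, e4]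
  ring

theorem dr_T (p : R4) : dr p eT = 0 := by simp [dr_eq, ip, eT]

/-- Vectors tangent to the spheres. -/
theorem tang (h : rd p ≠ 0) (h1 : w.1 = 0) (h2 : ip p w = 0) : ∃ c : Fin 3 → ℝ,
    w = ∑ i, c i • Om i p ∧ rnd (xs p) (xs w) (xs w) = ∑ i, c i ^ 2 := by
  have k := rd_sq p
  have h3 : rd p ^ 2 ≠ 0 := pow_ne_zero 2 h
  refine ⟨![(p.2.2.1 * w.2.2.2 - p.2.2.2 * w.2.2.1) / rd p ^ 2,
    (p.2.2.2 * w.2.1 - p.2.1 * w.2.2.2) / rd p ^ 2,
    (p.2.1 * w.2.2.1 - p.2.2.1 * w.2.1) / rd p ^ 2], ?_, ?_⟩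
  · simp only [ip] at k h2
    generalize rd p ^ 2 = s at *
    ext <;> simp [Fin.sum_univ_three, Om, h1] <;> field_simp
    · linear_combination w.2.1 * k + p.2.1 * h2
    · linear_combination w.2.2.1 * k + p.2.2.1 * h2
    · linear_combination w.2.2.2 * k + p.2.2.2 * h2
  · rw [rnd_eq, h2]
    simp only [ip] at k h2 ⊢
    generalize rd p ^ 2 = s at *
    simp [Fin.sum_univ_three]
    field_simp
    linear_combination (w.2.1 ^ 2 + w.2.2.1 ^ 2 + w.2.2.2 ^ 2) * k +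
      (p.2.1 * w.2.1 + p.2.2.1 * w.2.2.1 + p.2.2.2 * w.2.2.2) * h2

theorem sum_le (hB : Bilin B) {O : Fin 3 → R4} {K : ℝ} (c : Fin 3 → ℝ) (h : ∀ i, |B v (O i)| ≤ K) :
    |B v (∑ i, c i • O i)| ≤ K * ∑ i, |c i| := by
  have k : ∀ i, |c i * B v (O i)| ≤ K * |c i| := fun i => by
    rw [abs_mul, mul_comm]; exact mul_le_mul_of_nonneg_right (h i) (abs_nonneg _)
  simp only [Fin.sum_univ_three, hB.add_right, hB.smul_right]
  linarith [abs_add_three (c 0 * B v (O 0)) (c 1 * B v (O 1)) (c 2 * B v (O 2)), k 0, k 1, k 2]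

theorem far_alg {k μ γ r LN LW NN NW WW : ℝ} (k0 : 0 ≤ k) (h1 : LN ≤ -(19 / 20))
    (h2 : k * |LW| ≤ r / 20 * γ) (h3 : 1 / 2 ≤ 19 / 10 * k + NN) (h4 : |NW| ≤ r / 20 * γ)
    (h5 : 3 / 10 * (r * γ) ^ 2 ≤ WW) : 2 / 5 * μ ^ 2 + 1 / 5 * (r * γ) ^ 2 ≤
      -(2 * k * μ ^ 2 * LN) - 2 * k * μ * LW + μ ^ 2 * NN + 2 * μ * NW + WW := by
  have a1 : |μ * (k * LW)| ≤ |μ| * (r / 20 * γ) := by
    rw [abs_mul, abs_mul, abs_of_nonneg k0]; exact mul_le_mul_of_nonneg_left h2 (abs_nonneg _)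
  have a2 : |μ * NW| ≤ |μ| * (r / 20 * γ) := by
    rw [abs_mul]; exact mul_le_mul_of_nonneg_left h4 (abs_nonneg _)
  linarith [(abs_le.1 a1).2, (abs_le.1 a2).1, sq_nonneg (|μ| - r * γ), sq_abs μ,
    mul_le_mul_of_nonneg_left h1 (mul_nonneg k0 (sq_nonneg μ)),
    mul_le_mul_of_nonneg_left h3 (sq_nonneg μ)]

theorem uw_le {s : ℝ} (hs : 0 ≤ s) (M a : ℝ) (p : R4) :
    0 < uw M a p ^ (-s) ∧ uw M a p ^ (-s) ≤ 1 := by
  have : 1 ≤ uw M a p := Real.one_le_sqrt.2 (le_add_of_nonneg_right (sq_nonneg _))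
  exact ⟨Real.rpow_pos_of_pos (by linarith) _, Real.rpow_le_one_of_one_le_of_nonpos this
    (neg_nonpos.2 hs)⟩

/-- The decomposition of a vector. -/
theorem decomp (M a : ℝ) (h : rd p ≠ 0) (β : Fin 3 → R4 → ℝ) (v : R4) : ∃ c : Fin 3 → ℝ,
    v = dr p v • Lo M a p + (v.1 - lo1 M a (rd p) * dr p v) • Nf β p + ∑ i, c i • Om i p ∧
      rnd (xs p) (xs (∑ i, c i • Om i p)) (xs (∑ i, c i • Om i p)) = ∑ i, c i ^ 2 := by
  set α := dr p v with hα
  set μ := v.1 - lo1 M a (rd p) * α with hμ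
  obtain ⟨c, hc, hc'⟩ := tang (w := v - α • Lo M a p - μ • Nf β p) h
    (by simp [Lo_fst, Nf, hμ, eT, Fin.sum_univ_three, Om_fst, mul_comm]) (by
      have a1 : ip p (Lo M a p) = rd p := by
        have := dr_Lo (M := M) (a := a) h
        rwa [dr_eq, div_eq_one_iff_eq h] at this
      have a2 : ip p v = α * rd p := by rw [hα, dr_eq, div_mul_cancel₀ _ h]
      have a3 := fun i => ip_Om i p
      simp only [ip, Nf, eT, Fin.sum_univ_three, Prod.fst_add, Prod.snd_add, Prod.smul_fst,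
        Prod.smul_snd, smul_eq_mul, Prod.fst_sub, Prod.snd_sub, Prod.fst_zero,
        Prod.snd_zero] at a1 a2 a3 ⊢
      linear_combination a2 - α * a1 - μ * (β 0 p * a3 0 + β 1 p * a3 1 + β 2 p * a3 2))
  exact ⟨c, by rw [← hc]; abel, by rw [← hc, hc']⟩

/-- The angular part. -/
theorem ang_le (hB : Bilin B) (hs : ∀ a b, B a b = B b a) (hM : 0 ≤ M) (r0 : 0 < rd p) {ε : ℝ}
    (e2 : ε ≤ 1 / 60)
    (h : ∀ i j, |B (Om i p) (Om j p) - gin M a p (Om i p) (Om j p)| ≤ ε * rd p ^ 2)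
    {c : Fin 3 → ℝ} {W : R4} (hc : W = ∑ i, c i • Om i p)
    (hc' : rnd (xs p) (xs W) (xs W) = ∑ i, c i ^ 2) : 3 / 10 * (rd p * ∑ i, |c i|) ^ 2 ≤ B W W := by
  have W1 : W.1 = 0 := by rw [hc]; simp [Fin.sum_univ_three, Om_fst]
  have hH : Bilin fun a' b => B a' b - gin M a p a' b := by
    have G := gin_bil M a p
    constructor <;> intros <;>
      simp only [hB.add_left, hB.add_right, hB.smul_left, hB.smul_right, G.add_left, G.add_right,
        G.smul_left, G.smul_right] <;> ring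
  have a1 : ∀ i, |B W (Om i p) - gin M a p W (Om i p)| ≤ ε * rd p ^ 2 * ∑ i, |c i| := fun i => by
    rw [hs, gin_symm, hc]
    exact sum_le hH c (h i)
  have a2 := (abs_le.1 (sum_le hH c a1)).1
  rw [← hc] at a2
  have a3 := gin_t (a := a) hM r0.ne' W1
  have a4 : (∑ i, |c i|) ^ 2 ≤ 3 * ∑ i, c i ^ 2 := by
    simp only [Fin.sum_univ_three]
    nlinarith [sq_abs (c 0), sq_abs (c 1), sq_abs (c 2), sq_nonneg (|c 0| - |c 1|),
      sq_nonneg (|c 0| - |c 2|), sq_nonneg (|c 1| - |c 2|)]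
  rw [hc'] at a3
  linarith [sq_nonneg (dr p W - a * dq p W), mul_le_mul_of_nonneg_left a4 (sq_nonneg (rd p)),
    mul_le_mul_of_nonneg_right e2 (sq_nonneg (rd p * ∑ i, |c i|)),
    sq_nonneg (rd p * ∑ i, |c i|)]

/-- The values of g on the frame. -/
theorem far_val {s δ ε : ℝ} {N : ℕ} {g : Tw} {β : Fin 3 → R4 → ℝ} (h : Far M a s δ ε N g β p)
    (hB : Bilin (g p)) (ha : |a| < M) (s0 : 0 ≤ s) (d0 : 0 ≤ δ)
    (e0 : 0 ≤ ε) (e1 : ε * (M + 1) ≤ 1 / 60) (hr : 20 * (M + 1) ≤ rd p) :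
    (∀ i, |g p (Lo M a p) (Om i p)| ≤ M + 1) ∧ g p (Lo M a p) (Nf β p) ≤ -(19 / 20) ∧
      -1 - ε * (1 + rd p * uw M a p ^ (-s)) ≤ g p (Nf β p) (Nf β p) ∧
      ∀ i, |g p (Nf β p) (Om i p)| ≤ rd p / 20 := by
  have M0 : 0 < M := (abs_nonneg a).trans_lt ha
  have r0 : 0 < rd p := by linarith
  have e2 : ε ≤ 1 / 60 := by nlinarith
  have D0 : Del M a (rd p) ≠ 0 := by
    have : 0 < Del M a (rd p) := by unfold Del; nlinarith [sq_nonneg a]
    exact this.ne'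
  have LT := h.gauge.self_of_nhds.2
  rw [gin_Lo r0.ne' D0 (dr_T p), show dq p eT = 0 by simp [dq_eq, eT]] at LT
  have LO : ∀ i, |g p (Lo M a p) (Om i p)| ≤ M + 1 := fun i => by
    have k := (h.la i [] (Nat.zero_le _)).1
    simp only [wd, gin_Lo r0.ne' D0 (dr_Om i p), Om_fst] at k
    have k' : |a * dq p (Om i p)| ≤ M := by
      rw [abs_mul]; nlinarith [dq_Om i p, abs_nonneg a]
    rw [abs_le] at k k' ⊢
    constructor <;> linarith [k.1, k.2, k'.1, k'.2]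
  have hβ : ∀ i, |β i p| ≤ ε := fun i => ((h.shift i).1 [] (Nat.zero_le _)).1.trans
    (mul_le_of_le_one_right e0 (uw_le s0 M a p).2)
  have LN : g p (Lo M a p) (Nf β p) ≤ -(19 / 20) := by
    have k := (abs_le.1 (sum_le hB (fun i => β i p) LO)).2
    have k' : ∑ i, |β i p| ≤ 3 * ε := by
      rw [Fin.sum_univ_three]; linarith [hβ 0, hβ 1, hβ 2]
    rw [Nf, hB.add_right, LT]
    have : eT.1 = 1 := rfl
    nlinarith
  have q0 : 0 ≤ 2 * M * rd p / Sg a (rd p) (xs p) :=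
    div_nonneg (by positivity) ((sq_nonneg _).trans (Sg_ge a p))
  have q1 : 2 * M * rd p / Sg a (rd p) (xs p) * M ≤ rd p / 60 := by
    rw [div_mul_eq_mul_div, div_le_iff₀ ((pow_pos r0 2).trans_le (Sg_ge a p))]
    have : 120 * M ^ 2 ≤ rd p ^ 2 := by nlinarith
    nlinarith [mul_le_mul_of_nonneg_left (this.trans (Sg_ge a p)) r0.le]
  have NN : -1 - ε * (1 + rd p * uw M a p ^ (-s)) ≤ g p (Nf β p) (Nf β p) := by
    have k := (abs_le.1 (h.tt [] (Nat.zero_le _)).1).1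
    simp only [wd, ftt, gin_T (dr_T p), show dq p eT = 0 by simp [dq_eq, eT],
      show eT.1 = 1 from rfl] at k
    linarith
  have NO : ∀ i, |g p (Nf β p) (Om i p)| ≤ rd p / 20 := fun i => by
    have k := (h.ta i [] (Nat.zero_le _)).1
    simp only [wd, gin_T (dr_Om i p), Om_fst] at k
    have w2 : wt M a δ p ≤ 2 := by
      have := Real.rpow_le_one_of_one_le_of_nonpos (show 1 ≤ rd p by linarith) (neg_nonpos.2 d0)
      unfold wt
      linarith [(uw_le d0 M a p).2]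
    rw [abs_div, abs_of_pos r0, div_le_iff₀ r0] at k
    have k' : |2 * M * rd p / Sg a (rd p) (xs p) * (a * dq p (Om i p))| ≤ rd p / 60 := by
      rw [abs_mul, abs_of_nonneg q0, abs_mul]
      refine le_trans (mul_le_mul_of_nonneg_left ?_ q0) q1
      nlinarith [dq_Om i p, abs_nonneg a]
    have k3 : ε * wt M a δ p * rd p ≤ rd p / 30 := by
      nlinarith [mul_le_mul_of_nonneg_left w2 e0]
    rw [abs_le] at k k' ⊢
    constructor <;> linarith [k.1, k.2, k'.1, k'.2]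
  exact ⟨LO, LN, NN, NO⟩

/-- The kernel of dr + k du is spacelike. -/
theorem far_pos {s δ ε k : ℝ} {N : ℕ} {g : Tw} {β : Fin 3 → R4 → ℝ} (h : Far M a s δ ε N g β p)
    (hB : Bilin (g p)) (hs : ∀ a b, g p a b = g p b a) (ha : |a| < M) (s0 : 0 ≤ s) (d0 : 0 ≤ δ)
    (e0 : 0 ≤ ε) (e1 : ε * (M + 1) ≤ 1 / 60) (hr : 20 * (M + 1) ≤ rd p) (k0 : 0 ≤ k)
    (k1 : k * (M + 1) ≤ rd p / 20)
    (k2 : 3 / 2 + ε * (1 + rd p * uw M a p ^ (-s)) ≤ 19 / 10 * k) (v0 : v ≠ 0)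
    (hv : dr p v = -(k * (v.1 - lo1 M a (rd p) * dr p v))) : 0 < g p v v := by
  have M0 : 0 < M := (abs_nonneg a).trans_lt ha
  have r0 : 0 < rd p := by linarith
  obtain ⟨LO, LN, NN, NO⟩ := far_val h hB ha s0 d0 e0 e1 hr
  obtain ⟨c, ev, hc'⟩ := decomp M a r0.ne' β v
  generalize v.1 - lo1 M a (rd p) * dr p v = μ at *
  have WW := ang_le (a := a) hB hs M0.le r0 (ε := ε) (by nlinarith) (fun i j => by
    have k := (h.aa i j [] (Nat.zero_le _)).1
    simp only [wd] at k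
    rwa [abs_div, abs_sq, div_le_iff₀ (pow_pos r0 2)] at k) rfl hc'
  have g0 : 0 ≤ ∑ i, |c i| := Finset.sum_nonneg fun _ _ => abs_nonneg _
  have key := far_alg (μ := μ) (NN := g p (Nf β p) (Nf β p)) k0 LN ((mul_le_mul_of_nonneg_left (sum_le hB c LO) k0).trans
    (by linarith only [mul_le_mul_of_nonneg_right k1 g0])) (by linarith only [NN, k2])
    (sum_le hB c NO) WW
  rw [hv] at ev
  refine lt_of_lt_of_le (lt_of_le_of_ne (by positivity) fun z => v0 ?_) (key.trans_eq ?_)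
  · have z1 : μ ^ 2 = 0 := by linarith only [z, sq_nonneg μ, sq_nonneg (rd p * ∑ i, |c i|)]
    have z2 : (rd p * ∑ i, |c i|) ^ 2 = 0 := by linarith only [z, z1]
    have z3 : ∀ i, c i = 0 := fun i => abs_eq_zero.1 ((Finset.sum_eq_zero_iff_of_nonneg
      fun _ _ => abs_nonneg _).1 ((mul_eq_zero.1 ((pow_eq_zero_iff two_ne_zero).1 z2)).resolve_left
        r0.ne') i (Finset.mem_univ i))
    rw [ev, (pow_eq_zero_iff two_ne_zero).1 z1]
    simp [z3]
  · generalize ∑ i, c i • Om i p = W at *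
    rw [ev]
    simp only [hB.add_left, hB.add_right, hB.smul_left, hB.smul_right, h.gauge.self_of_nhds.1,
      hs W (Lo M a p), hs W (Nf β p), hs (Nf β p) (Lo M a p)]
    ring

end Vale.Agent.P354XA
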