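import Vale.Agent.P354I.Defs

/-!
Phase 3, block E12, piece ACC: exact statement. A space with a future extension contains a curve
of finite length and finite total acceleration which leaves every compact set.
-/

open scoped ContDiff
open Set Filter Topology

namespace Vale.Agent.P354XA

open Vale.Agent.P354n (R4 Spc On tgt co inv IsSmooth IsSpacetime IsFutureCurve IsIsom)
open Vale.Agent.P354I (NoExt)

/-- P is a closed future set; curves without past end point are not contained in P, curves
without future end point meet P. Example: the set where a time function is nonnegative. -/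
structure Bar (N : Spc) (P : Set N.pt) : Prop where
  closed : IsClosed P
  fut : ∀ c, IsFutureCurve N 0 (Icc 0 1) c → c 0 ∈ P → c 1 ∈ P
  past : ∀ c, IsFutureCurve N 0 (Ioo 0 1) c → (∀ x, ¬ Tendsto c (𝓝[>] 0) (𝓝 x)) →
    ∃ t ∈ Ioo (0 : ℝ) 1, c t ∉ P
  enter : ∀ c, IsFutureCurve N 0 (Ioo 0 1) c → (∀ x, ¬ Tendsto c (𝓝[<] 1) (𝓝 x)) →
    ∃ t ∈ Ioo (0 : ℝ) 1, c t ∈ P

/-- The product of v with the acceleration of a curve through y with first derivative w and
second derivative u, for the metric g in a chart. -/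
noncomputable def low (g : R4 → R4 → R4 → ℝ) (y w u v : R4) : ℝ :=
  g y v u + lineDeriv ℝ (fun x => g x v w) y w - lineDeriv ℝ (fun x => g x w w) y v / 2

/-- The curve a on (0,L): future timelike with almost unit speed, smooth, inside P, it leaves
every compact set, avoids every isometric open part without future extension, and the size A of
its acceleration has a primitive I which is continuous up to the end. -/
structure Acc (N : Spc) (P : Set N.pt) (L : ℝ) (a : ℝ → N.pt) (A I : ℝ → ℝ) : Prop where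
  pos : 0 < L
  curve : IsFutureCurve N 0 (Ioo 0 L) a
  mem : ∀ s ∈ Ioo 0 L, a s ∈ P
  leave : ∀ K, IsCompact K → ∀ᶠ s in 𝓝[<] L, a s ∉ K
  avoid : ∀ (M : Spc) (κ : M.pt → N.pt), IsSpacetime IsSmooth M → IsOpenEmbedding κ → IsIsom κ →
    NoExt M → ∀ s ∈ Ioo 0 L, a s ∉ range κ
  prim : ContinuousOn I (Icc 0 L) ∧ ContinuousOn A (Ioo 0 L) ∧
    ∀ s ∈ Ioo 0 L, HasDerivAt I (A s) s ∧ 0 ≤ A s
  chart : ∀ s ∈ Ioo 0 L, ∀ e, On e (a s) → ∀ z y w, z = (fun t => co e (a t)) → y = z s →
    w = deriv z s → ContDiffAt ℝ ∞ z s ∧ 1 / 2 ≤ -N.g e y w w ∧ -N.g e y w w ≤ 2 ∧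
      ∀ v, |low (N.g e) y w (deriv (deriv z) s) v| ≤ A s * √(N.g e y v v + 2 * N.g e y v w ^ 2)

/-- ACC. -/
def ACC : Prop :=
  ∀ (N : Spc) (P : Set N.pt), IsSpacetime IsSmooth N → Bar N P → ¬ NoExt N →
    ∃ L a A I, Acc N P L a A I

end Vale.Agent.P354XA
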