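import Vale.Agent.P354XA.Cor
import Vale.Agent.P354XE.Iface

/-!
Piece PAC: the curves of ACC are invariant under isometries.
-/

set_option maxSynthPendingDepth 3

open scoped ContDiff
open Set Filter Topology

namespace Vale.Agent.P354XA

open Vale.Agent.P354n (R4)
open Vale.Agent.P354R (Met Pull)
open Vale.Agent.P354XE

variable {g g' : R4 → R4 → R4 → ℝ} {G : R4 → R4 →L[ℝ] R4 →L[ℝ] ℝ} {f : R4 → R4} {D : Set R4}

/-- A metric as a smooth family of continuous bilinear forms. -/
theorem met_G (h : Met g D) : ∃ G : R4 → R4 →L[ℝ] R4 →L[ℝ] ℝ, ContDiffOn ℝ ∞ G D ∧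
    ∀ x ∈ D, ∀ a b, g x a b = G x a b := by
  have e0 : ∀ x, P354p.yv 0 (ContinuousLinearEquiv.refl ℝ R4) x = x := fun x => by simp [P354p.yv]
  refine ⟨P354p.Gf (fun i j y => g y (P354p.bas i) (P354p.bas j)) 0
    (ContinuousLinearEquiv.refl ℝ R4), (P354p.Gf_contDiffOn (D := D) (fun i j => h.smooth _ _) _
      _).mono fun x hx => by rwa [mem_preimage, e0], fun x hx a b => ?_⟩
  have B : P354.Bilin (g x) :=
    { add_left := fun a b c => by
        rw [h.symm x hx, (h.lin x hx c).map_add, h.symm x hx c, h.symm x hx c]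
      add_right := fun a b c => (h.lin x hx a).map_add b c
      smul_left := fun t a b => by
        rw [h.symm x hx, (h.lin x hx b).map_smul, h.symm x hx b, smul_eq_mul]
      smul_right := fun t a b => (h.lin x hx a).map_smul t b }
  rw [P354p.bilin_expand B]
  simp only [P354p.Gf, _root_.sum_apply, _root_.smul_apply, P354p.Qf_apply, smul_eq_mul, e0]
  refine Finset.sum_congr rfl fun i _ => Finset.sum_congr rfl fun j _ => ?_
  simp only [ContinuousLinearEquiv.refl_apply]
  ring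

/-- The acceleration is invariant. -/
theorem low_comp {z : ℝ → R4} {s : ℝ} (hf : ContDiffAt ℝ 2 f (z s))
    (hG : DifferentiableAt ℝ G (f (z s))) (hs : ∀ a b, G (f (z s)) a b = G (f (z s)) b a)
    (hg : ∀ᶠ x in 𝓝 (f (z s)), ∀ a b, g x a b = G x a b)
    (hg' : ∀ᶠ x in 𝓝 (z s), ∀ a b, g' x a b = G (f x) (fderiv ℝ f x a) (fderiv ℝ f x b))
    (hz : ContDiffAt ℝ 2 z s) : deriv (f ∘ z) s = fderiv ℝ f (z s) (deriv z s) ∧
      ∀ v, low g' (z s) (deriv z s) (deriv (deriv z) s) v =
        low g (f (z s)) (deriv (f ∘ z) s) (deriv (deriv (f ∘ z)) s) (fderiv ℝ f (z s) v) := by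
  have e1 : deriv (f ∘ z) =ᶠ[𝓝 s] fun t => fderiv ℝ f (z t) (deriv z t) := by
    filter_upwards [hz.eventually (by simp),
      hz.continuousAt.eventually (hf.eventually (by simp))] with t h2 h3
    exact ((h3.differentiableAt (by simp)).hasFDerivAt.comp_hasDerivAt t
      (h2.differentiableAt (by simp)).hasDerivAt).deriv
  have d2 : HasFDerivAt (fderiv ℝ f) (fderiv ℝ (fderiv ℝ f) (z s)) (z s) :=
    ((hf.fderiv_right (m := 1) (by norm_num)).differentiableAt one_ne_zero).hasFDerivAt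
  have z1 := (hz.differentiableAt (by simp)).hasDerivAt
  have z2 : HasDerivAt (deriv z) (deriv (deriv z) s) s :=
    ((hz.derivWithin (m := 1) (by norm_num)).differentiableAt one_ne_zero).hasDerivAt
  have e2 := (((d2.comp_hasDerivAt s z1).clm_apply z2).congr_of_eventuallyEq e1).deriv
  have sy := hf.isSymmSndFDerivAt (by simp)
  refine ⟨e1.self_of_nhds, fun v => ?_⟩
  unfold low
  rw [line_pull hf hG hg', line_pull hf hG hg', hg'.self_of_nhds, line_eq hG hg, line_eq hG hg,
    hg.self_of_nhds, e2, e1.self_of_nhds, map_add, sy (deriv z s) v,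
    hs (fderiv ℝ f (z s) (deriv z s))]
  simp only [Function.comp]
  ring

/-- **PAC.** -/
theorem pac : PAC := by
  intro f g' D' g D Y Xf S' S L z A I hP hS hY hz h
  refine ⟨h.pos, h.prim, fun s hs => ?_⟩
  obtain ⟨m, sz⟩ := hz s hs
  obtain ⟨-, -, k1, k2, k4, k3⟩ := h.mem s hs
  obtain ⟨G, h1, h2⟩ := met_G hP.met
  have m' := hS m
  have n := hP.isOpen.mem_nhds (hP.maps m')
  have n' := hP.open'.mem_nhds m'
  obtain ⟨e1, e2⟩ := low_comp (g := g) (g' := g') (G := G)
    ((hP.smooth.contDiffAt n').of_le two_le) ((h1.contDiffAt n).differentiableAt (by simp))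
    (fun a b => by rw [← h2 _ (hP.maps m'), ← h2 _ (hP.maps m'), hP.met.symm _ (hP.maps m')])
    (eventually_of_mem n h2)
    (eventually_of_mem n' fun x hx a b => by rw [hP.eq x hx, h2 _ (hP.maps hx)])
    (sz.of_le two_le)
  simp only [Ft, e1, Function.comp_apply] at k1 k2 k4
  refine ⟨m, sz, ⟨?_, ?_⟩, ?_, ?_, fun v => ?_⟩
  · rw [hP.eq _ m']; exact k1.1
  · rw [hP.eq _ m', hY _ m]; exact k1.2
  · rw [hP.eq _ m']; exact k2
  · rw [hP.eq _ m']; exact k4
  · rw [e2, hP.eq _ m', hP.eq _ m', ← e1]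
    exact k3 _

end Vale.Agent.P354XA
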