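import Vale.Agent.P354XV.Cont
import Vale.Agent.P354XK.GC
import Vale.Agent.P354YI.Jet

/-!
The data induced on the slice t = 0, cut off outside a compact set.
-/

set_option maxSynthPendingDepth 3

open scoped ContDiff Manifold
open Set Filter Topology

noncomputable section

namespace Vale.Agent.P354XA

open Vale.Agent.P354n (R4)
open Vale.Agent.P354I (X Dat pd ee)
open Vale.Agent.P354R (Met chr)
open Vale.Agent.P354RC
open Vale.Agent.P354XD (tb rp_tb)
open Vale.Agent.P354XE (Tw pt Bd)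
open Vale.Agent.P354XV
open Vale.Agent.P354YI (Oj Jb)

/-- The forms with the bounds of Nice. -/
def Kc (B C : ℝ) : Set B2 :=
  {h | ‖h‖ ≤ C ∧ (∀ a b, h a b = h b a) ∧ (∀ v : R4, v.1 = 0 → ‖v‖ ^ 2 ≤ B * h v v) ∧
    ∃ u, ‖u‖ ≤ B ∧ B * h u u ≤ -1}

theorem kc_cpt (B C : ℝ) : IsCompact (Kc B C) := by
  have k : IsCompact ((Metric.closedBall (0 : B2) C ×ˢ Metric.closedBall (0 : R4) B) ∩
      {z | (∀ a b, z.1 a b = z.1 b a) ∧ (∀ v : R4, v.1 = 0 → ‖v‖ ^ 2 ≤ B * z.1 v v) ∧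
        B * z.1 z.2 z.2 ≤ -1}) := by
    refine ((isCompact_closedBall _ _).prod (isCompact_closedBall _ _)).inter_right ?_
    simp only [ofPred_and, ofPred_forall]
    exact (isClosed_iInter fun a => isClosed_iInter fun b =>
      isClosed_eq (by fun_prop) (by fun_prop)).inter ((isClosed_iInter fun v =>
        isClosed_iInter fun _ => isClosed_le (by fun_prop) (by fun_prop)).inter
        (isClosed_le (by fun_prop) (by fun_prop)))
  refine (congrArg IsCompact (Subset.antisymm ?_ (image_subset_iff.2 fun z hz => ?_))).mpr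
    (k.image continuous_fst)
  · rintro h ⟨a, b, c, u, e, f⟩
    exact ⟨(h, u), ⟨⟨mem_closedBall_zero_iff.2 a, mem_closedBall_zero_iff.2 e⟩, b, c, f⟩, rfl⟩
  · exact ⟨mem_closedBall_zero_iff.1 hz.1.1, hz.2.1, hz.2.2.1, z.2,
      mem_closedBall_zero_iff.1 hz.1.2, hz.2.2.2⟩

/-- The gradient of t and the unit normal of the levels of t. -/
def gt (h : B2) : R4 := h.inverse (.fst ℝ ℝ _)
def nn (h : B2) : R4 := -(√(-(gt h).1))⁻¹ • gt h

section
variable {B C : ℝ} {h : B2} (hh : h ∈ Kc B C)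
include hh

theorem kc_pos : 0 < B := by
  obtain ⟨u, a, b⟩ := hh.2.2.2
  refine ((norm_nonneg u).trans a).lt_of_ne fun e => ?_
  rw [← e] at b
  linarith

/-- A vector which is orthogonal to the slice and not tangent to it is timelike. -/
theorem kc_neg {a : R4} (h1 : a.1 ≠ 0) (h2 : ∀ v : R4, v.1 = 0 → h a v = 0) : h a a < 0 := by
  obtain ⟨u, -, b⟩ := hh.2.2.2
  have z : (u - (u.1 / a.1) • a).1 = 0 := by simp [h1]
  have k := (sq_nonneg _).trans (hh.2.2.1 _ z)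
  have e := h2 _ z
  simp only [map_sub, map_smul, sub_apply, smul_apply, smul_eq_mul, hh.2.1 u a] at k e
  by_contra hn
  have p := kc_pos hh
  have := mul_nonneg p.le (mul_nonneg (sq_nonneg (u.1 / a.1)) (not_lt.1 hn))
  rw [sub_eq_zero.1 e] at k
  nlinarith

theorem kc_inv : h.IsInvertible := inv_of_inj fun a ha => by
  by_cases e : a.1 = 0
  · have := hh.2.2.1 a e
    rw [ha, mul_zero] at this
    exact norm_eq_zero.1 (pow_eq_zero_iff two_ne_zero |>.1 (this.antisymm (sq_nonneg _)))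
  · exact absurd (kc_neg hh e fun v _ => ha v) (ha a).not_lt

theorem gt_ap (v : R4) : h (gt h) v = v.1 := by
  rw [gt, (kc_inv hh).self_apply_inverse]; rfl

theorem gt_neg : (gt h).1 < 0 := by
  by_cases e : (gt h).1 = 0
  · have := hh.2.2.1 _ e
    rw [gt_ap hh, e, mul_zero] at this
    have z := norm_eq_zero.1 (pow_eq_zero_iff two_ne_zero |>.1 (this.antisymm (sq_nonneg _)))
    have := gt_ap hh (1, 0)
    simp [z] at this
  · rw [← gt_ap hh]
    exact kc_neg hh e fun v hv => (gt_ap hh v).trans hv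

theorem nn_cd : ContDiffAt ℝ ∞ nn h := by
  have k : ContDiffAt ℝ ∞ gt h := (kc_inv hh).contDiffAt_map_inverse.clm_apply contDiffAt_const
  have p := neg_pos.2 (gt_neg hh)
  exact ((k.fst.neg.sqrt p.ne').inv (Real.sqrt_pos.2 p).ne').neg.smul k

theorem nn_ap (v : R4) (hv : v.1 = 0) : h v (nn h) = 0 := by
  rw [hh.2.1, nn, map_smul, smul_apply, gt_ap hh, hv, smul_zero]

theorem nn_pos : 0 < (nn h).1 := by
  have p := neg_pos.2 (gt_neg hh)
  have := mul_pos (inv_pos.2 (Real.sqrt_pos.2 p)) p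
  simpa [nn] using this

theorem nn_nn : h (nn h) (nn h) = -1 := by
  have p := neg_pos.2 (gt_neg hh)
  have s := Real.mul_self_sqrt p.le
  have q := (Real.sqrt_pos.2 p).ne'
  simp only [nn, map_smul, smul_apply, gt_ap hh, smul_eq_mul]
  field_simp
  linarith

end

/-- The slice t = 0 as a linear map. -/
def pL : X →L[ℝ] R4 := (0 : X →L[ℝ] ℝ).prod ((EuclideanSpace.proj 0).prod
  ((EuclideanSpace.proj 1).prod (EuclideanSpace.proj 2)))

theorem pL_eq : pt 0 = pL := rfl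

theorem pd_pL (i : Fin 3) : pd i pL = fun _ => pL (ee i) := funext fun _ => by
  rw [pd, pL.fderiv]

theorem sq_le (v : Fin 3 → ℝ) : ∑ i, v i ^ 2 ≤ 3 * ‖∑ i, v i • pL (ee i)‖ ^ 2 := by
  set w := ∑ i, v i • pL (ee i) with hw
  have e : w = (0, v 0, v 1, v 2) := by simp [hw, ← pL_eq, pt, ee, Fin.sum_univ_three]
  have a := norm_snd_le w
  have b := (norm_snd_le w.2).trans a
  have c := sq_le_sq' (neg_le_of_abs_le ((norm_fst_le w.2).trans a))
    (le_of_abs_le ((norm_fst_le w.2).trans a))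
  have d := sq_le_sq' (neg_le_of_abs_le ((norm_fst_le w.2.2).trans b))
    (le_of_abs_le ((norm_fst_le w.2.2).trans b))
  have f := sq_le_sq' (neg_le_of_abs_le ((norm_snd_le w.2.2).trans b))
    (le_of_abs_le ((norm_snd_le w.2.2).trans b))
  rw [Fin.sum_univ_three]
  have : w.2.1 = v 0 ∧ w.2.2.1 = v 1 ∧ w.2.2.2 = v 2 := by rw [e]; exact ⟨rfl, rfl, rfl⟩
  rw [this.1] at c
  rw [this.2.1] at d
  rw [this.2.2] at f
  linarith

/-- The induced data, and their cut off. -/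
def dat (g : Tw) : Dat where
  h y := Matrix.of fun i k => tb g (pL y) (pL (ee i)) (pL (ee k))
  K y := Matrix.of fun i k => -C1 (tb g) (pL y) (pL (ee i)) (pL (ee k)) (nn (tb g (pL y)))
def cut (χ : X → ℝ) (d : Dat) : Dat where
  h y := χ y • d.h y + (1 - χ y) • 1
  K y := χ y • d.K y

theorem oj_tb {J : Type} {m : ℕ} {B : ℝ} {x : J → R4} {g : J → Tw} {D : J → Set R4}
    (l : ∀ j, IsOpen (D j) ∧ Met (g j) (D j) ∧ x j ∈ D j ∧ Bd m (g j) (x j) B) :
    Oj m x (fun j => tb (g j)) 1 :=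
  .sum _ (fun _ => zero_le_one) fun _ _ => .sum _ (fun _ => zero_le_one) fun _ _ =>
    (Oj.of1 (fun j => ((l j).2.1.smooth _ _).contDiffAt ((l j).1.mem_nhds (l j).2.2.1))
      fun j k hk => (l j).2.2.2 k hk _ _).smull (.cst _)

theorem oj_dat {J : Type} {m : ℕ} {B C : ℝ} {y : J → X} {g : J → Tw}
    (h : Oj (m + 1) (fun j => pL (y j)) (fun j => tb (g j)) 1)
    (k : ∀ j, tb (g j) (pL (y j)) ∈ Kc B C) (a b : Fin 3) :
    Oj m y (fun j z => (dat (g j)).h z a b) 1 ∧ Oj m y (fun j z => (dat (g j)).K z a b) 1 := by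
  have n : Oj m (fun j => pL (y j)) (fun j p => nn (tb (g j) p)) 1 :=
    Oj.comp h.sm m (h.fd.le (Nat.sub_le _ _)) (.fix (kc_cpt B C) (fun _ => nn_cd) k)
  have c : ∀ {F : J → R4 → ℝ}, Oj m (fun j => pL (y j)) F 1 → Oj m y (fun j z => F j (pL z)) 1 :=
    fun hF => Oj.comp (f := fun _ => pL) (fun _ => pL.contDiff.contDiffAt) m
      ((Oj.cst pL).congr' fun _ _ => pL.fderiv) hF
  have t := h.fd
  exact ⟨c ((h.pred.apl (.cst _)).apl (.cst _)),
    (c (((((((t.apl (.cst (pL (ee a)))).apl (.cst (pL (ee b)))).apl n).add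
      (((t.apl (.cst (pL (ee b)))).apl (.cst (pL (ee a)))).apl n)).sub
      (((t.apl n).apl (.cst (pL (ee a)))).apl (.cst (pL (ee b))))).smull
      (.cst (2 : ℝ)⁻¹)).neg)).congr' fun j z => by
        simp only [dat, Matrix.of_apply, C1_ap, smul_eq_mul, div_eq_mul_inv]⟩

/-- **DATA.** -/
theorem data : DATA := by
  intro m B K U hK hU hUK
  obtain ⟨χ0, c1, c0, c01⟩ := exists_contMDiffMap_one_nhds_of_subset_interior 𝓘(ℝ, X)
    isClosed_closure hUK (n := ⊤)
  obtain ⟨χ, sχ, c1, c0, c01⟩ : ∃ χ : X → ℝ, ContDiff ℝ ∞ χ ∧ (∀ y ∈ U, χ y = 1) ∧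
      (∀ y ∉ K, χ y = 0) ∧ ∀ y, χ y ∈ Icc (0 : ℝ) 1 :=
    ⟨χ0, χ0.contMDiff.contDiff, fun y hy => c1.self_of_nhdsSet _ (subset_closure hy), c0, c01⟩
  let J := {z : (Tw × Set R4) × X // (Lv z.1.1 z.1.2 ∧ ∀ y ∈ K, pt 0 y ∈ z.1.2 ∧
    Nice (m + 1) B z.1.1 Prod.fst (pt 0 y)) ∧ z.2 ∈ K}
  have o1 : Oj (m + 1) (fun j : J => pL j.1.2) (fun j => tb j.1.1.1) 1 :=
    oj_tb fun j => ⟨j.2.1.1.isOpen, j.2.1.1.met, (j.2.1.2 _ j.2.2).1, (j.2.1.2 _ j.2.2).2.bd⟩
  obtain ⟨C, -, hC⟩ := o1.val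
  have kc : ∀ j : J, tb j.1.1.1 (pL j.1.2) ∈ Kc B C := fun j => by
    obtain ⟨a, b⟩ := j.2.1.2 _ j.2.2
    have r := rp_tb j.2.1.1.isOpen j.2.1.1.met
    refine ⟨(hC j).trans_eq (mul_one _), r.symm _ a, fun v hv => ?_, b.tl.imp fun u hu => ?_⟩
    · rw [← pL_eq, ← r.eq _ a]
      exact b.sp v (by rw [fderiv_fst]; exact hv)
    · rw [← pL_eq, ← r.eq _ a]
      exact hu
  have oχ : Oj m (fun j : J => j.1.2) (fun _ => χ) 1 :=
    .fix hK (fun _ _ => sχ.contDiffAt) fun j => j.2.2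
  have o2 : ∀ a b, Oj m (fun j : J => j.1.2) (fun j z => (cut χ (dat j.1.1.1)).h z a b) 1 ∧
      Oj m (fun j : J => j.1.2) (fun j z => (cut χ (dat j.1.1.1)).K z a b) 1 := fun a b =>
    ⟨(oχ.smull (oj_dat o1 kc a b).1).add (((Oj.cst 1).sub oχ).smull (.cst _)),
      oχ.smull (oj_dat o1 kc a b).2⟩
  choose C1 _ h1 using fun a b => (o2 a b).1.bd
  choose C2 _ h2 using fun a b => (o2 a b).2.bd
  obtain ⟨R, hR⟩ := hK.isBounded.subset_ball 0
  obtain ⟨B', b1, b2, b3, b4⟩ : ∃ B', 1 ≤ B' ∧ R ≤ B' ∧ 3 * B ≤ B' ∧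
      ∀ a b, C1 a b ≤ B' ∧ C2 a b ≤ B' := by
    obtain ⟨E, hE⟩ := (finite_range fun z : Fin 3 × Fin 3 => max (C1 z.1 z.2) (C2 z.1 z.2)).bddAbove
    refine ⟨max (max 1 R) (max (3 * B) E), by simp, by simp, by simp, fun a b => ?_⟩
    exact max_le_iff.1 ((hE ⟨(a, b), rfl⟩).trans (le_max_of_le_right (le_max_right _ _)))
  refine ⟨B', fun g D l H => ?_⟩
  have r := rp_tb l.isOpen l.met
  let j : ∀ y ∈ K, J := fun y hy => ⟨((g, D), y), ⟨l, H⟩, hy⟩
  have fl : ∀ y ∉ K, (cut χ (dat g)).h y = 1 ∧ (cut χ (dat g)).K y = 0 := fun y hy => by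
    simp [cut, c0 y hy]
  have ev : ∀ y ∉ K, ∀ a b, (fun z => (cut χ (dat g)).h z a b) =ᶠ[𝓝 y]
      (fun _ => (1 : Matrix (Fin 3) (Fin 3) ℝ) a b) ∧
      (fun z => (cut χ (dat g)).K z a b) =ᶠ[𝓝 y] fun _ => 0 := fun y hy a b => by
    constructor <;> filter_upwards [hK.isClosed.isOpen_compl.mem_nhds hy] with z hz
    exacts [by rw [(fl z hz).1], by rw [(fl z hz).2]; rfl]
  have sy : ∀ y, ((cut χ (dat g)).h y).IsSymm ∧ ((cut χ (dat g)).K y).IsSymm := fun y => by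
    by_cases hy : y ∈ K
    · refine ⟨(Matrix.IsSymm.smul (.ext fun a b => r.symm _ (H y hy).1 _ _) _).add
        (Matrix.isSymm_one.smul _), Matrix.IsSymm.smul (.ext fun a b => ?_) _⟩
      simp only [dat, Matrix.of_apply, C1_ap, ← pL_eq, add_comm]
      rw [r.dsym (H y hy).1 (nn _)]
    · rw [(fl y hy).1, (fl y hy).2]
      exact ⟨Matrix.isSymm_one, Matrix.isSymm_zero⟩
  have pos : ∀ y (v : Fin 3 → ℝ),
      ∑ i, v i ^ 2 ≤ B' * ∑ i, ∑ k, (cut χ (dat g)).h y i k * v i * v k := fun y v => by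
    have e1 : ∑ i, ∑ k, (1 : Matrix (Fin 3) (Fin 3) ℝ) i k * v i * v k = ∑ i, v i ^ 2 := by
      simp [Matrix.one_apply, sq]
    have p : 0 ≤ ∑ i, v i ^ 2 := by positivity
    by_cases hy : y ∈ K
    · have k := kc (j y hy)
      have a := k.2.2.1 (∑ i, v i • pL (ee i)) (by simp [Prod.fst_sum, ← pL_eq, pt])
      have e2 : ∑ i, ∑ k, (cut χ (dat g)).h y i k * v i * v k =
          χ y * tb g (pL y) (∑ i, v i • pL (ee i)) (∑ i, v i • pL (ee i)) +
            (1 - χ y) * ∑ i, v i ^ 2 := by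
        rw [← e1]
        simp only [cut, dat, map_add, map_smul, Matrix.add_apply, Matrix.smul_apply,
          Matrix.of_apply, add_apply, smul_apply, smul_eq_mul, Fin.sum_univ_three]
        ring
      have q := sq_le v
      have s := (sq_nonneg _).trans a
      have s' := (mul_nonneg_iff_of_pos_left (kc_pos k)).1 s
      rw [e2]
      nlinarith [mul_nonneg (c01 y).1 (mul_nonneg (sub_nonneg.2 b3) s'),
        mul_nonneg (sub_nonneg.2 (c01 y).2) (mul_nonneg (sub_nonneg.2 b1) p),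
        mul_nonneg (c01 y).1 (sub_nonneg.2 (q.trans (mul_le_mul_of_nonneg_left a zero_le_three)))]
    · rw [(fl y hy).1, e1]
      exact le_mul_of_one_le_left p b1
  have mU : U ⊆ K := subset_closure.trans (hUK.trans interior_subset)
  have eq : ∀ y ∈ U, (cut χ (dat g)).h y = (dat g).h y ∧ (cut χ (dat g)).K y = (dat g).K y :=
    fun y hy => by simp [cut, c1 y hy]
  refine ⟨cut χ (dat g), ⟨fun a b => ⟨contDiff_iff_contDiffAt.2 fun y => ?_,
    contDiff_iff_contDiffAt.2 fun y => ?_⟩, sy, fun y hy => fl y fun k => ?_, fun y a b => ?_, pos⟩,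
    fun y hy => ⟨?_, ?_⟩⟩
  · by_cases hy : y ∈ K
    exacts [(o2 a b).1.sm (j y hy), contDiffAt_const.congr_of_eventuallyEq (ev y hy a b).1]
  · by_cases hy : y ∈ K
    exacts [(o2 a b).2.sm (j y hy), contDiffAt_const.congr_of_eventuallyEq (ev y hy a b).2]
  · exact (hy.trans' b2).not_gt (mem_ball_zero_iff.1 (hR k))
  · by_cases hy : y ∈ K
    · exact ⟨(h1 a b (j y hy)).mono le_rfl ((mul_one _).trans_le (b4 a b).1),
        (h2 a b (j y hy)).mono le_rfl ((mul_one _).trans_le (b4 a b).2)⟩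
    · refine ⟨((P354YI.jb_const m _ y).congr (ev y hy a b).1).mono le_rfl (le_trans ?_ b1),
        ((P354YI.jb_const m _ y).congr (ev y hy a b).2).mono le_rfl
          (norm_zero.trans_le (zero_le_one.trans b1))⟩
      rw [Matrix.one_apply]
      split_ifs <;> simp
  · have k := kc (j y (mU hy))
    have a := (H y (mU hy)).1
    refine ⟨nn (tb g (pt 0 y)), (r.eq _ a _ _).trans (nn_nn k), nn_pos k, fun i l => ?_⟩
    rw [(eq y hy).1, (eq y hy).2, r.eq _ a, r.eq _ a, r.chr a]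
    exact ⟨nn_ap k _ rfl, rfl, rfl⟩
  · have S : P354XK.Sl g (tb g) D U pL (fun z => nn (tb g (pL z))) (cut χ (dat g)) := by
      refine ⟨r, hU, pL.contDiff.contDiffOn, fun z hz => (P354YI.at_comp (G := nn)
        (f := fun z => tb g (pL z)) (nn_cd (kc (j z (mU hz)))) (P354YI.at_comp (f := pL)
          (r.at (H z (mU hz)).1) pL.contDiff.contDiffAt)).contDiffWithinAt,
        fun z hz => (H z (mU hz)).1, fun z _ => ?_, fun z hz => nn_nn (kc (j z (mU hz))),
        fun z hz i => ?_, fun z hz i k => ?_, fun z hz i k => ?_⟩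
      · refine .of_dotProduct_mulVec_pos (Matrix.isHermitian_iff_isSymm.2 (sy z).1) fun v hv => ?_
        have p : 0 < ∑ i, v i ^ 2 := by
          obtain ⟨i, hi⟩ := Function.ne_iff.1 hv
          exact Finset.sum_pos' (fun _ _ => sq_nonneg _) ⟨i, Finset.mem_univ _, sq_pos_of_ne_zero hi⟩
        have := (mul_pos_iff_of_pos_left (one_pos.trans_le b1)).1 (p.trans_le (pos z v))
        refine this.trans_eq ?_
        simp only [dotProduct, Matrix.mulVec, Fin.sum_univ_three, star_trivial]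
        ring
      · rw [pd_pL]
        exact nn_ap (kc (j z (mU hz))) _ rfl
      · rw [pd_pL, pd_pL, (eq z hz).1]; rfl
      · rw [P354XK.om_eq (J := pL) r (H z (mU hz)).1, pd_pL, pd_pL, P354XK.pd_const, (eq z hz).2]
        simp [dat]
    exact S.constr hy (r.vac.1 l.vac _ (H y (mU hy)).1)

end Vale.Agent.P354XA
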