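import Vale.Agent.P354XA.Data
import Vale.Agent.P354YI.Defs
import Vale.Agent.P354YI.Met

/-!
The induced data depend Lipschitz continuously on the metric.
-/

set_option maxSynthPendingDepth 3

open scoped ContDiff
open Set Filter Topology

noncomputable section

namespace Vale.Agent.P354XA

open Vale.Agent.P354n (R4)
open Vale.Agent.P354I (X Dat pd ee)
open Vale.Agent.P354R (Met chr)
open Vale.Agent.P354RC
open Vale.Agent.P354XD (tb rp_tb)
open Vale.Agent.P354XE (Tw pt Bd)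
open Vale.Agent.P354XV
open Vale.Agent.P354YI (Oj Os Jb Gd Cls INDL)

theorem sp_eq {v : R4} (hv : v.1 = 0) :
    v = v.2.1 • pL (ee 0) + v.2.2.1 • pL (ee 1) + v.2.2.2 • pL (ee 2) := by
  simp [← pL_eq, pt, ee, Prod.ext_iff, hv]

theorem nn_uniq {B C : ℝ} {h : B2} (hh : h ∈ Kc B C) {n : R4} (h1 : h n n = -1) (h2 : 0 < n.1)
    (h3 : ∀ v : R4, v.1 = 0 → h v n = 0) : n = nn h := by
  have p := nn_pos hh
  have z : (n - (n.1 / (nn h).1) • nn h).1 = 0 := by simp [p.ne']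
  have k := hh.2.2.1 _ z
  rw [map_sub (h _), map_smul (h _), h3 _ z, nn_ap hh _ z, smul_zero, sub_zero, mul_zero] at k
  have e := sub_eq_zero.1 (norm_eq_zero.1 (pow_eq_zero_iff two_ne_zero |>.1
    (k.antisymm (sq_nonneg _))))
  have q := div_pos h2 p
  generalize n.1 / (nn h).1 = t at e q
  rw [e] at h1 ⊢
  simp only [map_smul, smul_apply, nn_nn hh, smul_eq_mul] at h1
  rw [show t = 1 by nlinarith, one_smul]

variable {g : Tw} {D : Set R4} {d : Dat} {y : X} {B C : ℝ}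

theorem in0_dat (r : Rp g (tb g) D) (a : pt 0 y ∈ D) (k : tb g (pL y) ∈ Kc B C) (I : In0 g d y) :
    d.h y = (dat g).h y ∧ d.K y = (dat g).K y := by
  obtain ⟨n, n1, n2, n3⟩ := I
  simp only [r.eq _ a, r.chr a] at n1 n3
  have e := nn_uniq k n1 n2 fun v hv => by
    rw [sp_eq hv]
    simp only [map_add, map_smul, add_apply, smul_apply, ← pL_eq, (n3 _ 0).1, smul_zero, add_zero]
  exact ⟨Matrix.ext fun i j => (n3 i j).2.1.symm, Matrix.ext fun i j => by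
    rw [← (n3 i j).2.2, e]; rfl⟩

theorem dat_in0 (r : Rp g (tb g) D) (a : pt 0 y ∈ D) (k : tb g (pL y) ∈ Kc B C) :
    In0 g (dat g) y := by
  refine ⟨nn (tb g (pt 0 y)), (r.eq _ a _ _).trans (nn_nn k), nn_pos k, fun i l => ?_⟩
  rw [r.eq _ a, r.eq _ a, r.chr a]
  exact ⟨nn_ap k _ rfl, rfl, rfl⟩

theorem nice_kc {m : ℕ} {p : R4} (r : Rp g (tb g) D) (a : p ∈ D) (b : Nice m B g Prod.fst p) :
    tb g p ∈ Kc B B := by
  have B0 : 0 ≤ B := let ⟨_, k, _⟩ := b.tl; (norm_nonneg _).trans k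
  refine ⟨ContinuousLinearMap.opNorm_le_bound₂ _ B0 fun v w => ?_, r.symm _ a, fun v hv => ?_,
    b.tl.imp fun u hu => ?_⟩
  · have := b.bd 0 (Nat.zero_le _) v w
    rwa [norm_iteratedFDeriv_zero, r.eq _ a, ← mul_assoc] at this
  · rw [← r.eq _ a]
    exact b.sp v (by rw [fderiv_fst]; exact hv)
  · rw [← r.eq _ a]
    exact hu

/-- The induced data solve the constraints. -/
theorem dat_cn (l : Lv g D) {U : Set X} (hU : IsOpen U)
    (H : ∀ y ∈ U, pt 0 y ∈ D ∧ tb g (pL y) ∈ Kc B C ∧ In0 g d y) (hy : y ∈ U) : CnAt d y := by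
  have r := rp_tb l.isOpen l.met
  have eq := fun z hz => in0_dat r (H z hz).1 (H z hz).2.1 (H z hz).2.2
  have S : P354XK.Sl g (tb g) D U pL (fun z => nn (tb g (pL z))) d := by
    refine ⟨r, hU, pL.contDiff.contDiffOn, fun z hz => (P354YI.at_comp (G := nn)
      (f := fun z => tb g (pL z)) (nn_cd (H z hz).2.1) (P354YI.at_comp (f := pL)
        (r.at (H z hz).1) pL.contDiff.contDiffAt)).contDiffWithinAt,
      fun z hz => (H z hz).1, fun z hz => ?_, fun z hz => nn_nn (H z hz).2.1,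
      fun z hz i => ?_, fun z hz i k => ?_, fun z hz i k => ?_⟩
    · have k := (H z hz).2.1
      rw [(eq z hz).1]
      refine .of_dotProduct_mulVec_pos (Matrix.isHermitian_iff_isSymm.2
        (.ext fun a b => k.2.1 _ _)) fun v hv => ?_
      have p : 0 < ∑ i, v i ^ 2 := by
        obtain ⟨i, hi⟩ := Function.ne_iff.1 hv
        exact Finset.sum_pos' (fun _ _ => sq_nonneg _) ⟨i, Finset.mem_univ _, sq_pos_of_ne_zero hi⟩
      have a := k.2.2.1 (∑ i, v i • pL (ee i)) (by simp [Prod.fst_sum, ← pL_eq, pt])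
      have := (mul_pos_iff_of_pos_left (kc_pos k)).1 (lt_of_lt_of_le
        (by linarith [sq_le v]) a)
      refine this.trans_eq ?_
      simp only [dotProduct, Matrix.mulVec, Fin.sum_univ_three, star_trivial, dat, map_add,
        map_smul, Matrix.of_apply, add_apply, smul_apply, smul_eq_mul]
      ring
    · rw [pd_pL]
      exact nn_ap (H z hz).2.1 _ rfl
    · rw [pd_pL, pd_pL, (eq z hz).1]; rfl
    · rw [P354XK.om_eq (J := pL) r (H z hz).1, pd_pL, pd_pL, P354XK.pd_const, (eq z hz).2]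
      simp [dat]
  exact S.constr hy (r.vac.1 l.vac _ (H y hy).1)

theorem kc_bd (B C : ℝ) : ∃ c > 0, ∃ E, ∀ h ∈ Kc B C, ‖h.inverse‖ ≤ E ∧ (gt h).1 ≤ -c := by
  have k : ∀ h ∈ Kc B C, ContinuousAt (fun h : B2 => h.inverse) h := fun h hh =>
    ((kc_inv hh).contDiffAt_map_inverse (n := 0)).continuousAt
  obtain ⟨E, hE⟩ := (kc_cpt B C).exists_bound_of_continuousOn fun h hh =>
    (k h hh).continuousWithinAt
  obtain ⟨c, c0, hc⟩ := (kc_cpt B C).exists_forall_le' (f := fun h => -(gt h).1) (a := 0)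
    (fun h hh => ((k h hh).clm_apply continuousAt_const).fst.neg.continuousWithinAt)
    fun h hh => neg_pos.2 (gt_neg hh)
  exact ⟨c, c0, E, fun h hh => ⟨hE h hh, le_neg.1 (hc h hh)⟩⟩

section
variable {J E : Type} [NormedAddCommGroup E] [NormedSpace ℝ E] {m : ℕ} {x : J → E}
  {h h' : J → E → B2} {μ : J → ℝ}

/-- The unit normal depends Lipschitz continuously on the form. -/
theorem oj_nn_sub (a : Oj (m + 1) x h 1) (a' : Oj (m + 1) x h' 1) (k : ∀ j, h j (x j) ∈ Kc B C)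
    (k' : ∀ j, h' j (x j) ∈ Kc B C) (e : Oj m x (fun j y => h j y - h' j y) μ) :
    Oj m x (fun j p => nn (h j p) - nn (h' j p)) μ := by
  obtain ⟨c, c0, F, hF⟩ := kc_bd B C
  have i := a.inv (fun j => kc_inv (k j)) ⟨F, fun j => (hF _ (k j)).1⟩
  have i' := a'.inv (fun j => kc_inv (k' j)) ⟨F, fun j => (hF _ (k' j)).1⟩
  have s := Oj.inv_sub (fun j => kc_inv (k j)) (fun j => kc_inv (k' j)) a.sm a'.sm i.pred i'.pred e
  let S : Set R4 := {v | v.1 ≤ -c} ∩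
    Metric.closedBall 0 (F * ‖ContinuousLinearMap.fst ℝ ℝ (ℝ × ℝ × ℝ)‖)
  have cS : IsCompact S := (isCompact_closedBall _ _).inter_left
    (isClosed_le continuous_fst continuous_const)
  have vS : Convex ℝ S := (convex_halfSpace_le (LinearMap.fst ℝ ℝ _).isLinear _).inter
    (convex_closedBall _ _)
  have mS : ∀ u ∈ Kc B C, gt u ∈ S := fun u hu => ⟨(hF u hu).2, mem_closedBall_zero_iff.2
    ((ContinuousLinearMap.le_opNorm _ _).trans (by gcongr; exact (hF u hu).1))⟩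
  have G : Os (m + 1) (fun _ : J => S) (fun _ (v : R4) => -(√(-v.1))⁻¹ • v) 1 :=
    Oj.fix cS (fun v hv => by
      have p : 0 < -v.1 := by linarith [show v.1 ≤ -c from hv.1]
      exact ((contDiffAt_fst.neg.sqrt p.ne').inv (Real.sqrt_pos.2 p).ne').neg.smul contDiffAt_id)
      fun j => j.2
  have t := i.apl (.cst (ContinuousLinearMap.fst ℝ ℝ (ℝ × ℝ × ℝ)))
  have t' := i'.apl (.cst (ContinuousLinearMap.fst ℝ ℝ (ℝ × ℝ × ℝ)))
  simpa only [one_mul, nn, gt] using Oj.lip t.sm t'.sm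
    (fun j => vS.segment_subset (mS _ (k j)) (mS _ (k' j))) m (t.fd.le (Nat.sub_le _ _))
    (t'.fd.le (Nat.sub_le _ _)) (s.apl (.cst (ContinuousLinearMap.fst ℝ ℝ (ℝ × ℝ × ℝ)))) G

end

/-- The difference of the induced data. -/
theorem oj_dat_sub {J : Type} {m : ℕ} {y : J → X} {g g' : J → Tw} {μ : J → ℝ}
    (h : Oj (m + 1) (fun j => pL (y j)) (fun j => tb (g j)) 1)
    (h' : Oj (m + 1) (fun j => pL (y j)) (fun j => tb (g' j)) 1)
    (k : ∀ j, tb (g j) (pL (y j)) ∈ Kc B C) (k' : ∀ j, tb (g' j) (pL (y j)) ∈ Kc B C)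
    (e : Oj (m + 1) (fun j => pL (y j)) (fun j p => tb (g j) p - tb (g' j) p) μ) (a b : Fin 3) :
    Oj m y (fun j z => (dat (g j)).h z a b - (dat (g' j)).h z a b) μ ∧
      Oj m y (fun j z => (dat (g j)).K z a b - (dat (g' j)).K z a b) μ := by
  have n : Oj m (fun j => pL (y j)) (fun j p => nn (tb (g j) p)) 1 :=
    Oj.comp h.sm m (h.fd.le (Nat.sub_le _ _)) (.fix (kc_cpt B C) (fun _ => nn_cd) k)
  have n' := oj_nn_sub h h' k k' e.pred
  have c : ∀ {F : J → R4 → ℝ}, Oj m (fun j => pL (y j)) F μ → Oj m y (fun j z => F j (pL z)) μ :=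
    fun hF => Oj.comp (f := fun _ => pL) (fun _ => pL.contDiff.contDiffAt) m
      ((Oj.cst pL).congr' fun _ _ => pL.fderiv) hF
  have t : Oj m (fun j => pL (y j)) (fun j p => fderiv ℝ (tb (g j)) p - fderiv ℝ (tb (g' j)) p) μ :=
    e.fd.congr fun j => by
      filter_upwards [P354YI.ev_dif (h.sm j), P354YI.ev_dif (h'.sm j)] with p h1 h2 using
        (fderiv_fun_sub h1 h2).symm
  have t' := h'.fd
  have A := Oj.cst (m := m) (x := fun j => pL (y j)) (pL (ee a))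
  have A' := Oj.cst (m := m) (x := fun j => pL (y j)) (pL (ee b))
  exact ⟨c ((e.pred.apl A).apl A'),
    (c (((((((t.apl A).apl A').apl n).add (((t.apl A').apl A).apl n)).sub
      (((t.apl n).apl A).apl A')).add (((((t'.apl A).apl A').apr n').add
      (((t'.apl A').apl A).apr n')).sub (((t'.apr n').apl A).apl A'))).smull
      (.cst (-(2 : ℝ)⁻¹)))).congr' fun j z => by
        simp only [dat, Matrix.of_apply, C1_ap, smul_eq_mul, map_sub, sub_apply]
        ring⟩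

/-- **INDL.** -/
theorem indl : INDL := by
  intro m B
  let J := {z : (Tw × Set R4) × (Tw × Set R4) × X × ℝ // Lv z.1.1 z.1.2 ∧ Lv z.2.1.1 z.2.1.2 ∧
    pt 0 z.2.2.1 ∈ z.1.2 ∧ pt 0 z.2.2.1 ∈ z.2.1.2 ∧ Nice (m + 1) B z.1.1 Prod.fst (pt 0 z.2.2.1) ∧
    Nice (m + 1) B z.2.1.1 Prod.fst (pt 0 z.2.2.1) ∧
    Bd (m + 1) (z.1.1 - z.2.1.1) (pt 0 z.2.2.1) z.2.2.2}
  have o1 : Oj (m + 1) (fun j : J => pL j.1.2.2.1) (fun j => tb j.1.1.1) 1 :=
    oj_tb fun j => ⟨j.2.1.isOpen, j.2.1.met, j.2.2.2.1, j.2.2.2.2.2.1.bd⟩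
  have o2 : Oj (m + 1) (fun j : J => pL j.1.2.2.1) (fun j => tb j.1.2.1.1) 1 :=
    oj_tb fun j => ⟨j.2.2.1.isOpen, j.2.2.1.met, j.2.2.2.2.1, j.2.2.2.2.2.2.1.bd⟩
  have k1 := fun j : J => nice_kc (rp_tb j.2.1.isOpen j.2.1.met) j.2.2.2.1 j.2.2.2.2.2.1
  have k2 := fun j : J => nice_kc (rp_tb j.2.2.1.isOpen j.2.2.1.met) j.2.2.2.2.1 j.2.2.2.2.2.2.1
  have o3 : Oj (m + 1) (fun j : J => pL j.1.2.2.1) (fun j p => tb j.1.1.1 p - tb j.1.2.1.1 p)
      fun j => j.1.2.2.2 :=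
    (Oj.tb (g := fun j : J => j.1.1.1 - j.1.2.1.1) (fun j v w =>
      ((j.2.1.met.smooth v w).contDiffAt (j.2.1.isOpen.mem_nhds j.2.2.2.1)).sub
      ((j.2.2.1.met.smooth v w).contDiffAt (j.2.2.1.isOpen.mem_nhds j.2.2.2.2.1)))
      fun j => j.2.2.2.2.2.2.2).congr' fun _ _ => (P354YI.tb_sub _ _ _).symm
  choose C1 c1 h1 using fun a b => (oj_dat_sub o1 o2 k1 k2 o3 a b).1.bd
  choose C2 c2 h2 using fun a b => (oj_dat_sub o1 o2 k1 k2 o3 a b).2.bd
  obtain ⟨E, hE⟩ := (finite_range fun z : Fin 3 × Fin 3 => max (C1 z.1 z.2) (C2 z.1 z.2)).bddAbove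
  refine ⟨E, fun g D g0 D0 d d0 U ε hU l l0 H y hy => ?_⟩
  let j : ∀ z ∈ U, J := fun z hz => ⟨((g, D), (g0, D0), z, ε), l, l0, (H z hz).1, (H z hz).2.1,
    (H z hz).2.2.2.2⟩
  have r := rp_tb l.isOpen l.met
  have e1 := fun z hz => in0_dat r (H z hz).1 (k1 (j z hz)) (H z hz).2.2.1
  have e2 := fun z hz => in0_dat (rp_tb l0.isOpen l0.met) (H z hz).2.1 (k2 (j z hz))
    (H z hz).2.2.2.1
  have ev := hU.eventually_mem hy
  have ε0 : 0 ≤ ε := o3.nn (j y hy)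
  refine ⟨⟨fun a b => ⟨((oj_dat o1 k1 a b).1.sm (j y hy)).congr_of_eventuallyEq
    (ev.mono fun z hz => congrFun₂ (e1 z hz).1 a b), ((oj_dat o1 k1 a b).2.sm
      (j y hy)).congr_of_eventuallyEq (ev.mono fun z hz => congrFun₂ (e1 z hz).2 a b)⟩, ?_,
    dat_cn l hU (fun z hz => ⟨(H z hz).1, k1 (j z hz), (H z hz).2.2.1⟩) hy⟩, fun a b => ?_⟩
  · rw [(e1 y hy).1, (e1 y hy).2]
    refine ⟨.ext fun a b => r.symm _ (H y hy).1 _ _, .ext fun a b => ?_⟩
    simp only [dat, Matrix.of_apply, C1_ap, ← pL_eq, add_comm]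
    rw [r.dsym (H y hy).1 (nn _)]
  · have := max_le_iff.1 (hE ⟨(a, b), rfl⟩)
    exact ⟨((h1 a b (j y hy)).congr (ev.mono fun z hz => by simp only [(e1 z hz).1, (e2 z hz).1, j])).mono
      le_rfl (mul_le_mul_of_nonneg_right this.1 ε0), ((h2 a b (j y hy)).congr
        (ev.mono fun z hz => by simp only [(e1 z hz).2, (e2 z hz).2, j])).mono le_rfl
        (mul_le_mul_of_nonneg_right this.2 ε0)⟩

end Vale.Agent.P354XA
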