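import Vale.Agent.P354XA.Far
import Vale.Agent.P354YR.Ind
import Vale.Agent.P354YT.Defs
import Vale.Agent.P354TR.Trans

/-!
The chart (s, y) of the flow of Lo from the slice T = 0, with a scale parameter l.
-/

set_option linter.unusedSectionVars false

open scoped ContDiff
open Set Filter Topology Real

noncomputable section

namespace Vale.Agent.P354XA

open Vale.Agent.P354n (R4)
open Vale.Agent.P354I (X dT rnd Sg rm rp)
open Vale.Agent.P354R (Del Pull)
open Vale.Agent.P354XS (zc)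
open Vale.Agent.P354XE
open Vale.Agent.P354YT (qm)
open Vale.Agent.P354YR (pol pol_c pol_rd pol_zc pol_fd pol_dT pol_dq pol_rnd rz kin ci DI Oh b_pos
  b_sq M_pos rp_pos rm_lt rm_nn ka_pos xs_ne s_rd)

/-- The radius of the starting point and the radius; the primitives of 2 M r / Del and a / Del. -/
def r0 (M a l : ℝ) (p : R4) : ℝ := rd p + l * M + l ^ 2 * (M ^ 2 - a ^ 2) / (4 * rd p)
def r1 (M a l : ℝ) (p : R4) : ℝ := r0 M a l p + p.1
def tl (M a l x : ℝ) : ℝ :=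
  l * ((log (x - l * rp M a) - rm M a / rp M a * log (x - l * rm M a)) / (2 * ka M a))
def jl (M a l x : ℝ) : ℝ :=
  a / (2 * √(M ^ 2 - a ^ 2)) * (log (x - l * rp M a) - log (x - l * rm M a))

/-- The chart, its domain, and the Kerr metric in the chart. -/
def Xt (M a l : ℝ) (p : R4) : ℝ := p.1 + 2 * tl M a l (r1 M a l p) - tl M a l (r0 M a l p)
def Xc (M a l : ℝ) (p : R4) : ℝ := 2 * jl M a l (r1 M a l p) - jl M a l (r0 M a l p)
def Xi (M a l : ℝ) : R4 → R4 := pol (Xt M a l) (fun p => r1 M a l p / rd p) (Xc M a l)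
def DX (M a l : ℝ) : Set R4 :=
  {p | l * √(M ^ 2 - a ^ 2) / 2 < rd p ∧ l * rp M a < r1 M a l p}
def GX (M a l : ℝ) : Tw := pb (Xi M a l) (gin (l * M) (l * a))

/-- The derivative of r0 with respect to the length of y. -/
def e0 (M a l : ℝ) (p : R4) : ℝ := 1 - l ^ 2 * (M ^ 2 - a ^ 2) / (4 * rd p ^ 2)

variable {M a l x ρ : ℝ} {p q : R4}

theorem tl_one : tl M a 1 = P354YT.tb M a := funext fun x => by simp [tl, P354YT.tb]

/-- Joint smoothness. -/
theorem s_Xi {Q : Type} [NormedAddCommGroup Q] [NormedSpace ℝ Q] {z : Q} {l : Q → ℝ} {f : Q → R4}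
    (hl : ContDiffAt ℝ ∞ l z) (hf : ContDiffAt ℝ ∞ f z) (h0 : xs (f z) ≠ 0)
    (k0 : l z * rp M a < r0 M a (l z) (f z)) (k1 : l z * rp M a < r1 M a (l z) (f z))
    (k : l z * rm M a ≤ l z * rp M a) : ContDiffAt ℝ ∞ (fun z => Xi M a (l z) (f z)) z := by
  have r := s_rd hf h0
  have p0 := (P354YR.rd_pos h0).ne'
  have s0 : ContDiffAt ℝ ∞ (fun z => r0 M a (l z) (f z)) z :=
    (r.add (hl.mul contDiffAt_const)).add (((hl.pow 2).mul contDiffAt_const).div
      (contDiffAt_const.mul r) (by positivity))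
  have s1 : ContDiffAt ℝ ∞ (fun z => r1 M a (l z) (f z)) z := s0.add hf.fst
  have lg : ∀ {u : Q → ℝ} {c : ℝ}, ContDiffAt ℝ ∞ u z → l z * c < u z →
      ContDiffAt ℝ ∞ (fun z => log (u z - l z * c)) z := fun hu hc =>
    (hu.sub (hl.mul contDiffAt_const)).log (sub_pos.2 hc).ne'
  have t : ∀ {u : Q → ℝ}, ContDiffAt ℝ ∞ u z → l z * rp M a < u z →
      ContDiffAt ℝ ∞ (fun z => tl M a (l z) (u z)) z ∧
        ContDiffAt ℝ ∞ (fun z => jl M a (l z) (u z)) z := fun hu hc =>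
    ⟨hl.mul (((lg hu hc).sub (contDiffAt_const.mul (lg hu (k.trans_lt hc)))).div_const _),
      contDiffAt_const.mul ((lg hu hc).sub (lg hu (k.trans_lt hc)))⟩
  have a1 := (hf.fst.add ((contDiffAt_const (c := (2 : ℝ))).mul (t s1 k1).1)).sub (t s0 k0).1
  have a2 := s1.div r p0
  have a3 := ((contDiffAt_const (c := (2 : ℝ))).mul (t s1 k1).2).sub (t s0 k0).2
  exact a1.prodMk ((a2.mul ((a3.cos.mul hf.snd.fst).sub (a3.sin.mul hf.snd.snd.fst))).prodMk
    ((a2.mul ((a3.sin.mul hf.snd.fst).add (a3.cos.mul hf.snd.snd.fst))).prodMk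
      (a2.mul hf.snd.snd.snd)))

/-- The form dual to Lo. -/
theorem gin_Lo' (h : rd p ≠ 0) (hD : Del M a (rd p) ≠ 0) (v : R4) :
    gin M a p (Lo M a p) v = -v.1 + (1 + 2 * qm M a (rd p)) * dr p v +
      a * (dq p v - (1 - zc (xs p) ^ 2) * (2 * (a / Del M a (rd p)) * dr p v)) := by
  have S0 : Sg a (rd p) (xs p) ≠ 0 := ((pow_pos ((rd_nonneg p).lt_of_ne' h) 2).trans_le
    (Sg_ge a p)).ne'
  have e : ip p v = rd p * dr p v := by rw [dr_eq]; field_simp
  have e1 : ip p (Lo M a p) = rd p := by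
    have := dr_Lo (M := M) (a := a) h
    rwa [dr_eq, div_eq_one_iff_eq h] at this
  have e2 : p.2.2.2 ^ 2 / rd p ^ 2 * a ^ 2 = Sg a (rd p) (xs p) - rd p ^ 2 := by rw [Sg_eq]; ring
  have e3 : 2 * M * rd p = rd p ^ 2 + a ^ 2 - Del M a (rd p) := by unfold Del; ring
  rw [gin, kf, kf, rnd_eq, ip_Lo h, e, e1, dr_Lo h, dq_Lo h, Lo_fst, lo1, qm, e3, P354YR.zc_c,
    div_pow]
  generalize p.2.2.2 ^ 2 / rd p ^ 2 = z at *
  generalize Sg a (rd p) (xs p) = S at *
  generalize Del M a (rd p) = D at *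
  have e4 : S = rd p ^ 2 + z * a ^ 2 := by linarith
  field_simp
  rw [e4]
  ring

theorem rd_sc (hρ : 0 ≤ ρ) (c : ℝ) : rd (ρ • p + (c, 0)) = ρ * rd p :=
  P354YR.rd_eq (mul_nonneg hρ (rd_nonneg p)) (by rw [mul_pow, rd_sq]; simp [ip]; ring)

/-- The homogeneity of the Kerr metric. -/
theorem gin_sc (hρ : 0 < ρ) (c : ℝ) : gin M a (ρ • p + (c, 0)) = gin (ρ⁻¹ * M) (ρ⁻¹ * a) p := by
  funext v w
  have e : ∀ v, ip (ρ • p + (c, 0)) v = ρ * ip p v := fun v => by simp [ip]; ring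
  have e1 : ∀ v, dr (ρ • p + (c, 0)) v = dr p v := fun v => by
    rw [dr_eq, dr_eq, e, rd_sc hρ.le, mul_div_mul_left _ _ hρ.ne']
  have e2 : ∀ v, dq (ρ • p + (c, 0)) v = ρ⁻¹ * dq p v := fun v => by
    rw [dq_eq, dq_eq, rd_sc hρ.le]; simp; field_simp
  have e3 : Sg a (ρ * rd p) (xs (ρ • p + (c, 0))) = ρ ^ 2 * Sg (ρ⁻¹ * a) (rd p) (xs p) := by
    rw [← rd_sc hρ.le c, Sg_eq, Sg_eq, rd_sc hρ.le]; simp; field_simp
  simp only [gin, kf, rnd_eq, e, e1, e2, rd_sc hρ.le, e3]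
  field_simp

section
variable (h : |a| < M)
include h

theorem Del_l (l x : ℝ) : Del (l * M) (l * a) x = (x - l * rp M a) * (x - l * rm M a) := by
  have := b_sq h
  simp only [Del, rp, rm]
  linear_combination l ^ 2 * this

theorem tl_der (h1 : l * rp M a < x) (h2 : l * rm M a < x) :
    HasDerivAt (tl M a l) (qm (l * M) (l * a) x) x ∧
      HasDerivAt (jl M a l) (l * a / Del (l * M) (l * a) x) x := by
  have a1 := ((hasDerivAt_id x).sub_const (l * rp M a)).log (sub_pos.2 h1).ne'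
  have a2 := ((hasDerivAt_id x).sub_const (l * rm M a)).log (sub_pos.2 h2).ne'
  have b := b_pos h
  have c := rp_pos h
  have d := M_pos h
  have e : rm M a = rp M a - 2 * √(M ^ 2 - a ^ 2) := by simp only [rm, rp]; ring
  have f1 := (sub_pos.2 h1).ne'
  have f2 := (sub_pos.2 h2).ne'
  refine ⟨(((a1.sub (a2.const_mul _)).div_const _).const_mul l).congr_deriv ?_,
    ((a1.sub a2).const_mul _).congr_deriv ?_⟩ <;>
    simp only [qm, Del_l h, ka, id] <;> field_simp <;> rw [e] <;> ring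

theorem tl_sc (hρ : 0 < ρ) (h1 : ρ⁻¹ * rp M a < x) : tl M a 1 (ρ * x) =
    ρ * tl M a ρ⁻¹ x + 2 * M * log ρ ∧ jl M a 1 (ρ * x) = jl M a ρ⁻¹ x := by
  have h2 : ρ⁻¹ * rm M a < x := (mul_le_mul_of_nonneg_left (rm_lt h).le (by positivity)).trans_lt h1
  have e : ∀ c, ρ⁻¹ * c < x → log (ρ * x - 1 * c) = log ρ + log (x - ρ⁻¹ * c) := fun c hc => by
    rw [← log_mul hρ.ne' (sub_pos.2 hc).ne']; congr 1; field_simp
  have b := b_pos h
  have c := rp_pos h
  have d := M_pos h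
  have f : rm M a = rp M a - 2 * √(M ^ 2 - a ^ 2) := by simp only [rm, rp]; ring
  simp only [tl, jl, e _ h1, e _ h2, ka]
  refine ⟨?_, by ring⟩
  field_simp
  rw [f]
  ring

variable (hl : 0 ≤ l) (hp : p ∈ DX M a l)
include hl hp

theorem DX_rd : 0 < rd p := lt_of_le_of_lt (by positivity) hp.1
theorem DX_rm : l * rm M a ≤ l * rp M a := mul_le_mul_of_nonneg_left (rm_lt h).le hl
theorem DX_r1 : 0 < r1 M a l p := lt_of_le_of_lt (mul_nonneg hl (rp_pos h).le) hp.2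

theorem DX_r0 : l * rp M a < r0 M a l p := by
  have r := DX_rd h hl hp
  have : r0 M a l p - l * rp M a = (rd p - l * √(M ^ 2 - a ^ 2) / 2) ^ 2 / rd p := by
    have := b_sq h
    simp only [r0, rp]; field_simp; linear_combination (-4 * l ^ 2) * this
  exact sub_pos.1 (this ▸ div_pos (pow_pos (sub_pos.2 hp.1) 2) r)

theorem e0_pos : 0 < e0 M a l p := by
  have r := DX_rd h hl hp
  have := pow_lt_pow_left₀ hp.1 (by positivity) two_ne_zero
  rw [div_pow, mul_pow, b_sq h] at this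
  rw [e0, sub_pos, div_lt_one (by positivity)]
  linarith

theorem Xi_cd : ContDiffAt ℝ ∞ (Xi M a l) p :=
  s_Xi contDiffAt_const contDiffAt_id (xs_ne (DX_rd h hl hp)) (DX_r0 h hl hp) hp.2 (DX_rm h hl hp)

theorem Xi_rd : rd (Xi M a l p) = r1 M a l p := by
  rw [Xi, pol_rd (div_pos (DX_r1 h hl hp) (DX_rd h hl hp)).le,
    div_mul_cancel₀ _ (DX_rd h hl hp).ne']

theorem Xi_der : ∃ τ' l' c' : R4 →L[ℝ] ℝ, HasFDerivAt (Xt M a l) τ' p ∧
    HasFDerivAt (fun p => r1 M a l p / rd p) l' p ∧ HasFDerivAt (Xc M a l) c' p ∧ ∀ v,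
    τ' v = v.1 + 2 * qm (l * M) (l * a) (r1 M a l p) * (e0 M a l p * dr p v + v.1) -
      qm (l * M) (l * a) (r0 M a l p) * (e0 M a l p * dr p v) ∧
    l' v = ((e0 M a l p * dr p v + v.1) * rd p - r1 M a l p * dr p v) / rd p ^ 2 ∧
    c' v = 2 * (l * a / Del (l * M) (l * a) (r1 M a l p)) * (e0 M a l p * dr p v + v.1) -
      l * a / Del (l * M) (l * a) (r0 M a l p) * (e0 M a l p * dr p v) := by
  have r := DX_rd h hl hp
  obtain ⟨L, hL, eL⟩ := P354YR.hd_rd (xs_ne r)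
  have d0 : HasFDerivAt (r0 M a l) (e0 M a l p • L) p := by
    have : HasDerivAt (fun x => x + l * M + l ^ 2 * (M ^ 2 - a ^ 2) / (4 * x)) (e0 M a l p)
        (rd p) := (((hasDerivAt_id _).add_const _).add ((hasDerivAt_const _ _).div
          ((hasDerivAt_id _).const_mul 4) (by positivity))).congr_deriv (by
      simp only [e0]; field_simp; ring)
    exact this.comp_hasFDerivAt p hL
  have d1 : HasFDerivAt (r1 M a l) _ p := d0.add hasFDerivAt_fst
  have t0 := tl_der h (DX_r0 h hl hp) ((DX_rm h hl hp).trans_lt (DX_r0 h hl hp))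
  have t1 := tl_der h hp.2 ((DX_rm h hl hp).trans_lt hp.2)
  refine ⟨_, _, _, (hasFDerivAt_fst.add ((t1.1.comp_hasFDerivAt p d1).const_mul 2)).sub
    (t0.1.comp_hasFDerivAt p d0),
    (d1.mul ((hasDerivAt_inv r.ne').comp_hasFDerivAt p hL)).congr_of_eventuallyEq
    (.of_forall fun z => div_eq_mul_inv _ _), ((t1.2.comp_hasFDerivAt p d1).const_mul 2).sub
    (t0.2.comp_hasFDerivAt p d0), fun v => ⟨?_, ?_, ?_⟩⟩ <;>
    simp only [add_apply, sub_apply, smul_apply, smul_eq_mul, eL, ContinuousLinearMap.coe_fst',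
      Function.comp]
  · ring
  · field_simp; ring
  · ring

/-- The lines y = const are the integral curves of Lo. -/
theorem Xi_eT : fderiv ℝ (Xi M a l) p eT = Lo (l * M) (l * a) (Xi M a l p) := by
  obtain ⟨τ', l', c', h1, h2, h3, e⟩ := Xi_der h hl hp
  have r := DX_rd h hl hp
  have s := DX_r1 h hl hp
  have D : Del (l * M) (l * a) (r1 M a l p) ≠ 0 := by
    rw [Del_l h]
    exact (mul_pos (sub_pos.2 hp.2) (sub_pos.2 ((DX_rm h hl hp).trans_lt hp.2))).ne'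
  rw [Lo, Xi_rd h hl hp, Xi, pol_fd h1 h2 h3, (e _).1, (e _).2.1, (e _).2.2, dr_T, P354YR.Om2]
  simp only [pol_c, eT, qm, Prod.mk_add_mk, Prod.smul_mk, smul_eq_mul, Prod.mk.injEq,
    Prod.snd_zero, Prod.fst_zero]
  refine ⟨?_, ?_, ?_, ?_⟩ <;> field_simp
  · simp only [Del]; ring
  all_goals ring

theorem Xi_forms (v : R4) :
    dr (Xi M a l p) (fderiv ℝ (Xi M a l) p v) = e0 M a l p * dr p v + v.1 ∧
    (fderiv ℝ (Xi M a l) p v).1 =
      v.1 + 2 * qm (l * M) (l * a) (r1 M a l p) * (e0 M a l p * dr p v + v.1) -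
        qm (l * M) (l * a) (r0 M a l p) * (e0 M a l p * dr p v) := by
  obtain ⟨τ', l', c', h1, h2, h3, e⟩ := Xi_der h hl hp
  have r := DX_rd h hl hp
  have s := DX_r1 h hl hp
  refine ⟨?_, by rw [Xi, pol_fd h1 h2 h3, (e _).1]⟩
  rw [dr, Xi_rd h hl hp, Xi, pol_dT h1 h2 h3 (div_pos s r) (xs_ne r), (e _).2.1, dr]
  field_simp
  ring

/-- The form dual to eT does not depend on s. -/
theorem GX_eT (v : R4) : GX M a l p eT v =
    (1 + qm (l * M) (l * a) (r0 M a l p)) * (e0 M a l p * dr p v) + l * a * (dq p v -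
      (1 - zc (xs p) ^ 2) * (l * a / Del (l * M) (l * a) (r0 M a l p) * (e0 M a l p * dr p v))) := by
  obtain ⟨τ', l', c', h1, h2, h3, e⟩ := Xi_der h hl hp
  have r := DX_rd h hl hp
  have s := DX_r1 h hl hp
  have D : Del (l * M) (l * a) (r1 M a l p) ≠ 0 := by
    rw [Del_l h]
    exact (mul_pos (sub_pos.2 hp.2) (sub_pos.2 ((DX_rm h hl hp).trans_lt hp.2))).ne'
  rw [GX, pb, Xi_eT h hl hp, gin_Lo' (by rw [Xi_rd h hl hp]; exact s.ne')
    (by rwa [Xi_rd h hl hp]), (Xi_forms h hl hp v).1, (Xi_forms h hl hp v).2, Xi_rd h hl hp, Xi,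
    pol_dq h1 h2 h3 (div_pos s r) (xs_ne r), pol_zc (div_pos s r), (e _).2.2]
  ring

theorem qm_nn (h1 : l * rp M a < x) : 0 ≤ qm (l * M) (l * a) x := by
  have := M_pos h
  have := lt_of_le_of_lt (mul_nonneg hl (rp_pos h).le) h1
  rw [qm, Del_l h]
  exact div_nonneg (by positivity)
    (mul_pos (sub_pos.2 h1) (sub_pos.2 ((DX_rm h hl hp).trans_lt h1))).le

theorem Xi_inj : Function.Injective (fderiv ℝ (Xi M a l) p) := by
  refine (injective_iff_map_eq_zero _).2 fun v hv => ?_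
  obtain ⟨τ', l', c', h1, h2, h3, e⟩ := Xi_der h hl hp
  have r := DX_rd h hl hp
  obtain ⟨k1, k2⟩ := Xi_forms h hl hp v
  rw [hv] at k1 k2
  rw [show dr (Xi M a l p) 0 = 0 by simp [dr_eq, ip]] at k1
  rw [← k1, Prod.fst_zero] at k2
  have q := qm_nn h hl hp (DX_r0 h hl hp)
  have z : e0 M a l p * dr p v = 0 := by nlinarith
  have z1 : v.1 = 0 := by linarith
  have z2 := (mul_eq_zero.1 z).resolve_left (e0_pos h hl hp).ne'
  have k := pol_rnd h1 h2 h3 (div_pos (DX_r1 h hl hp) r) (xs_ne r) v v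
  rw [(e _).2.2, z, z1, ← Xi, hv, rnd_eq] at k
  have k3 := ip_split r.ne' v
  have k4 := norm_sq_le v
  rw [z1, k3, z2, show rnd (xs p) (xs v) (xs v) = 0 by simpa [ip] using k.symm] at k4
  exact norm_eq_zero.1 (by nlinarith [norm_nonneg v])

end

end Vale.Agent.P354XA
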