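import Vale.Agent.P354XA.Xi
import Vale.Agent.P354YJ.Gin
import Vale.Agent.P354DT.Gen
import Vale.Agent.P354YI.Near

/-!
The chart Xi: scaling, the global inverse, the geodesic equation.
-/

set_option linter.unusedSectionVars false

open scoped ContDiff
open Set Filter Topology Real

noncomputable section

namespace Vale.Agent.P354XA

open Vale.Agent.P354n (R4)
open Vale.Agent.P354I (X Dat ee rm rp)
open Vale.Agent.P354R (Del Pull Met chr)
open Vale.Agent.P354RC (k2 p_at at_df at_fd surj_of_inj)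
open Vale.Agent.P354XS (ds)
open Vale.Agent.P354XE
open Vale.Agent.P354XV (Lv In0)
open Vale.Agent.P354YT (qm)
open Vale.Agent.P354TR (Inv)
open Vale.Agent.P354DT (ptL split_eT)
open Vale.Agent.P354YR (pol pol_c pol_rd rz kin ci DE Oh b_pos b_sq M_pos rp_pos rm_lt ka_pos xs_ne
  s_rd)

variable {M a l x ρ : ℝ} {p q : R4} {f f' Y Y' : R4 → R4} {g g' g'' : Tw} {D D' D'' : Set R4}
  {d : Dat} {y : X}

/-! ### General facts -/

theorem gin_lv (M a : ℝ) : Lv (gin M a) {p | 0 < rd p} :=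
  ⟨isOpen_lt continuous_const P354YR.rd_cont, P354YJ.gin_met M a, P354YJ.gin_vac M a,
    fun _ hp => P354YR.gin_sig (xs_ne hp)⟩

/-- The geodesic equation is invariant under isometries. -/
theorem geo_pull (P : Pull f g' D' g D) (hp : p ∈ D') (hY' : DifferentiableAt ℝ Y' p)
    (hY : DifferentiableAt ℝ Y (f p)) (e : ∀ᶠ z in 𝓝 p, fderiv ℝ f z (Y' z) = Y (f z)) (c : R4) :
    g' p (fderiv ℝ Y' p (Y' p)) c + chr g' p (Y' p) (Y' p) c =
      g (f p) (fderiv ℝ Y (f p) (Y (f p))) (fderiv ℝ f p c) +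
        chr g (f p) (Y (f p)) (Y (f p)) (fderiv ℝ f p c) := by
  have s := p_at P hp
  have a1 := ((at_df (at_fd s)).hasFDerivAt.clm_apply hY'.hasFDerivAt).unique
    ((hY.hasFDerivAt.comp p (at_df s).hasFDerivAt).congr_of_eventuallyEq e)
  have a2 := congrArg (· (Y' p)) a1
  have a3 : fderiv ℝ (fun z => fderiv ℝ f z (Y' p)) p (Y' p) =
      fderiv ℝ (fderiv ℝ f) p (Y' p) (Y' p) := by
    rw [fderiv_clm_apply (at_df (at_fd s)) (differentiableAt_const _)]; simp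
  simp only [add_apply, ContinuousLinearMap.comp_apply, ContinuousLinearMap.flip_apply,
    e.self_of_nhds] at a2
  have sy := P.met.symm _ (P.maps hp)
  rw [k2.2.2.2.2 _ _ _ _ _ P _ hp, P.eq _ hp, e.self_of_nhds, a3, ← a2, sy (_ + _),
    (P.met.lin _ (P.maps hp) _).map_add, sy _ (fderiv ℝ f p _), sy _ (fderiv ℝ (fderiv ℝ f) p _ _)]
  ring

theorem geo_iff (P : Pull f g' D' g D) (hp : p ∈ D') (hY' : DifferentiableAt ℝ Y' p)
    (hY : DifferentiableAt ℝ Y (f p)) (e : ∀ᶠ z in 𝓝 p, fderiv ℝ f z (Y' z) = Y (f z)) :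
    (∀ c, g' p (fderiv ℝ Y' p (Y' p)) c + chr g' p (Y' p) (Y' p) c = 0) ↔
      ∀ c, g (f p) (fderiv ℝ Y (f p) (Y (f p))) c + chr g (f p) (Y (f p)) (Y (f p)) c = 0 := by
  simp only [geo_pull P hp hY' hY e]
  exact ⟨fun k c => by obtain ⟨c, rfl⟩ := surj_of_inj (P.inj _ hp) c; exact k c, fun k c => k _⟩

theorem slice_fd (s : ContDiffAt ℝ ∞ f (pt 0 y)) (s' : ContDiffAt ℝ ∞ f' (pt 0 y))
    (e : ∀ᶠ z in 𝓝 y, f (pt 0 z) = f' (pt 0 z)) (u : X) :
    fderiv ℝ f (pt 0 y) (pt 0 u) = fderiv ℝ f' (pt 0 y) (pt 0 u) := by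
  have a : ∀ {f : R4 → R4}, ContDiffAt ℝ ∞ f (pt 0 y) →
      HasFDerivAt (fun z => f (ptL z)) ((fderiv ℝ f (pt 0 y)).comp ptL) y := fun s =>
    (at_df s).hasFDerivAt.comp y ptL.hasFDerivAt
  exact congrArg (· u) ((a s).unique ((a s').congr_of_eventuallyEq e))

/-- Two charts which agree on the slice induce the same data. -/
theorem in0_two (P : Pull f g' D' g D) (P' : Pull f' g'' D'' g D) (hy : pt 0 y ∈ D')
    (hy' : pt 0 y ∈ D'') (e : ∀ᶠ z in 𝓝 y, f (pt 0 z) = f' (pt 0 z))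
    (o : ∀ v w, fderiv ℝ f (pt 0 y) v = fderiv ℝ f' (pt 0 y) w → 0 < w.1 → 0 < v.1)
    (I : In0 g'' d y) : In0 g' d y := by
  obtain ⟨n, n1, n2, n3⟩ := I
  obtain ⟨u, hu⟩ := surj_of_inj (P.inj _ hy) (fderiv ℝ f' (pt 0 y) n)
  have s := p_at P hy
  have s' := p_at P' hy'
  have k := slice_fd s s' e
  have e0 := e.self_of_nhds
  refine ⟨u, by rw [P.eq _ hy, e0, hu, ← P'.eq _ hy', n1], o _ _ hu n2, fun i j => ?_⟩
  obtain ⟨a, b, c⟩ := n3 i j
  refine ⟨by rw [P.eq _ hy, e0, k, hu, ← P'.eq _ hy', a],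
    by rw [P.eq _ hy, e0, k, k, ← P'.eq _ hy', b], ?_⟩
  have z := slice_fd ((at_fd s).clm_apply (contDiffAt_const (c := pt 0 (ee j))))
    ((at_fd s').clm_apply contDiffAt_const) (by
      filter_upwards [e.eventually_nhds, ptL.continuous.continuousAt.eventually
        (P.open'.mem_nhds hy), ptL.continuous.continuousAt.eventually (P'.open'.mem_nhds hy')]
        with z h1 h2 h3 using slice_fd (p_at P h2) (p_at P' h3) h1 _) (ee i)
  rw [k2.2.2.2.2 _ _ _ _ _ P _ hy, z, e0, k, k, hu, ← k2.2.2.2.2 _ _ _ _ _ P' _ hy', c]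

/-! ### Scaling -/

theorem rd_sm (hρ : 0 ≤ ρ) : rd (ρ • p) = ρ * rd p := by
  simpa [show ((0 : ℝ), (0 : ℝ × ℝ × ℝ)) = 0 from rfl] using rd_sc (p := p) hρ 0

theorem r0_sc (hρ : 0 < ρ) : r0 M a 1 (ρ • p) = ρ * r0 M a ρ⁻¹ p := by
  simp only [r0, rd_sm hρ.le]
  by_cases h : rd p = 0
  · simp [h, hρ.ne']
  field_simp

theorem r1_sc (hρ : 0 < ρ) : r1 M a 1 (ρ • p) = ρ * r1 M a ρ⁻¹ p := by
  rw [r1, r1, r0_sc hρ, mul_add]; rfl

theorem DX_sc (hρ : 0 < ρ) : ρ • p ∈ DX M a 1 ↔ p ∈ DX M a ρ⁻¹ := by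
  simp only [DX, mem_ofPred_eq, rd_sm hρ.le, r1_sc hρ, one_mul, mul_div_assoc, inv_mul_lt_iff₀ hρ]

theorem Lo_sc (hρ : 0 < ρ) (c : ℝ) : Lo M a (ρ • p + (c, 0)) = Lo (ρ⁻¹ * M) (ρ⁻¹ * a) p := by
  have e : Del M a (ρ * rd p) = ρ ^ 2 * Del (ρ⁻¹ * M) (ρ⁻¹ * a) (rd p) := by
    simp only [Del]; field_simp
  simp only [Lo, rd_sc hρ.le, e, P354YR.Om2]
  ext <;> simp <;> field_simp

section
variable (h : |a| < M)
include h

theorem open_DX (hl : 0 ≤ l) : IsOpen (DX M a l) := by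
  refine isOpen_iff_mem_nhds.2 fun p hp => ?_
  have r := P354YR.rd_cont.continuousAt (x := p)
  exact (continuousAt_const.eventually_lt r hp.1).and (continuousAt_const.eventually_lt
    (((r.add continuousAt_const).add (continuousAt_const.div (continuousAt_const.mul r)
      (mul_pos four_pos (DX_rd h hl hp)).ne')).add continuousAt_fst) hp.2)

theorem Xi_sc (hρ : 0 < ρ) (hp : p ∈ DX M a ρ⁻¹) :
    Xi M a 1 (ρ • p) = ρ • Xi M a ρ⁻¹ p + (2 * M * log ρ, 0) := by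
  have a0 := tl_sc h hρ (DX_r0 h (by positivity) hp)
  have a1 := tl_sc h hρ hp.2
  simp only [Xi, pol_c, Xt, Xc, r0_sc hρ, r1_sc hρ, a0.1, a0.2, a1.1, a1.2, rd_sm hρ.le,
    mul_div_mul_left _ _ hρ.ne']
  ext <;> simp <;> ring

theorem fd_sc (hρ : 0 < ρ) (hp : p ∈ DX M a ρ⁻¹) :
    fderiv ℝ (Xi M a 1) (ρ • p) = fderiv ℝ (Xi M a ρ⁻¹) p := by
  have e : (fun z => Xi M a 1 (ρ • z)) =ᶠ[𝓝 p] fun z => ρ • Xi M a ρ⁻¹ z + (2 * M * log ρ, 0) :=
    mem_of_superset ((open_DX h (by positivity)).mem_nhds hp) fun _ => Xi_sc h hρ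
  have k := e.fderiv_eq (𝕜 := ℝ)
  rw [fderiv_comp_smul, fderiv_add_const,
    fderiv_fun_const_smul (at_df (Xi_cd h (by positivity) hp))] at k
  exact smul_right_injective _ hρ.ne' k

theorem GX_sc (hρ : 0 < ρ) (hp : p ∈ DX M a ρ⁻¹) : GX M a 1 (ρ • p) = GX M a ρ⁻¹ p := by
  funext v w
  rw [GX, GX, pb, pb, fd_sc h hρ hp, Xi_sc h hρ hp, gin_sc hρ, one_mul, one_mul]

/-! ### The inverse -/

theorem tl_mono (hl : 0 ≤ l) : MonotoneOn (tl M a l) (Ioi (l * rp M a)) := by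
  have k : l * rm M a ≤ l * rp M a := mul_le_mul_of_nonneg_left (rm_lt h).le hl
  have D := fun x (hx : x ∈ Ioi (l * rp M a)) => (tl_der h hx (k.trans_lt hx)).1
  refine monotoneOn_of_deriv_nonneg (convex_Ioi _)
    (fun x hx => (D x hx).continuousAt.continuousWithinAt) ?_ ?_ <;> rw [interior_Ioi] <;>
    intro x hx
  · exact (D x hx).differentiableAt.differentiableWithinAt
  · have := M_pos h
    have := lt_of_le_of_lt (mul_nonneg hl (rp_pos h).le) hx
    rw [(D x hx).deriv, qm, Del_l h]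
    exact div_nonneg (by positivity) (mul_pos (sub_pos.2 hx) (sub_pos.2 (k.trans_lt hx))).le

theorem Xi_injOn (hl : 0 ≤ l) : InjOn (Xi M a l) (DX M a l) := by
  intro p hp q hq e
  have e1 : r1 M a l p = r1 M a l q := by rw [← Xi_rd h hl hp, e, Xi_rd h hl hq]
  have e2 : Xt M a l p = Xt M a l q := congrArg Prod.fst e
  have m := tl_mono h hl
  have e3 : r0 M a l p = r0 M a l q := by
    simp only [Xt, e1] at e2
    simp only [r1] at e1
    rcases le_total (r0 M a l p) (r0 M a l q) with k | k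
    · linarith [m (DX_r0 h hl hp) (DX_r0 h hl hq) k]
    · linarith [m (DX_r0 h hl hq) (DX_r0 h hl hp) k]
  have rp := DX_rd h hl hp
  have rq := DX_rd h hl hq
  have e4 : rd p = rd q := by
    have := mul_lt_mul'' hp.1 hq.1 (by positivity) (by positivity)
    have b := b_sq h
    simp only [r0] at e3
    field_simp at e3
    refine sub_eq_zero.1 ((mul_eq_zero.1 (show (rd p - rd q) *
      (4 * (rd p * rd q) - l ^ 2 * (M ^ 2 - a ^ 2)) = 0 by linarith)).resolve_right ?_)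
    nlinarith
  have e5 : p.1 = q.1 := by simp only [r1] at e1; linarith
  have c := (div_pos (DX_r1 h hl hq) rq).ne'
  simp only [Xi, pol_c, Xc, e1, e3, e4, Prod.mk.injEq, mul_right_inj' c] at e
  obtain ⟨-, a1, a2, a3⟩ := e
  have t := cos_sq_add_sin_sq (2 * jl M a l (r1 M a l q) - jl M a l (r0 M a l q))
  generalize cos _ = C at *
  generalize sin _ = S at *
  refine Prod.ext e5 (Prod.ext ?_ (Prod.ext ?_ a3))
  · linear_combination C * a1 + S * a2 - (p.2.1 - q.2.1) * t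
  · linear_combination C * a2 - S * a1 - (p.2.2.1 - q.2.2.1) * t

theorem ex_Ps (hl : 0 ≤ l) : ∃ Ps, Inv (Xi M a l) Ps (DX M a l) (Xi M a l '' DX M a l) :=
  P354TR.ex_inv (open_DX h hl) (fun _ hp => (Xi_cd h hl hp).contDiffWithinAt) (Xi_injOn h hl)
    fun _ hp k => LinearMap.det_eq_zero_iff_ker_ne_bot.1 k (LinearMap.ker_eq_bot.2 (Xi_inj h hl hp))

/-- The image contains all points which are not too far from the slice. -/
theorem Xi_surj (hl : 0 ≤ l) (h1 : l * rp M a < rd q)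
    (h2 : l * rp M a < rd q - (q.1 - tl M a l (rd q))) :
    ∃ p ∈ DX M a l, Xi M a l p = q ∧ p.1 ∈ uIcc 0 (q.1 - tl M a l (rd q)) := by
  set r := rd q
  set τ := q.1 - tl M a l r
  have k : l * rm M a ≤ l * rp M a := mul_le_mul_of_nonneg_left (rm_lt h).le hl
  have s : uIcc r (r - τ) ⊆ Ioi (l * rp M a) := ordConnected_Ioi.uIcc_subset h1 h2
  obtain ⟨R, hR, e⟩ := intermediate_value_uIcc (f := fun x => x + tl M a l x)
    (fun x hx => (continuousAt_id.add (tl_der h (s hx)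
      (k.trans_lt (s hx))).1.continuousAt).continuousWithinAt)
    (show r + tl M a l r - τ ∈ _ from mem_uIcc.2 (by
      rcases le_total τ 0 with t | t
      · exact .inl ⟨by linarith, by linarith [tl_mono h hl h1 h2 (by linarith)]⟩
      · exact .inr ⟨by linarith [tl_mono h hl h2 h1 (by linarith)], by linarith⟩))
  have hb := b_pos h
  have b := b_sq h
  have R1 : l * √(M ^ 2 - a ^ 2) < R - l * M := by have := s hR; simp only [rp, mem_Ioi] at this; linarith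
  have R2 := mul_nonneg hl hb.le
  have w := sq_sqrt (show 0 ≤ (R - l * M) ^ 2 - l ^ 2 * (M ^ 2 - a ^ 2) by nlinarith)
  have w0 := sqrt_nonneg ((R - l * M) ^ 2 - l ^ 2 * (M ^ 2 - a ^ 2))
  generalize √((R - l * M) ^ 2 - l ^ 2 * (M ^ 2 - a ^ 2)) = W at w w0
  have r0' : 0 < r := lt_of_le_of_lt (mul_nonneg hl (rp_pos h).le) h1
  have c0 : 0 < (R - l * M + W) / 2 := by linarith
  set c := 2 * jl M a l r - jl M a l R with hc
  set p := pol (fun _ => r - R) (fun _ => (R - l * M + W) / 2 / r) (fun _ => -c) q with hp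
  have a1 : rd p = (R - l * M + W) / 2 := by
    rw [hp, pol_rd (div_pos c0 r0').le, div_mul_cancel₀ _ r0'.ne']
  have a2 : r0 M a l p = R := by
    have : R - l * M + W ≠ 0 := by linarith
    rw [r0, a1]; field_simp; linear_combination 4 * w
  have a3 : r1 M a l p = r := by rw [r1, a2]; exact add_sub_cancel _ _
  refine ⟨p, ⟨by rw [a1]; linarith, a3 ▸ h1⟩, ?_, ?_⟩
  · have t := cos_sq_add_sin_sq c
    have : R - l * M + W ≠ 0 := by linarith
    rw [Xi, pol_c, Xt, Xc, a1, a2, a3, ← hc]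
    simp only [hp, pol_c, cos_neg, sin_neg]
    refine Prod.ext ?_ (Prod.ext ?_ (Prod.ext ?_ ?_)) <;> simp only
    · simp only [τ] at e; linarith
    · field_simp; linear_combination q.2.1 * t
    · field_simp; linear_combination q.2.2.1 * t
    · field_simp
  · show r - R ∈ _
    rw [mem_uIcc] at hR ⊢
    exact hR.symm.imp (fun k => ⟨by linarith [k.2], by linarith [k.1]⟩)
      fun k => ⟨by linarith [k.2], by linarith [k.1]⟩

variable (hl : 0 ≤ l) (hp : p ∈ DX M a l)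
include hl hp

theorem Xi_tau : (Xi M a l p).1 - tl M a l (rd (Xi M a l p)) =
    p.1 + tl M a l (r1 M a l p) - tl M a l (r0 M a l p) := by
  rw [Xi_rd h hl hp, show (Xi M a l p).1 = Xt M a l p from rfl, Xt]; ring

theorem tau_ge (k : 0 ≤ p.1) : p.1 ≤ (Xi M a l p).1 - tl M a l (rd (Xi M a l p)) := by
  linarith [Xi_tau h hl hp, tl_mono h hl (DX_r0 h hl hp) hp.2 (le_add_of_nonneg_right k)]

theorem tau_le (k : p.1 ≤ 0) : (Xi M a l p).1 - tl M a l (rd (Xi M a l p)) ≤ p.1 := by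
  linarith [Xi_tau h hl hp, tl_mono h hl hp.2 (DX_r0 h hl hp) (add_le_of_nonpos_right k)]

theorem r0_bd : rd p ≤ r0 M a l p ∧ r0 M a l p ≤ rd p + 2 * (l * M) := by
  have r := DX_rd h hl hp
  have b := b_sq h
  have b0 := b_pos h
  have m := M_pos h
  have b1 : √(M ^ 2 - a ^ 2) ≤ M := sqrt_le_iff.2 ⟨m.le, by nlinarith⟩
  have c := hp.1
  have c1 := mul_le_mul_of_nonneg_left b1 hl
  have c2 := mul_nonneg hl b0.le
  refine ⟨by rw [r0, ← b, add_assoc]; exact le_add_of_nonneg_right (by positivity), ?_⟩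
  rw [r0, two_mul, add_assoc]
  gcongr
  rw [div_le_iff₀ (by positivity), ← b, ← mul_pow]
  nlinarith

omit hp in
theorem GX_pull : Pull (Xi M a l) (GX M a l) (DX M a l) (gin (l * M) (l * a)) {p | 0 < rd p} :=
  ⟨open_DX h hl, (gin_lv 0 0).isOpen, (gin_lv _ _).met, fun _ hp => (Xi_cd h hl hp).contDiffWithinAt,
    fun _ hp => (DX_r1 h hl hp).trans_eq (Xi_rd h hl hp).symm, fun _ => Xi_inj h hl,
    fun _ _ _ _ => rfl⟩

omit hp in
theorem GX_lv : Lv (GX M a l) (DX M a l) := (gin_lv _ _).pull (GX_pull h hl)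

theorem GX_TT : GX M a l p eT eT = 0 := by
  rw [GX_eT h hl hp, dr_T, dq_eq]; simp [eT]

end

/-- The form dual to eT is null and does not depend on s, so eT is geodesic. -/
theorem GX_geo (h : |a| < M) (hl : 0 ≤ l) (hp : p ∈ DX M a l) (c : R4) :
    chr (GX M a l) p eT eT c = 0 := by
  have o := (open_DX h hl).mem_nhds hp
  have e1 : (fun z => GX M a l z eT eT) =ᶠ[𝓝 p] fun _ => 0 := mem_of_superset o fun _ => GX_TT h hl
  have c1 : Tendsto (fun t : ℝ => p + t • eT) (𝓝 0) (𝓝 p) :=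
    Continuous.tendsto' (by fun_prop) _ _ (by simp)
  have e2 : (fun t : ℝ => GX M a l (p + t • eT) eT c) =ᶠ[𝓝 0] fun _ => GX M a l p eT c := by
    filter_upwards [c1 o] with t ht
    have : xs (p + t • eT) = xs p := by simp [xs, eT]
    rw [GX_eT h hl ht, GX_eT h hl hp]
    simp only [r0, e0, dr, dq, rd, this]
  simp only [chr, P354n.deriv, e1.lineDeriv_eq]
  simp [lineDeriv, e2.deriv_eq]

end Vale.Agent.P354XA
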