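import Vale.Agent.P354XA.Od

/-!
The metric in the chart of the estimates.
-/

set_option maxSynthPendingDepth 3

open scoped ContDiff
open Set Filter Topology

noncomputable section

namespace Vale.Agent.P354XA

open Vale.Agent.P354n (R4)
open Vale.Agent.P354XD (tb)
open Vale.Agent.P354XE
open Vale.Agent.P354YI
open Vale.Agent.P354YO
open Vale.Agent.P354TS (rd_near)
open Vale.Agent.P354MG

theorem pb_two {u v w : R4 → R4} {g : Tw} {p : R4} (hv : ContDiffAt ℝ ∞ v p)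
    (hu : ContDiffAt ℝ ∞ u (v p)) (e : (fun x => u (v x)) =ᶠ[𝓝 p] w) :
    pb v (pb u g) =ᶠ[𝓝 p] pb w g := by
  filter_upwards [fd_comp hu hv, e, e.fderiv (𝕜 := ℝ)] with x a b c
  funext s t
  simp only [pb, ← b, ← c, a, ContinuousLinearMap.comp_apply]

theorem cmp_fam {J : Type} {M a r1 ρ e : ℝ} {n : ℕ} (h0 : 0 < M) (h1 : 0 < r1) (e1 : e ≤ 1 / 4)
    (e2 : 8 * e ≤ r1) {h : J → Tw} {φ Φ b : J → R4 → R4} {M' a' μ : J → ℝ} {A B : J → ℝ → ℝ}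
    {q : J → R4} (t : ∀ j, IsTh M (M' j) (a' j) (A j) (B j))
    (hp : ∀ j, |M' j - M| + |a' j - a| ≤ e) (l : ∀ j, r1 ≤ rd (q j)) (u : ∀ j, rd (q j) ≤ ρ)
    (hμ : ∀ j, μ j ∈ Icc 0 e) (s : ∀ j, Sb (h j) (q j)) (N : ∀ j, Nid n (φ j) (q j) e)
    (sΦ : ∀ j, ContDiffAt ℝ ∞ (Φ j) (q j))
    (d : ∀ j, Jb (n + 1) (fun x => Φ j x - φ j x) (q j) (μ j))
    (sb : ∀ j, ContDiffAt ℝ ∞ (b j) (ki4 M (Φ j (q j))))
    (i : ∀ j, ∀ᶠ x in 𝓝 (q j), b j (ki4 M (Φ j x)) = x)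
    (k : ∀ j, Bd n (h j - pb (φ j) (kS M (M' j) (a' j) (A j) (B j))) (q j) (μ j)) :
    ∃ C, 0 ≤ C ∧ ∀ j, Bd n (pb (b j) (h j) - kE (M' j) (a' j) (A j) (B j)) (ki4 M (Φ j (q j)))
      (C * μ j) := by
  have h2 := half_pos h1
  have hp' : ∀ j, |M' j - M| + |a' j - a| ≤ 1 := fun j => (hp j).trans (by linarith)
  have D : Oj (n + 1) q (fun j x => Φ j x - φ j x) μ := .of (fun j => (sΦ j).sub (N j).sm) d
  have dφ : Od n q φ := od_nid N fun _ => by linarith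
  have dΦ : Od n q Φ := (dφ.add (od_of (D.mono le_rfl fun j => (hμ j).2.trans
    (by simp only [Pi.one_apply]; linarith)))).congr fun _ => .of_forall fun _ => by simp
  have sg : ∀ j, ∀ z ∈ segment ℝ (φ j (q j)) (Φ j (q j)), r1 / 2 ≤ rd z ∧ rd z ≤ ρ + 1 := by
    intro j z hz
    rw [segment_eq_image'] at hz
    obtain ⟨θ, hθ, rfl⟩ := hz
    have k1 : ‖(θ • (Φ j (q j) - φ j (q j))).2‖ ≤ e := (norm_snd_le _).trans (by
      rw [norm_smul, Real.norm_of_nonneg hθ.1]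
      exact (mul_le_of_le_one_left (norm_nonneg _) hθ.2).trans ((d j).zero.trans (hμ j).2))
    have k2 := abs_le.1 (rd_near (p := φ j (q j) + θ • (Φ j (q j) - φ j (q j))) (q := q j)
      (e := e + e) (by
        rw [add_sub_right_comm, Prod.snd_add]
        exact (norm_add_le _ _).trans (add_le_add (N j).x k1)))
    exact ⟨by linarith [k2.1, l j], by linarith [k2.2, u j]⟩
  have r := fun j => sg j _ (right_mem_segment ℝ _ _)
  have r' : ∀ j, r1 / 2 ≤ rd (ki4 M (Φ j (q j))) ∧ rd (ki4 M (Φ j (q j))) ≤ ρ + 1 := fun j => by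
    rw [ki4, rd_sh]; exact r j
  have K := fun m => oj_kS (J := {i : J × R4 // i.2 ∈ segment ℝ (φ i.1 (q i.1)) (Φ i.1 (q i.1))})
    (m := m) h2 (fun i => sg _ _ i.2) (fun i => hp' i.1.1) h0 fun i => t i.1.1
  have s' : ∀ j, Sb (h j - pb (φ j) (kS M (M' j) (a' j) (A j) (B j))) (q j) := fun j => (s j).sub
    (((K 0).1 ⟨(j, _), left_mem_segment ℝ _ _⟩).pull (φ := φ j) (N j).sm)
  have T := (oj_of_bd s' k).add (Oj.pb_lip dφ.sm dΦ.sm (fun _ => subset_rfl) dφ.d dΦ.d D.symm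
    (h := fun j => tb (kS M (M' j) (a' j) (A j) (B j))) (K _).2)
  have dψ : Od n q fun j x => ki4 M (Φ j x) := dΦ.comp (od_ki h2 r)
  have ko : Od 0 (fun j => ki4 M (Φ j (q j))) fun _ => ko4 M := od_ko h2 r'
  obtain ⟨C, c0, hC⟩ := ko.d.val
  obtain ⟨ri, db⟩ := dψ.inv (C := 2 * C) sb i fun j v => by
    have k1 := (fd_comp (f := fun x => ki4 M (Φ j x)) (ko.sm j) (dψ.sm j)).eq_of_nhds
    simp only [ko_ki] at k1
    have k2 : ‖fderiv ℝ (Φ j) (q j) - ContinuousLinearMap.id ℝ R4‖ ≤ 1 / 2 := by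
      have k3 := (d j).fd.zero
      rw [fderiv_fun_sub ((sΦ j).differentiableAt (by simp))
        ((N j).sm.differentiableAt (by simp))] at k3
      rw [← sub_add_sub_cancel _ (fderiv ℝ (φ j) (q j))]
      exact (norm_add_le _ _).trans (by linarith [(N j).d.zero, (hμ j).2])
    refine (low_half k2 v).trans ?_
    rw [mul_assoc, show fderiv ℝ (Φ j) (q j) = _ from k1]
    exact mul_le_mul_of_nonneg_left (ContinuousLinearMap.le_of_opNorm_le _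
      ((hC j).trans_eq (mul_one C)) _) zero_le_two
  have e0 : (fun j => b j (ki4 M (Φ j (q j)))) = q := funext fun j => (i j).self_of_nhds
  refine (Oj.pb db.sm db.d (e0.symm ▸ T)).bd' fun j => ?_
  have c : Tendsto (b j) (𝓝 (ki4 M (Φ j (q j)))) (𝓝 (q j)) :=
    (sb j).continuousAt.tendsto.mono_right (congrArg 𝓝 (congrFun e0 j)).le
  have st := (od_st (m := 0) h2 r hp' h0 t).sm j
  have p1 := pb_two (g := kS M (M' j) (a' j) (A j) (B j)) (w := ko4 M) (sb j)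
    ((congrFun e0 j).symm ▸ sΦ j) ((ri j).mono fun y hy => by rw [← hy, ko_ki, hy])
  have p2 := pb_two (g := gin (M' j) (a' j)) (w := sh (A j) (B j)) (ko.sm j)
    ((ko_ki M _).symm ▸ st) (.of_forall (st_ko M _ _))
  filter_upwards [c.eventually (s' j).bl, p1, p2] with y k1 k2 k3 v w
  have k4 := congrFun (congrFun (k2.trans k3) v) w
  have k5 := fun z => tb_ap (g := kS M (M' j) (a' j) (A j) (B j)) (p := z) (bil_pb (gin_bil _ _ _))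
  simp only [P354RC.pb_ap, add_apply, sub_apply, tb_ap k1, k5, Pi.sub_apply]
  rw [kE, ← k4]
  simp only [pb, sub_add_sub_cancel]

/-- **CMP.** -/
theorem cmp : CMP := by
  intro M a r1 ρ n ha h1
  have h0 : 0 < M := (abs_nonneg a).trans_lt ha
  obtain ⟨C, -, hC⟩ := cmp_fam (a := a) (ρ := ρ) (n := n) (e := min (1 / 4) (r1 / 8)) h0 h1
    (min_le_left _ _) (by linarith [min_le_right (1 / 4) (r1 / 8)])
    (J := {i : (Tw × (R4 → R4) × (R4 → R4) × (R4 → R4)) × ℝ × ℝ × (ℝ → ℝ) × (ℝ → ℝ) × R4 × ℝ //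
      IsTh M i.2.1 i.2.2.1 i.2.2.2.1 i.2.2.2.2.1 ∧
      |i.2.1 - M| + |i.2.2.1 - a| ≤ min (1 / 4) (r1 / 8) ∧ r1 ≤ rd i.2.2.2.2.2.1 ∧
      rd i.2.2.2.2.2.1 ≤ ρ ∧ i.2.2.2.2.2.2 ∈ Icc 0 (min (1 / 4) (r1 / 8)) ∧
      Sb i.1.1 i.2.2.2.2.2.1 ∧ Nid n i.1.2.1 i.2.2.2.2.2.1 (min (1 / 4) (r1 / 8)) ∧
      ContDiffAt ℝ ∞ i.1.2.2.1 i.2.2.2.2.2.1 ∧
      Jb (n + 1) (fun x => i.1.2.2.1 x - i.1.2.1 x) i.2.2.2.2.2.1 i.2.2.2.2.2.2 ∧
      ContDiffAt ℝ ∞ i.1.2.2.2 (ki4 M (i.1.2.2.1 i.2.2.2.2.2.1)) ∧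
      (∀ᶠ x in 𝓝 i.2.2.2.2.2.1, i.1.2.2.2 (ki4 M (i.1.2.2.1 x)) = x) ∧
      Bd n (i.1.1 - pb i.1.2.1 (kS M i.2.1 i.2.2.1 i.2.2.2.1 i.2.2.2.2.1)) i.2.2.2.2.2.1
        i.2.2.2.2.2.2})
    (fun j => j.2.1) (fun j => j.2.2.1) (fun j => j.2.2.2.1) (fun j => j.2.2.2.2.1)
    (fun j => j.2.2.2.2.2.1) (fun j => j.2.2.2.2.2.2.1) (fun j => j.2.2.2.2.2.2.2.1)
    (fun j => j.2.2.2.2.2.2.2.2.1) (fun j => j.2.2.2.2.2.2.2.2.2.1)
    (fun j => j.2.2.2.2.2.2.2.2.2.2.1) (fun j => j.2.2.2.2.2.2.2.2.2.2.2.1)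
    fun j => j.2.2.2.2.2.2.2.2.2.2.2.2
  exact ⟨C, _, lt_min (by norm_num) (by positivity),
    fun h φ Φ b M' a' A' B' q μ k1 k2 k3 k4 k5 k6 k7 k8 k9 k10 k11 k12 =>
      hC ⟨((h, φ, Φ, b), M', a', A', B', q, μ), k1, k2, k3, k4, k5, k6, k7, k8, k9, k10, k11, k12⟩⟩

end Vale.Agent.P354XA
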