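import Vale.Agent.P354XA.Win
import Vale.Agent.P354YR.Nkg

/-!
FARW: the windows in the ingoing chart, their dilations, and the gluing.
-/

set_option linter.unusedSectionVars false
set_option maxSynthPendingDepth 3

open scoped ContDiff
open Set Filter Topology Real

noncomputable section

namespace Vale.Agent.P354XA

open Vale.Agent.P354n (R4)
open Vale.Agent.P354I (X Dat rp)
open Vale.Agent.P354R (Met Pull chr)
open Vale.Agent.P354XD (tb rp_tb)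
open Vale.Agent.P354XS (BA ds wi)
open Vale.Agent.P354XE
open Vale.Agent.P354XV (Lv In0)
open Vale.Agent.P354TR (Inv)
open Vale.Agent.P354YR (ci M_pos)
open Vale.Agent.P354YI (Oj Jb Gd Cls S0 Fb Sm Fg AGR FARW)

variable {M a l ρ : ℝ} {p : R4}

/-- The jets of an inverse map. -/
theorem oj_inv {J : Type} {f : J → R4 → R4} {A : J → R4 → R4 →L[ℝ] R4} {x : J → R4}
    (s : ∀ j, ContDiffAt ℝ ∞ (f j) (x j))
    (e : ∀ j, fderiv ℝ (f j) =ᶠ[𝓝 (x j)] fun z => A j (f j z)) (m : ℕ)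
    (h : Oj m (fun j => f j (x j)) A 1) : Oj m x (fun j => fderiv ℝ (f j)) 1 := by
  induction m with
  | zero =>
    exact .zero (fun j => P354YI.at_fd (s j)) h.nn
      (h.val.imp fun _ k j => (e j).eq_of_nhds ▸ k.2 j)
  | succ m ih => exact (Oj.comp s (m + 1) (ih h.pred) h).congr e

theorem lM_le (h : |a| < M) (hl : l ∈ Icc 0 (64 * M)⁻¹) : l * M ≤ 1 / 64 ∧ l * rp M a ≤ 1 / 32 := by
  have m := M_pos h
  have b1 : √(M ^ 2 - a ^ 2) ≤ M := sqrt_le_iff.2 ⟨m.le, by nlinarith⟩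
  have := (le_inv_mul_iff₀ (by positivity)).1 (hl.2.trans_eq (mul_one _).symm)
  have := mul_le_mul_of_nonneg_left b1 hl.1
  exact ⟨by linarith, by rw [rp, mul_add]; linarith⟩

/-- The estimate for the push forward. -/
theorem bd_push (h : |a| < M) (k : ℕ) : ∃ C, 0 ≤ C ∧ ∀ l ∈ Icc 0 (64 * M)⁻¹, ∀ Ps g W ε,
    Inv (Xi M a l) Ps (DX M a l) (Xi M a l '' DX M a l) → Lv g W → ∀ p ∈ Bx (1 / 32), p ∈ W →
    Bd k (g - GX M a l) p ε → Bd k (pb Ps g - gin (l * M) (l * a)) (Xi M a l p) (C * ε) := by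
  obtain ⟨B, -, hB⟩ := GX_lip h k
  have key : ∀ {J : Type} {l : J → ℝ} {Ps : J → R4 → R4} {g : J → Tw} {W : J → Set R4} {ε : J → ℝ}
      {p : J → R4}, (∀ j, l j ∈ Icc 0 (64 * M)⁻¹) →
      (∀ j, Inv (Xi M a (l j)) (Ps j) (DX M a (l j)) (Xi M a (l j) '' DX M a (l j))) →
      (∀ j, Lv (g j) (W j)) → (∀ j, p j ∈ Bx (1 / 32)) → (∀ j, p j ∈ W j) →
      (∀ j, Bd k (g j - GX M a (l j)) (p j) (ε j)) → ∃ C, 0 ≤ C ∧ ∀ j,
        Bd k (pb (Ps j) (g j) - gin (l j * M) (l j * a)) (Xi M a (l j) (p j)) (C * ε j) := by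
    intro J l Ps g W ε p hl i L hp hW b
    have m := fun j => Bx_DX h (hl j) (hp j)
    have o := fun j => (i j).o'.mem_nhds ((i j).mf (m j))
    have s := fun j => (i j).sh.contDiffAt (o j)
    have e : (fun j => Ps j (Xi M a (l j) (p j))) = p := funext fun j => (i j).l _ (m j)
    have a1 := oj_inv s (A := fun j z => (fderiv ℝ (Xi M a (l j)) z).inverse) (fun j =>
      mem_of_superset (o j) fun z hz => (ContinuousLinearMap.inverse_eq ((i j).symm.cmp hz) (by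
        have := (i j).cmp ((i j).mh hz)
        rwa [(i j).r z hz] at this)).symm) k (e.symm ▸ .of1 (fun j => ((par_cd h (z := (l j, p j))
          (hl j).1 (m j)).2.2.1.comp (p j) (contDiffAt_const.prodMk contDiffAt_id) :))
        fun j => (hB _ (hl j) _ (hp j)).2.2.2)
    refine (Oj.pb s a1 (e.symm ▸ oj_sub L (fun j => GX_lv h (hl j).1) hW m b)).bd' fun j => ?_
    have r := rp_tb (L j).isOpen (L j).met
    have r0 := rp_tb (GX_lv h (hl j).1).isOpen (GX_lv h (hl j).1).met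
    filter_upwards [o j, (s j).continuousAt.eventually ((L j).isOpen.mem_nhds
      ((congrFun e j).symm ▸ hW j))] with z h1 h2 v w
    rw [P354RC.pb_ap, P354YI.tb_sub, sub_apply, sub_apply, ← r.eq _ h2, ← r0.eq _ ((i j).mh h1),
      GX, pb, (i j).symm.ap h1, (i j).symm.ap h1, (i j).r z h1]
    rfl
  obtain ⟨C, c0, hC⟩ := key (J := {i : ℝ × (R4 → R4) × Tw × Set R4 × ℝ × R4 //
    i.1 ∈ Icc 0 (64 * M)⁻¹ ∧ Inv (Xi M a i.1) i.2.1 (DX M a i.1) (Xi M a i.1 '' DX M a i.1) ∧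
    Lv i.2.2.1 i.2.2.2.1 ∧ i.2.2.2.2.2 ∈ Bx (1 / 32) ∧ i.2.2.2.2.2 ∈ i.2.2.2.1 ∧
    Bd k (i.2.2.1 - GX M a i.1) i.2.2.2.2.2 i.2.2.2.2.1}) (fun j => j.2.1) (fun j => j.2.2.1)
    (fun j => j.2.2.2.1) (fun j => j.2.2.2.2.1) (fun j => j.2.2.2.2.2.1) fun j => j.2.2.2.2.2.2
  exact ⟨C, c0, fun l a1 Ps g W ε a2 a3 p a4 a5 a6 => hC ⟨(l, Ps, g, W, ε, p), a1, a2, a3, a4, a5, a6⟩⟩

/-- The window in the ingoing chart. -/
theorem win2 (hS : S0) (h : |a| < M) : ∃ l0 ∈ Ioc 0 (64 * M)⁻¹, ∃ δ > (0 : ℝ), ∀ k,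
    ∃ m, ∃ η > 0, ∃ C, 0 ≤ C ∧ ∀ l ∈ Icc 0 l0, ∀ d d0, ∀ ε ∈ Icc 0 η, Dt M a l m ε d d0 →
      ∃ g W, Lv g W ∧ (∀ p ∈ W, (∀ c, g p (fderiv ℝ (Lo (l * M) (l * a)) p (Lo (l * M) (l * a) p)) c +
          chr g p (Lo (l * M) (l * a) p) (Lo (l * M) (l * a) p) c = 0) ∧
          ∀ v, g p (Lo (l * M) (l * a) p) v = gin (l * M) (l * a) p (Lo (l * M) (l * a) p) v) ∧
        (∀ p, rd p ∈ Icc (1 / 2) 4 → p.1 - tl M a l (rd p) ∈ Icc 0 (δ * rd p) →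
          p ∈ W ∧ Bd k (g - gin (l * M) (l * a)) p (C * ε)) ∧
        ∀ y : X, ‖y‖ ∈ Icc (1 / 4) 4 → In0 (pb (Xi M a l) g) d y := by
  obtain ⟨l0, hl0, δ, δ0, H⟩ := win1 hS h
  refine ⟨l0, hl0, δ / 4, by linarith [δ0.1], fun k => ?_⟩
  obtain ⟨m, η, η0, C, c0, hC⟩ := H k
  obtain ⟨C', c', hC'⟩ := bd_push h k
  refine ⟨m, η, η0, C' * C, by positivity, fun l hl d d0 ε hε D => ?_⟩
  obtain ⟨g, W, L, s, f, b, I⟩ := hC l hl d d0 ε hε D
  obtain ⟨Ps, i⟩ := ex_Ps h hl.1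
  have hl' : l ∈ Icc 0 (64 * M)⁻¹ := ⟨hl.1, hl.2.trans hl0.2⟩
  have P := i.symm.pull L (D := Xi M a l '' DX M a l ∩ Ps ⁻¹' W) fun _ => Iff.rfl
  have t : ∀ z ∈ Xi M a l '' DX M a l, fderiv ℝ Ps z (Lo (l * M) (l * a) z) = eT := by
    rintro _ ⟨z, hz, rfl⟩
    rw [← Xi_eT h hl.1 hz, i.ap hz]
  refine ⟨pb Ps g, _, L.pull P, fun p hp => ⟨?_, fun v => ?_⟩, fun p r τ => ?_, fun y hy => ?_⟩
  · have m := i.mh hp.1
    refine (geo_iff P hp ((P354YR.s_Lo (P354YR.xs_ne (i.r p hp.1 ▸ (GX_pull h hl.1).maps m))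
      ?_).differentiableAt (by simp)) (differentiableAt_const eT)
      (mem_of_superset (i.o'.mem_nhds hp.1) t)).2 fun c => ?_
    · rw [← i.r p hp.1, Xi_rd h hl.1 m, Del_l h]
      exact (mul_pos (sub_pos.2 m.2) (sub_pos.2 ((DX_rm h hl.1 m).trans_lt m.2))).ne'
    have e : ∀ u v, P354n.deriv (fun z => g z eT u) (Ps p) v =
        P354n.deriv (fun z => GX M a l z eT u) (Ps p) v := fun u v =>
      EventuallyEq.lineDeriv_eq (mem_of_superset (L.isOpen.mem_nhds hp.2) fun z hz => f z hz u)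
    rw [fderiv_fun_const, Pi.zero_apply, zero_apply, L.met.symm _ hp.2,
      (L.met.lin _ hp.2 c).map_zero, zero_add, ← GX_geo h hl.1 m c]
    simp only [chr, e]
  · rw [pb, t p hp.1, f _ hp.2, GX, pb, Xi_eT h hl.1 (i.mh hp.1), i.symm.ap hp.1, i.r p hp.1]
  · obtain ⟨m1, m2⟩ := lM_le h hl'
    have τ1 : p.1 - tl M a l (rd p) ≤ δ := τ.2.trans (by nlinarith [r.2, δ0.1])
    obtain ⟨z, hz, rfl, z1⟩ := Xi_surj h hl.1 (q := p) (by linarith [r.1]) (by linarith [r.1, δ0.2])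
    rw [uIcc_of_le τ.1] at z1
    have k := r0_bd h hl.1 hz
    rw [Xi_rd h hl.1 hz, r1] at r
    have w : z ∈ Wd δ (1 / 4) 4 := ⟨⟨z1.1, z1.2.trans τ1⟩,
      by linarith [r.1, k.2, z1.2, δ0.2], by linarith [r.2, k.1, z1.1]⟩
    refine ⟨⟨i.mf hz, show Ps _ ∈ W from (i.l z hz).symm ▸ (b z w).1⟩, ?_⟩
    rw [mul_assoc]
    exact hC' l hl' Ps g W _ i L z ⟨(abs_of_nonneg w.1.1).trans_le (w.1.2.trans δ0.2),
      by linarith [w.2.1], by linarith [w.2.2]⟩ (b z w).1 (b z w).2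
  · refine P354YI.in0_congr (I y hy) (mem_of_superset (i.o.mem_nhds (s (b _
      ⟨⟨le_rfl, δ0.1.le⟩, by rwa [rd, xs_pt]⟩).1)) fun z hz => funext₂ fun v w => ?_)
    rw [pb, pb, i.ap hz, i.ap hz, i.l z hz]

theorem iter_mul (f : X → ℝ) (t : ℝ) (k : ℕ) :
    iteratedFDeriv ℝ k (fun z => t * f z) = fun x => t • iteratedFDeriv ℝ k f x := by
  induction k with
  | zero => ext; simp
  | succ k ih =>
    ext x m
    have e := fderiv_const_smul_field (𝕜 := ℝ) (f := iteratedFDeriv ℝ k f) t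
    rw [iteratedFDeriv_succ_apply_left, ih, smul_apply, iteratedFDeriv_succ_apply_left]
    erw [e]
    rfl

theorem jb_sc {F : X → ℝ} {t η : ℝ} {m : ℕ} {y : X} (hρ : 0 < ρ) (ht : 0 ≤ t) (hy : 1 / 16 ≤ ‖y‖)
    (h : ∀ k ≤ m, t * (‖ρ • y‖ ^ (k + 1) * ‖iteratedFDeriv ℝ k F (ρ • y)‖) ≤ η) :
    Jb m (fun z => t * F (ρ • z)) y (16 ^ (m + 1) * η / ρ) := fun k hk => by
  have e := iter_sc F ρ 0 k
  simp only [add_zero] at e
  have a := h k hk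
  have n := norm_nonneg (iteratedFDeriv ℝ k F (ρ • y))
  have η0 : 0 ≤ η := le_trans (by positivity) a
  rw [norm_smul, Real.norm_of_nonneg hρ.le, mul_pow] at a
  rw [iter_mul, e, norm_smul, norm_smul, Real.norm_of_nonneg ht, Real.norm_of_nonneg (by positivity),
    le_div_iff₀ hρ]
  have b : 1 ≤ 16 ^ (k + 1) * ‖y‖ ^ (k + 1) := by rw [← mul_pow]; exact one_le_pow₀ (by linarith)
  have c : (16 : ℝ) ^ (k + 1) ≤ 16 ^ (m + 1) := pow_le_pow_right₀ (by norm_num) (by omega)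
  generalize ‖iteratedFDeriv ℝ k F (ρ • y)‖ = N at *
  calc _ = t * (ρ ^ (k + 1) * N) * 1 := by rw [pow_succ]; ring
    _ ≤ t * (ρ ^ (k + 1) * N) * (16 ^ (k + 1) * ‖y‖ ^ (k + 1)) := by gcongr
    _ = 16 ^ (k + 1) * (t * (ρ ^ (k + 1) * ‖y‖ ^ (k + 1) * N)) := by ring
    _ ≤ _ := mul_le_mul c a (by positivity) (by positivity)

/-- The dilated data are close to the data of GX. -/
theorem dt_sc (h : |a| < M) (h1 : 16 ≤ ρ) (h2 : ρ⁻¹ ≤ (64 * M)⁻¹) {m : ℕ} {η : ℝ} (η0 : 0 ≤ η)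
    {d : P354XS.DA M a} (hd : d ∈ BA M a m η) :
    Dt M a ρ⁻¹ m (16 ^ (m + 1) * (16 * η) / ρ) (scd ρ d.1) (scd ρ (ds M a)) := fun y hy => by
  have ρ0 : 0 < ρ := by linarith
  have hp : pt 0 y ∈ DX M a ρ⁻¹ :=
    Bx_DX h ⟨by positivity, h2⟩ ⟨abs_zero.trans_le (by norm_num), by rwa [rd, xs_pt]⟩
  have k := ((DX_sc ρ0).2 hp).1
  rw [one_mul, ← pt_sc, rd, xs_pt] at k
  have n : ‖ρ • y‖ = ρ * ‖y‖ := by rw [norm_smul, Real.norm_of_nonneg ρ0.le]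
  have n1 : 1 ≤ ‖ρ • y‖ := by rw [n]; nlinarith [hy.1]
  have y0 : ρ • y ≠ 0 := norm_pos_iff.1 (by linarith)
  have o : ({0}ᶜ : Set X) ∈ 𝓝 (ρ • y) := isOpen_compl_singleton.mem_nhds y0
  refine ⟨P354YI.in0_congr (in0_sc (in0_GX h k)) (mem_of_superset
    ((open_DX h (by positivity)).mem_nhds hp) fun z hz => (GX_sc h ρ0 hz).symm),
    gd_sc ⟨fun i j => ⟨(d.2.1.1 i j).1.contDiffAt o, (d.2.1.1 i j).2.contDiffAt o⟩,
      ⟨(d.2.1.2 _ y0).1.isHermitian, (d.2.1.2 _ y0).2⟩, d.2.2.1 _ y0⟩, fun i j => ?_⟩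
  have q := P354XQ.qm_parts (le_of_lt hd) i j
  refine ⟨(jb_sc (F := fun y => d.1.h y i j - (ds M a).h y i j) ρ0 zero_le_one hy.1
      fun k hk => ?_).congr (.of_forall fun z => (one_mul _).symm), (jb_sc (F := fun y => d.1.K y i j - (ds M a).K y i j) ρ0 ρ0.le hy.1
      fun k hk => ?_).congr (.of_forall fun z => (mul_sub ρ _ _).symm)⟩
  · have t := P354XQ.le_of_wq hk η0 q.1 y0
    have w : 1 ≤ 2 * (wi (ρ • y) * ‖ρ • y‖) := by
      rw [wi, ← div_eq_inv_mul, ← mul_div_assoc, le_div_iff₀ (by positivity)]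
      linarith [inv_le_one_of_one_le₀ n1]
    rw [show 2 + k = 1 + (k + 1) by omega, pow_add, pow_one, ← mul_assoc, mul_assoc] at t
    nlinarith [mul_le_mul_of_nonneg_right w (show 0 ≤ ‖ρ • y‖ ^ (k + 1) * ‖iteratedFDeriv ℝ k
      (fun y => d.1.h y i j - (ds M a).h y i j) (ρ • y)‖ by positivity)]
  · have t := P354XQ.le_of_wq hk η0 q.2 y0
    have w : ρ ≤ 16 * ‖ρ • y‖ := by rw [n]; nlinarith [hy.1]
    rw [show 2 + k = 1 + (k + 1) by omega, pow_add, pow_one, Pi.one_apply, one_mul, mul_assoc] at t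
    nlinarith [mul_le_mul_of_nonneg_right w (show 0 ≤ ‖ρ • y‖ ^ (k + 1) * ‖iteratedFDeriv ℝ k
      (fun y => d.1.K y i j - (ds M a).K y i j) (ρ • y)‖ by positivity)]

/-- The windows at all scales. -/
theorem win3 (hS : S0) (h : |a| < M) : ∃ R > 0, ∃ δ > 0, ∀ m, ∀ e > 0, ∃ m', ∃ η > 0,
    ∀ d ∈ BA M a m' η, ∀ ρ ≥ R, ∃ W g, Fg M a d.1 {p ∈ Fb M a (ρ / 2) δ | rd p ≤ 4 * ρ} W g ∧
      (∀ p ∈ W, ∀ v, g p (Lo M a p) v = gin M a p (Lo M a p) v) ∧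
      ∀ p ∈ Fb M a (ρ / 2) δ, rd p ≤ 4 * ρ → Sm m e (g - gin M a) p := by
  obtain ⟨l0, hl0, δ, δ0, H⟩ := win2 hS h
  refine ⟨max 16 l0⁻¹, by positivity, δ, δ0, fun k e e0 => ?_⟩
  obtain ⟨m, η, η0, C, c0, hC⟩ := H k
  obtain ⟨θ, θ0, t1, t2⟩ : ∃ θ > 0, 16 ^ (m + 1) * (16 * θ) ≤ η ∧
      5 ^ (k + 1) * (C * (16 ^ (m + 1) * (16 * θ))) ≤ e := by
    have c : ∀ A : ℝ, Tendsto (fun θ : ℝ => A * θ) (𝓝[>] 0) (𝓝 0) := fun A =>
      (Continuous.tendsto' (by fun_prop) _ _ (mul_zero A)).mono_left nhdsWithin_le_nhds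
    obtain ⟨θ, a1, a2, a3⟩ := (((c (16 ^ (m + 1) * 16)).eventually_le_const η0).and
      (((c (5 ^ (k + 1) * C * 16 ^ (m + 1) * 16)).eventually_le_const e0).and
        self_mem_nhdsWithin)).exists
    exact ⟨θ, a3, by linarith, by linarith⟩
  refine ⟨m, θ, θ0, fun d hd ρ hρ => ?_⟩
  have r1 : 16 ≤ ρ := (le_max_left _ _).trans hρ
  have ρ0 : 0 < ρ := by linarith
  have hl : ρ⁻¹ ∈ Icc 0 l0 := ⟨by positivity, inv_le_of_inv_le₀ hl0.1 ((le_max_right _ _).trans hρ)⟩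
  have hl' : ρ⁻¹ ∈ Icc 0 (64 * M)⁻¹ := ⟨hl.1, hl.2.trans hl0.2⟩
  obtain ⟨g, W, L, f, b, I⟩ := hC _ hl _ _ _ ⟨by positivity,
    (div_le_self (by positivity) (by linarith)).trans t1⟩ (dt_sc h r1 hl'.2 θ0.le hd)
  set c : R4 := (2 * M * log ρ, 0) with hc
  have u : ∀ p : R4, ρ • (ρ⁻¹ • p + -(ρ⁻¹ • c)) + c = p := fun p => by
    rw [smul_add, smul_neg, smul_inv_smul₀ ρ0.ne', smul_inv_smul₀ ρ0.ne', neg_add_cancel_right]
  have e1 : Lo M a = fun p => Lo (ρ⁻¹ * M) (ρ⁻¹ * a) (ρ⁻¹ • p + -(ρ⁻¹ • c)) :=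
    funext fun p => by rw [← Lo_sc ρ0, u]
  have e2 : gin M a = fun p => gin (ρ⁻¹ * M) (ρ⁻¹ * a) (ρ⁻¹ • p + -(ρ⁻¹ • c)) :=
    funext fun p => by rw [← gin_sc ρ0, u]
  have L' := lv_sc (ρ := ρ⁻¹) (c := -(ρ⁻¹ • c)) L
  obtain ⟨m1, m2⟩ := lM_le h hl'
  have b' := fun p (hp : p ∈ Fb M a (ρ / 2) δ) (r : rd p ≤ 4 * ρ) => by
    have a1 := rd_sc (p := ρ⁻¹ • p + -(ρ⁻¹ • c)) ρ0.le (2 * M * log ρ)
    have a2 := congrArg Prod.fst (u p)
    rw [u] at a1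
    obtain ⟨p1, p2⟩ := hp
    rw [a1] at p1 p2 r
    have r2 : 1 / 2 ≤ rd (ρ⁻¹ • p + -(ρ⁻¹ • c)) := le_of_mul_le_mul_left (by linarith) ρ0
    rw [← tl_one, (tl_sc h ρ0 (by linarith)).1, ← a2, Prod.fst_add, Prod.smul_fst, smul_eq_mul,
      add_sub_add_right_eq_sub, ← mul_sub, mul_left_comm] at p2
    exact b _ ⟨r2, le_of_mul_le_mul_left (by linarith) ρ0⟩
      ⟨nonneg_of_mul_nonneg_right p2.1 ρ0, le_of_mul_le_mul_left p2.2 ρ0⟩
  have fl : ∀ p, ρ⁻¹ • p + -(ρ⁻¹ • c) ∈ W → ∀ v,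
      g (ρ⁻¹ • p + -(ρ⁻¹ • c)) (Lo M a p) v = gin M a p (Lo M a p) v := fun p hp v => by
    rw [e1, e2]; exact (f _ hp).2 v
  refine ⟨_, _, ⟨L', fun p hp => (b' p hp.1 hp.2).1, fun p hp v => ?_, fun p hp _ => fl p hp,
    fun y hy m => ?_⟩, fl, fun p hp r j hj v w => ?_⟩
  · rw [e1, geo_sc, L.met.symm _ hp, (L.met.lin _ hp v).map_smul, L.met.symm _ hp, smul_eq_mul,
      ← mul_add, (f _ hp).1, mul_zero]
  · have y0 := norm_pos_iff.2 (show y ≠ 0 from xs_pt 0 y ▸ hy.1.1)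
    have k1 : √(M ^ 2 - a ^ 2) / 2 < ‖y‖ := by
      have k : 0 < 0 + kx M a (pt 0 y) := hy.2
      have := sqrt_pos.2 y0
      rw [zero_add, kx, rd, xs_pt, sub_pos, div_lt_iff₀ (by positivity)] at k
      nlinarith [mul_self_sqrt y0.le]
    have D := p0_DX h k1
    have k2 := r0_bd h zero_le_one D
    obtain ⟨⟨k3, -⟩, k4⟩ := id m
    rw [← Xi_p0 h k1, Xi_rd h zero_le_one D, r1_p0 h k1, ← r0_p0 h k1] at k3 k4
    rw [rd, xs_pt] at k2
    have k5 := (inv_mul_le_iff₀ ρ0).1 m1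
    have := in0_sc (ρ := ρ⁻¹) (I (ρ⁻¹ • y) (by
      rw [norm_smul, Real.norm_of_nonneg hl.1]
      exact ⟨(le_inv_mul_iff₀ ρ0).2 (by linarith [k2.2]),
        (inv_mul_le_iff₀ ρ0).2 (by linarith [k2.1])⟩))
    rw [scd_scd ρ0.ne'] at this
    refine (in0_iff h k1 L' (b' _ m.1 m.2).1).1 (P354YI.in0_congr this (mem_of_superset
      ((open_DX h zero_le_one).mem_nhds D) fun z hz => funext₂ fun v w => ?_))
    obtain ⟨z, rfl⟩ : ∃ z', z = ρ • z' := ⟨_, (smul_inv_smul₀ ρ0.ne' z).symm⟩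
    rw [DX_sc ρ0] at hz
    simp only [pb, Xi_sc h ρ0 hz, fd_sc h ρ0 hz, smul_add, inv_smul_smul₀ ρ0.ne', ← hc,
      add_neg_cancel_right]
  · have k1 := (b' p hp r).2 j hj v w
    have k2 := congrFun (iter_sc (fun x => (g - gin (ρ⁻¹ * M) (ρ⁻¹ * a)) x v w) ρ⁻¹ (-(ρ⁻¹ • c)) j) p
    rw [e2]
    refine (congrArg norm k2).trans_le ?_
    rw [norm_smul, Real.norm_of_nonneg (by positivity)]
    refine (mul_le_mul_of_nonneg_left k1 (by positivity)).trans ?_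
    rw [← mul_assoc]
    refine mul_le_mul_of_nonneg_right ?_ (by positivity)
    have k3 : (1 + rd p) ^ (j + 1) ≤ 5 ^ (k + 1) * ρ ^ (j + 1) := by
      refine le_trans ?_ (mul_le_mul_of_nonneg_right (pow_le_pow_right₀ (by norm_num)
        (Nat.succ_le_succ hj)) (by positivity))
      rw [← mul_pow]
      exact pow_le_pow_left₀ (by linarith [rd_nonneg p]) (by linarith) _
    rw [le_div_iff₀ (by have := rd_nonneg p; positivity)]
    refine (mul_le_mul_of_nonneg_left k3 (by positivity)).trans (le_of_eq_of_le ?_ t2)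
    rw [inv_pow, pow_succ ρ]
    field_simp

theorem Fb_mono {R R' δ δ' : ℝ} (h : R' ≤ R) (h' : δ ≤ δ') : Fb M a R δ ⊆ Fb M a R' δ' :=
  fun p hp => ⟨h.trans hp.1, hp.2.1, hp.2.2.trans (mul_le_mul_of_nonneg_right h' (rd_nonneg p))⟩

theorem Fg_mono {d : Dat} {A A' W : Set R4} {g : Tw} (F : Fg M a d A W g) (s : A' ⊆ A) :
    Fg M a d A' W g := ⟨F.lv, s.trans F.sub, F.geo, F.flat, fun y a b => F.ind y a (s b)⟩

/-- FARW. -/
theorem farw (hS : S0) (hA : AGR) : FARW := by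
  intro M a h
  obtain ⟨R1, δ1, δ10, c, c0, hA⟩ := hA M a h
  obtain ⟨R2, R20, δ2, δ20, H⟩ := win3 hS h
  obtain ⟨R, R0, r1, r2⟩ : ∃ R > 0, R1 ≤ R ∧ R2 ≤ R :=
    ⟨max R1 R2, lt_max_of_lt_right R20, le_max_left _ _, le_max_right _ _⟩
  have δ0 := lt_min δ10 δ20
  refine ⟨R, min δ1 δ2 / 2, half_pos δ0, fun m e e0 => ?_⟩
  obtain ⟨m', η, η0, hη⟩ := H m _ (lt_min e0 c0)
  refine ⟨m', η, η0, fun d hd => ?_⟩
  have up : ∀ {j k : ℕ}, j ≤ k → 2 ^ j * R ≤ 2 ^ k * R := fun e =>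
    mul_le_mul_of_nonneg_right (pow_le_pow_right₀ one_le_two e) R0.le
  have u0 : ∀ n : ℕ, R ≤ 2 ^ n * R := fun n => by simpa using up n.zero_le
  have u1 : ∀ n : ℕ, 2 ^ (n + 1) * R = 2 * (2 ^ n * R) := fun n => by ring
  choose W g F fl sm using fun n : ℕ => hη d hd (2 ^ n * R) (r2.trans (u0 n))
  have ag := fun n => hA _ (r1.trans (u0 n)) _ ⟨δ0, min_le_left _ _⟩ d.1 _ _ _ _
    (Fg_mono (F n) fun p hp => ⟨Fb_mono (by linarith [u0 n]) (min_le_right _ _) hp.1, hp.2⟩)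
    (Fg_mono (F (n + 1)) fun p hp => ⟨Fb_mono (by linarith [u1 n]) (min_le_right _ _) hp.1,
      by linarith [u0 n, u1 n, show rd p ≤ _ from hp.2]⟩) fun p hp r v => by
      have := sm n p (Fb_mono (by linarith [u0 n]) (min_le_right _ _) hp) r 0 m.zero_le v v
      rw [norm_iteratedFDeriv_zero, ← sq] at this
      exact this.trans (mul_le_mul_of_nonneg_right ((div_le_self (lt_min e0 c0).le
        (one_le_pow₀ (by linarith [rd_nonneg p]))).trans (min_le_right _ _)) (sq_nonneg _))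
  have ex : ∀ p : R4, ∃ n : ℕ, rd p < 2 ^ (n + 1) * R := fun p =>
    (pow_unbounded_of_one_lt (rd p / R) one_lt_two).imp fun n k =>
      ((div_lt_iff₀ R0).1 k).trans_le (up n.le_succ)
  have lo : ∀ {p : R4} {k : ℕ}, 2 ^ k * R ≤ rd p → k ≤ Nat.find (ex p) := fun e =>
    (Nat.le_find_iff _ _).2 fun j hj => not_lt.2 ((up hj).trans e)
  have ct := fun p : R4 => P354YR.rd_cont.continuousAt (x := p)
  have key : ∀ p ∈ Fb M a R (min δ1 δ2 / 2), ∃ n, (fun q => g (Nat.find (ex q)) q) =ᶠ[𝓝 p] g n ∧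
      p ∈ Fb M a (2 ^ n * R / 2) δ2 ∧ rd p ≤ 4 * (2 ^ n * R) := fun p hp => by
    obtain ⟨n, hn⟩ : ∃ n, Nat.find (ex p) = n := ⟨_, rfl⟩
    obtain ⟨a1, a2⟩ := (Nat.find_eq_iff _).1 hn
    have a3 := ((ct p).eventually_lt_const a1).mono fun q => Nat.find_min' (ex q)
    have a4 : 2 ^ n * R ≤ rd p := by
      cases n with
      | zero => simpa using hp.1
      | succ k => exact not_lt.1 (a2 k k.lt_succ_self)
    refine ⟨n, ?_, Fb_mono (by linarith [u0 n]) (by linarith [min_le_right δ1 δ2])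
      (show p ∈ Fb M a (2 ^ n * R) _ from ⟨a4, hp.2⟩), by linarith [u0 n, u1 n]⟩
    cases n with
    | zero => exact a3.mono fun q k => by simp only [Nat.le_zero.1 k]
    | succ k =>
      by_cases t : rd p ≤ 3 * (2 ^ k * R)
      · filter_upwards [a3, ag k p ⟨u1 k ▸ a4, hp.2⟩ t, (ct p).eventually_const_lt
          (show 2 ^ k * R < rd p by linarith [u0 k, u1 k])] with q b1 b2 b3
        rcases (lo b3.le).eq_or_lt with b | b
        · rw [← b, b2]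
        · rw [b1.antisymm b]
      · filter_upwards [a3, (ct p).eventually_const_lt
          (show 2 ^ (k + 1) * R < rd p by linarith [u0 k, u1 k])] with q b1 b3
        rw [b1.antisymm (lo b3.le)]
  generalize (fun q => g (Nat.find (ex q)) q) = G at key
  have f0 : ∀ p ∈ {q | ∃ n, q ∈ W n ∧ G =ᶠ[𝓝 q] g n}, ∀ v,
      G p (Lo M a p) v = gin M a p (Lo M a p) v := fun p ⟨n, a1, a2⟩ v =>
    a2.eq_of_nhds ▸ fl n p a1 v
  refine ⟨{q | ∃ n, q ∈ W n ∧ G =ᶠ[𝓝 q] g n}, G, ⟨P354XV.lv_local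
      (isOpen_iff_mem_nhds.2 fun _ ⟨n, a1, a2⟩ =>
      (((F n).lv.isOpen.eventually_mem a1).and a2.eventually_nhds).mono fun _ k => ⟨n, k⟩)
      fun _ ⟨n, a1, a2⟩ => ⟨_, _, (F n).lv, a1, a2⟩,
    fun p hp => (key p hp).imp fun n k => ⟨(F n).sub k.2, k.1⟩, fun p ⟨n, a1, a2⟩ v => ?_,
    fun p hp _ => f0 p hp, fun y hy b => ?_⟩, f0, fun p hp j hj v w => ?_⟩
  · rw [P354XV.chr_congr a2, a2.eq_of_nhds, (F n).geo p a1]
  · obtain ⟨n, a1, a2⟩ := key _ b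
    refine P354YI.in0_congr ((F n).ind y hy a2) ?_
    filter_upwards [(P354RC.p_at (P354YR.isCh h true).back hy).continuousAt.eventually a1] with z k
    exact funext₂ fun v w => by rw [pb, pb, k]
  · obtain ⟨n, a1, a2⟩ := key p hp
    have k : (fun x => (G - gin M a) x v w) =ᶠ[𝓝 p] fun x => (g n - gin M a) x v w :=
      a1.mono fun x k => by simp only [Pi.sub_apply, k]
    have := rd_nonneg p
    rw [(k.iteratedFDeriv ℝ j).eq_of_nhds]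
    exact (sm n p a2.1 a2.2 j hj v w).trans (mul_le_mul_of_nonneg_right
      (div_le_div_of_nonneg_right (min_le_left _ _) (by positivity)) (by positivity))

end Vale.Agent.P354XA
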