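import Vale.Agent.P354XA.Sc
import Vale.Agent.P354UG.Nice

/-!
Uniform bounds for the charts Xi and the metrics GX on a fixed box, for small l.
-/

set_option linter.unusedSectionVars false
set_option maxSynthPendingDepth 3

open scoped ContDiff
open Set Filter Topology Real

noncomputable section

namespace Vale.Agent.P354XA

open Vale.Agent.P354n (R4)
open Vale.Agent.P354I (X rm rp)
open Vale.Agent.P354XD (tb rp_tb)
open Vale.Agent.P354XE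
open Vale.Agent.P354XV (Lv Nice Spl)
open Vale.Agent.P354YI (Oj Jb pl)
open Vale.Agent.P354YR (b_pos b_sq M_pos rp_pos rm_lt xs_ne pol_c)

variable {M a l l0 s : ℝ} {p : R4} {m : ℕ}

/-- Smooth families on compact sets. -/
theorem oj_par {J V : Type} [NormedAddCommGroup V] [NormedSpace ℝ V] {K : Set R4}
    (hK : IsCompact K) {F : ℝ × R4 → V} (hF : ∀ z ∈ Icc 0 l0 ×ˢ K, ContDiffAt ℝ ∞ F z) {l : J → ℝ}
    {x : J → R4} (hl : ∀ j, l j ∈ Icc 0 l0) (hx : ∀ j, x j ∈ K) (m : ℕ) :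
    Oj m x (fun j y => F (l j, y)) 1 ∧ Oj m x (fun j y => F (l j, y) - F (0, y)) l := by
  have s : ∀ (c : J → ℝ) j, ContDiffAt ℝ ∞ (fun y : R4 => (c j, y)) (x j) := fun _ _ => by fun_prop
  have d : ∀ c : J → ℝ, Oj (m - 1) x (fun j => fderiv ℝ fun y : R4 => (c j, y)) 1 := fun c =>
    (Oj.cst (.inr ℝ ℝ R4)).congr' fun j y => (hasFDerivAt_prodMk_right (c j) y).fderiv
  have Q := isCompact_Icc (a := (0 : ℝ)) (b := l0) |>.prod hK
  refine ⟨Oj.comp (s l) m (d l) (.fix Q hF fun j => ⟨hl j, hx j⟩), ?_⟩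
  have := Oj.lip (s l) (s 0) (S := fun _ => Icc 0 l0 ×ˢ K) (fun j => by
      rintro _ ⟨u, v, hu, hv, e, rfl⟩
      refine ⟨(convex_Icc _ _) (hl j) ⟨le_rfl, (hl j).1.trans (hl j).2⟩ hu hv e, ?_⟩
      simpa [← add_smul, e] using hx j) m (G := fun _ => F) (ν := 1) (μ := l) (d l) (d 0)
    ((Oj.const (v := fun j => ((l j, 0) : ℝ × R4)) (fun j => (hl j).1)
      ⟨1, fun j => by simp [abs_of_nonneg (hl j).1, (hl j).1]⟩).congr' fun j y => by simp)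
    (Oj.fix Q hF fun i => i.2)
  rwa [one_mul] at this

/-- The box. -/
def Bx (s : ℝ) : Set R4 := {p | |p.1| ≤ s ∧ rd p ∈ Icc (1 / 16) 16}

theorem norm_le_rd (p : R4) : ‖p.2‖ ≤ rd p := by
  have k := rd_sq p
  have r := rd_nonneg p
  simp only [ip] at k
  refine max_le (abs_le_of_sq_le_sq ?_ r) (max_le (abs_le_of_sq_le_sq ?_ r)
    (abs_le_of_sq_le_sq ?_ r)) <;> nlinarith [sq_nonneg p.2.1, sq_nonneg p.2.2.1, sq_nonneg p.2.2.2]

theorem Bx_cpt (s : ℝ) : IsCompact (Bx s) :=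
  Metric.isCompact_of_isClosed_isBounded ((isClosed_le continuous_fst.abs continuous_const).and
    (isClosed_Icc.preimage P354YR.rd_cont)) (isBounded_iff_forall_norm_le.2 ⟨max s 16, fun p hp =>
      max_le_max hp.1 ((norm_le_rd p).trans hp.2.2)⟩)

theorem Bx_mono {s' : ℝ} (h : s ≤ s') : Bx s ⊆ Bx s' := fun _ hp => ⟨hp.1.trans h, hp.2⟩

theorem Xi0_p0 (y : X) : Xi M a 0 (pt 0 y) = pt 0 y := by
  by_cases h : rd (pt 0 y) = 0
  · rw [rd, xs_pt, norm_eq_zero] at h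
    simp [Xi, pol_c, h, pt, Xt, tl]
  · have e : r1 M a 0 (pt 0 y) = rd (pt 0 y) := by simp [r1, r0, pt]
    simp only [Xi, pol_c, e, div_self h]
    simp [Xt, Xc, tl, jl, pt]

/-- The metric GX as a field of forms. -/
def PL (M a : ℝ) (z : ℝ × R4) : P354RC.B2 := pl (tb (gin (z.1 * M) (z.1 * a)) (Xi M a z.1 z.2))
  (fderiv ℝ (Xi M a z.1) z.2) (fderiv ℝ (Xi M a z.1) z.2)

section
variable (h : |a| < M)
include h

theorem Bx_DX (hl : l ∈ Icc 0 (64 * M)⁻¹) (hp : p ∈ Bx (1 / 32)) : p ∈ DX M a l := by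
  have m := M_pos h
  have b1 : √(M ^ 2 - a ^ 2) ≤ M := sqrt_le_iff.2 ⟨m.le, by nlinarith⟩
  have c : l * M ≤ 1 / 64 := by
    have := (le_inv_mul_iff₀ (by positivity)).1 (hl.2.trans_eq (mul_one _).symm)
    linarith
  have c1 := mul_le_mul_of_nonneg_left b1 hl.1
  have c2 : 0 ≤ l ^ 2 * (M ^ 2 - a ^ 2) / (4 * rd p) := by
    have := rd_nonneg p
    rw [← b_sq h]; positivity
  exact ⟨by linarith [hp.2.1], by
    simp only [r1, r0, rp, mul_add]; linarith [hp.2.1, (abs_le.1 hp.1).1]⟩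

/-- Joint smoothness in the parameter and the point. -/
theorem par_cd {z : ℝ × R4} (hl : 0 ≤ z.1) (hp : z.2 ∈ DX M a z.1) :
    ContDiffAt ℝ ∞ (fun z : ℝ × R4 => Xi M a z.1 z.2) z ∧
    ContDiffAt ℝ ∞ (fun z : ℝ × R4 => fderiv ℝ (Xi M a z.1) z.2) z ∧
    ContDiffAt ℝ ∞ (fun z : ℝ × R4 => (fderiv ℝ (Xi M a z.1) z.2).inverse) z ∧
    ContDiffAt ℝ ∞ (PL M a) z := by
  have a1 : ContDiffAt ℝ ∞ (fun z : ℝ × R4 => Xi M a z.1 z.2) z := s_Xi contDiffAt_fst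
    contDiffAt_snd (xs_ne (DX_rd h hl hp)) (DX_r0 h hl hp) hp.2 (DX_rm h hl hp)
  have a2 : ContDiffAt ℝ ∞ (fun z : ℝ × R4 => fderiv ℝ (Xi M a z.1) z.2) z :=
    ContDiffAt.fderiv (n := ∞) (f := fun z : ℝ × R4 => Xi M a z.1) (s_Xi contDiffAt_fst.fst
      contDiffAt_snd (xs_ne (DX_rd h hl hp)) (DX_r0 h hl hp) hp.2 (DX_rm h hl hp)) contDiffAt_snd
      (by simp)
  have a3 : ContDiffAt ℝ ∞ (fun z : ℝ × R4 => tb (gin (z.1 * M) (z.1 * a)) (Xi M a z.1 z.2)) z := by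
    simp only [P354YI.tb_eq]
    exact .sum fun _ _ => .sum fun _ _ => (P354YI.el ℝ _ _).contDiff.contDiffAt.comp z
      (P354YR.s_gin a1 (xs_ne ((GX_pull h hl).maps hp)) (contDiffAt_fst.mul contDiffAt_const)
        (contDiffAt_fst.mul contDiffAt_const) _ _)
  have fl : ∀ {T : ℝ × R4 → P354RC.B2}, ContDiffAt ℝ ∞ T z →
      ContDiffAt ℝ ∞ (fun z => (T z).flip) z := fun k =>
    (ContinuousLinearMap.flipₗᵢ ℝ R4 R4 ℝ).contDiff.contDiffAt.comp z k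
  refine ⟨a1, a2, P354YI.at_comp (ContinuousLinearMap.IsInvertible.contDiffAt_map_inverse
    ⟨(LinearEquiv.ofInjectiveEndo (fderiv ℝ (Xi M a z.1) z.2 : R4 →ₗ[ℝ] R4)
      (Xi_inj h hl hp)).toContinuousLinearEquiv, rfl⟩) a2, ?_⟩
  exact fl ((fl (a3.clm_comp a2)).clm_comp a2)

theorem GX_pl (hl : 0 ≤ l) (hp : p ∈ DX M a l) (v w : R4) : GX M a l p v w = PL M a (l, p) v w :=
  (rp_tb (gin_lv 0 0).isOpen (gin_lv _ _).met).eq _ ((GX_pull h hl).maps hp) _ _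

/-- The metrics converge to the flat metric. -/
theorem GX_lip (m : ℕ) : ∃ C, 0 ≤ C ∧ ∀ l ∈ Icc 0 (64 * M)⁻¹, ∀ p ∈ Bx (1 / 32),
    Bd m (GX M a l) p C ∧ Bd m (GX M a l - GX M a 0) p (C * l) ∧
      Jb m (fderiv ℝ (Xi M a l)) p C ∧ Jb m (fun z => (fderiv ℝ (Xi M a l) z).inverse) p C := by
  let J := {i : ℝ × R4 // i ∈ Icc 0 (64 * M)⁻¹ ×ˢ Bx (1 / 32)}
  have c := fun z (hz : z ∈ Icc 0 (64 * M)⁻¹ ×ˢ Bx (1 / 32)) => par_cd h hz.1.1 (Bx_DX h hz.1 hz.2)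
  have e := fun (j : J) => (open_DX h j.2.1.1).eventually_mem (Bx_DX h j.2.1 j.2.2)
  have e0 := fun (j : J) => (open_DX h le_rfl).eventually_mem
    (Bx_DX h ⟨le_rfl, j.2.1.1.trans j.2.1.2⟩ j.2.2)
  obtain ⟨a1, a2⟩ := oj_par (Bx_cpt _) (F := PL M a) (fun z hz => (c z hz).2.2.2)
    (l := fun j : J => j.1.1) (x := fun j => j.1.2) (fun j => j.2.1) (fun j => j.2.2) m
  obtain ⟨C1, c1, h1⟩ := a1.bd' (g := fun j => GX M a j.1.1) fun j => by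
    filter_upwards [e j] with z k v w using GX_pl h j.2.1.1 k v w
  obtain ⟨C2, c2, h2⟩ := a2.bd' (g := fun j => GX M a j.1.1 - GX M a 0) fun j => by
    filter_upwards [e j, e0 j] with z k k0 v w
    rw [sub_apply, sub_apply, ← GX_pl h j.2.1.1 k, ← GX_pl h le_rfl k0]; rfl
  have a3 : Oj m (fun j : J => j.1.2) (fun j y => fderiv ℝ (Xi M a j.1.1) y) 1 :=
    (oj_par (Bx_cpt _) (fun z hz => (c z hz).2.1) (fun j : J => j.2.1) (fun j => j.2.2) m).1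
  have a4 : Oj m (fun j : J => j.1.2) (fun j y => (fderiv ℝ (Xi M a j.1.1) y).inverse) 1 :=
    (oj_par (Bx_cpt _) (fun z hz => (c z hz).2.2.1) (fun j : J => j.2.1) (fun j => j.2.2) m).1
  obtain ⟨C3, c3, h3⟩ := a3.bd
  obtain ⟨C4, c4, h4⟩ := a4.bd
  simp only [Pi.one_apply, mul_one] at h1 h3 h4
  refine ⟨C1 + C2 + C3 + C4, by positivity, fun l hl p hp => ⟨?_, ?_, ?_, ?_⟩⟩
  · exact P354YI.bd_le (h1 ⟨(l, p), hl, hp⟩) le_rfl (by linarith)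
  · exact P354YI.bd_le (h2 ⟨(l, p), hl, hp⟩) le_rfl
      (mul_le_mul_of_nonneg_right (by linarith) hl.1)
  · exact (h3 ⟨(l, p), hl, hp⟩).mono le_rfl (by linarith)
  · exact (h4 ⟨(l, p), hl, hp⟩).mono le_rfl (by linarith)

theorem spl0 (hp : p ∈ Bx 0) : Spl (GX M a 0) Prod.fst p := by
  have p0 : p.1 = 0 := abs_nonpos_iff.1 hp.1
  have r : 0 < rd p := lt_of_lt_of_le (by norm_num) hp.2.1
  have e : pt 0 (xs p) = p := p0 ▸ P354UG.pt_xs p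
  have D : p ∈ DX M a 0 := Bx_DX h ⟨le_rfl, by have := M_pos h; positivity⟩
    (Bx_mono (by norm_num) hp)
  refine P354UG.spl_fst.2 fun v v0 hv => ?_
  have k := P354DT.fix_fd (f := Xi M a 0) (e.symm ▸ Xi_cd h le_rfl D) (.of_forall Xi0_p0) (xs v)
  have k0 := Xi0_p0 (M := M) (a := a) (xs p)
  rw [e, show pt 0 (xs v) = v from hv ▸ P354UG.pt_xs v] at k
  rw [e] at k0
  have k3 := ip_split r.ne' v
  have k4 := norm_sq_le v
  have := norm_pos_iff.2 v0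
  rw [GX, pb, k, k0, gin, Sg_eq, hv]
  rw [hv] at k4
  simp only [zero_mul, ne_eq, OfNat.ofNat_ne_zero, not_false_eq_true, zero_pow, mul_zero, zero_div,
    add_zero, sub_zero, neg_zero, zero_add] at k4 ⊢
  nlinarith

/-- Uniform bounds. -/
theorem uni : ∃ l0 ∈ Ioc 0 (64 * M)⁻¹, ∃ s ∈ Ioc (0 : ℝ) (1 / 32), ∀ k, ∃ B ≥ (1 : ℝ),
    ∀ l ∈ Icc 0 l0, ∀ p ∈ Bx s, p ∈ DX M a l ∧ Nice k B (GX M a l) Prod.fst p ∧
      Jb k (fderiv ℝ (Xi M a l)) p B ∧ Jb k (fun z => (fderiv ℝ (Xi M a l) z).inverse) p B := by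
  have m := M_pos h
  have z : (0 : ℝ) ∈ Icc 0 (64 * M)⁻¹ := ⟨le_rfl, by positivity⟩
  obtain ⟨B, B0, δ, δ0, hB⟩ := P354UG.nice_cpt 0 (GX_lv h le_rfl) (Bx_cpt 0) fun p hp =>
    ⟨Bx_DX h z (Bx_mono (by norm_num) hp), contDiffAt_fst, spl0 h hp⟩
  obtain ⟨C, C0, hC⟩ := GX_lip h 0
  have μ0 : 0 < min B (1 / 2) := lt_min B0 (by norm_num)
  refine ⟨min (64 * M)⁻¹ (min B (1 / 2) / ((C + 1) * (1 + B) ^ 3)), ⟨by positivity, min_le_left _ _⟩,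
    min δ (1 / 32), ⟨by positivity, min_le_right _ _⟩, fun k => ?_⟩
  obtain ⟨C', C0', hC'⟩ := GX_lip h k
  refine ⟨2 * B + C' + 1, by linarith, fun l hl p hp => ?_⟩
  have hl' : l ∈ Icc 0 (64 * M)⁻¹ := ⟨hl.1, hl.2.trans (min_le_left _ _)⟩
  have hp' := Bx_mono (min_le_right _ _) hp
  obtain ⟨a1, -, a3, a4⟩ := hC' l hl' p hp'
  have n := P354YI.nice_near (GX_lv h hl.1) (GX_lv h le_rfl) (Bx_DX h hl' hp') (Bx_DX h z hp')
    (hB (0, p.2) ⟨abs_zero.le, hp.2⟩ p (by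
      simpa [Prod.dist_eq, δ0.le] using hp.1.trans (min_le_left _ _))).2 (hC l hl' p hp').2.1 (by
      have := (le_div_iff₀ (by positivity)).1 (hl.2.trans (min_le_right _ _))
      nlinarith [mul_nonneg hl.1 (show 0 ≤ (1 + B) ^ 3 by positivity)])
  have n' := n.le le_rfl (show 2 * B ≤ 2 * B + C' + 1 by linarith)
  exact ⟨Bx_DX h hl' hp', ⟨P354YI.bd_le a1 le_rfl (by linarith), n'.sp, n'.tl⟩,
    a3.mono le_rfl (by linarith), a4.mono le_rfl (by linarith)⟩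

end

end Vale.Agent.P354XA
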