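import Vale.Agent.P354XA.Core

/-!
Piece ACC: the adapted chart of the extension.
-/

set_option maxSynthPendingDepth 3

open scoped ContDiff
open MeasureTheory Set Filter Topology Metric

namespace Vale.Agent.P354XA

open Vale.Agent.P354p
open Vale.Agent.P354 (NearM Tv cone norm_Tv)
open Vale.Agent.P354V (Fu fut_chart)

theorem two_le : (2 : WithTop ℕ∞) ≤ ∞ := by
  rw [show (2 : WithTop ℕ∞) = ((2 : ℕ∞) : WithTop ℕ∞) from rfl]
  exact WithTop.coe_le_coe.2 le_top

/-- An affine chart in which the metric is near the Minkowski form on a ball. -/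
structure Ad (N' : Spc) where
  e : N'.Chart
  y0 : R4
  A : R4 ≃L[ℝ] R4
  R : ℝ
  pos : 0 < R
  tg : ∀ z ∈ closedBall (0 : R4) R, yv y0 A z ∈ tgt e
  near : ∀ z ∈ ball (0 : R4) R, NearM (Gf (comp e) y0 A z) ∧
    N'.g e (yv y0 A z) (A Tv) (N'.X e (yv y0 A z)) < 0

variable {N N' : Spc} {ι : N.pt → N'.pt}

theorem exists_ad (hs : IsSpacetime (IsC0W1 2) N') {c : ℝ → N'.pt}
    (hc : IsFutureCurve N' 0 (Icc 0 1) c) : ∃ D : Ad N', On D.e (c 1) ∧ D.y0 = co D.e (c 1) := by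
  obtain ⟨e', hp⟩ := N'.cover (c 1)
  replace hp : On e' (c 1) := hp
  have hy0 : co e' (c 1) ∈ tgt e' := co_mem hp
  obtain ⟨A, hA, lam, hl, hAT⟩ := exists_A hs hy0 (endVel_timelike hp hc)
  have hT : N'.g e' (co e' (c 1)) (A Tv) (N'.X e' (co e' (c 1))) < 0 := by
    have h1 : A Tv = lam • endVel e' c := hAT
    rw [h1, (hs.bilin e' hy0).smul_left]
    exact mul_neg_of_pos_of_neg hl (endVel_future hp hc)
  obtain ⟨R0, hR0, hR, hnear⟩ := exists_R0 hs hy0 A hA hT
  exact ⟨⟨e', _, A, R0, hR0, hR, fun z hz => ⟨(hnear z hz).1, (hnear z hz).2.1⟩⟩, hp, rfl⟩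

namespace Ad

variable (D : Ad N')

/-- The point with coordinates z, and the metric. -/
noncomputable def Y (z : R4) : N'.pt := inv D.e (yv D.y0 D.A z)
noncomputable def G : R4 → R4 →L[ℝ] R4 →L[ℝ] ℝ := Gf (comp D.e) D.y0 D.A

/-- The part of the ball in the image of S. -/
def W (ι : N.pt → N'.pt) (S : Set N.pt) : Set R4 := {z | z ∈ ball (0 : R4) D.R ∧ D.Y z ∈ ι '' S}

theorem tg' {z : R4} (hz : z ∈ ball (0 : R4) D.R) : yv D.y0 D.A z ∈ tgt D.e :=
  D.tg z (ball_subset_closedBall hz)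

theorem cont {z : R4} (hz : z ∈ ball (0 : R4) D.R) : ContinuousAt D.Y z :=
  ((N'.toE D.e).continuousAt_symm (D.tg' hz)).comp (yv_continuous _ _).continuousAt

theorem W_open (h : IsOpenEmbedding ι) : IsOpen (D.W ι univ) := by
  rw [isOpen_iff_mem_nhds]
  intro z hz
  refine inter_mem (isOpen_ball.mem_nhds hz.1) (D.cont hz.1 (IsOpen.mem_nhds ?_ hz.2))
  rw [image_univ]
  exact h.isOpen_range

theorem line (hs : IsSpacetime (IsC0W1 2) N') {a v : R4} (hv : v ∈ Co) {I : Set ℝ}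
    (hu : UniqueDiffOn ℝ I) (hI : ∀ τ ∈ I, a + τ • v ∈ ball (0 : R4) D.R) :
    IsFutureCurve N' 0 I fun τ => D.Y (a + τ • v) := by
  have c : ContDiff ℝ ∞ fun τ : ℝ => a + τ • v := by fun_prop
  refine (fut_chart hs (I := {τ | a + τ • v ∈ ball (0 : R4) D.R}) (y' := fun _ => D.A v)
    (isOpen_ball.preimage c.continuous)
    (fun t _ => (((yv_contDiff _ _).comp c).of_le (by simp)).contDiffAt)
    (fun t _ => (yv_hasFDerivAt _ _ _).comp_hasDerivAt t (P354.hasDerivAt_line a v t))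
    fun t ht => ?_).mono hI hu
  obtain ⟨n1, n2⟩ := D.near _ ht
  have m := D.tg' ht
  have B := hs.bilin D.e m
  have k1 := n1.timelike_of_cone (a := v) hv.1
  have k2 := n1.timelike_of_cone (a := Tv) Tv_mem.1
  have p1 := pow_pos hv.2 2
  have p2 := pow_pos Tv_mem.2 2
  have k3 := n1.T_neg (a := v) (by linarith) hv.2
  rw [Gf_apply B] at k1 k2 k3
  exact ⟨m, k1.trans_lt (by linarith), hs.same_cone D.e m (t := D.A Tv) (by linarith) (by linarith)
    (by rwa [hs.symm D.e m]) (hs.timelike _ _ m).le (by rwa [hs.symm D.e m])⟩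

variable [Nonempty N.pt]

theorem pull (h : IsOpenEmbedding ι) (hN : IsSpacetime IsSmooth N)
    (hs : IsSpacetime (IsC0W1 2) N') (hI : IsIsom ι) {a v : R4} (hv : v ∈ Co) {I : Set ℝ}
    (hu : UniqueDiffOn ℝ I) (hW : ∀ τ ∈ I, a + τ • v ∈ D.W ι univ) :
    IsFutureCurve N 0 I fun τ => Function.invFun ι (D.Y (a + τ • v)) :=
  IsFutureCurve.pull_map h hN hs hI hu ((D.line hs hv hu fun τ hτ => (hW τ hτ).1).congr
    fun τ hτ => Function.invFun_eq ((hW τ hτ).2.imp fun _ k => k.2))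

theorem smooth (h : IsOpenEmbedding ι) (hN : IsSpacetime IsSmooth N)
    (hs : IsSpacetime (IsC0W1 2) N') (hI : IsIsom ι) (i j : Fin 4) :
    ContDiffOn ℝ ∞ (comp D.e i j) {y | y ∈ tgt D.e ∧ inv D.e y ∈ range ι} := by
  rintro y ⟨h1, p, h2⟩
  obtain ⟨e, he⟩ := N.cover p
  have m : y ∈ (theta e D.e ι h).target := mem_theta_target.2 ⟨h1, p, he, h2⟩
  exact ((comp_contDiffOn_target hN hs hI _ _).contDiffAt
    ((theta e D.e ι h).open_target.mem_nhds m)).contDiffWithinAt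

theorem G_smooth (h : IsOpenEmbedding ι) (hN : IsSpacetime IsSmooth N)
    (hs : IsSpacetime (IsC0W1 2) N') (hI : IsIsom ι) : ContDiffOn ℝ ∞ D.G (D.W ι univ) :=
  (Gf_contDiffOn (D.smooth h hN hs hI) _ _).mono fun _ hz =>
    ⟨D.tg' hz.1, hz.2.imp fun _ k => k.2⟩

/-- On almost all vertical lines the derivative of the metric is integrable. -/
theorem fubini (h : IsOpenEmbedding ι) (hN : IsSpacetime IsSmooth N)
    (hs : IsSpacetime (IsC0W1 2) N') (hI : IsIsom ι) (x0 : ℝ × ℝ × ℝ) {ρ : ℝ} (hρ : 0 < ρ) :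
    ∃ x ∈ ball x0 ρ, Integrable fun τ : ℝ =>
      (D.W ι univ).indicator (fun z => ‖fderiv ℝ D.G z‖) (τ, x) := by
  have h2 : Measure.IsAddHaarMeasure (volume : Measure (ℝ × ℝ)) := inferInstance
  have h3 : Measure.IsAddHaarMeasure (volume : Measure (ℝ × ℝ × ℝ)) :=
    Measure.prod.instIsAddHaarMeasure (volume : Measure ℝ) (volume : Measure (ℝ × ℝ))
  have h4 := volume_haar
  have o : IsOpen {y | y ∈ tgt D.e ∧ inv D.e y ∈ range ι} :=
    (N'.toE D.e).continuousOn_symm.isOpen_inter_preimage (N'.toE D.e).open_target h.isOpen_range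
  have k := (Gf_energy le_rfl (K := yv D.y0 D.A '' closedBall 0 D.R) o (fun _ k => k.1)
    (fun i j => hs.regular D.e _ _) (D.smooth h hN hs hI)
    ((isCompact_closedBall _ _).image (yv_continuous _ _))
    (by rintro _ ⟨z, hz, rfl⟩; exact D.tg z hz) D.y0 D.A).mono_measure
    (Measure.restrict_mono (s := D.W ι univ) (fun z hz => And.intro
      ⟨z, ball_subset_closedBall hz.1, rfl⟩ ⟨D.tg' hz.1, hz.2.imp fun _ k => k.2⟩) le_rfl)
  have f : IsFiniteMeasure ((volume : Measure R4).restrict (D.W ι univ)) := ⟨by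
    rw [Measure.restrict_apply_univ]
    exact (measure_mono fun z hz => hz.1).trans_lt measure_ball_lt_top⟩
  have k2 : Integrable ((D.W ι univ).indicator fun z => ‖fderiv ℝ D.G z‖)
      ((volume : Measure ℝ).prod volume) :=
    (integrable_indicator_iff (D.W_open h).measurableSet).2
      (k.integrable (by norm_num)).norm
  exact Measure.exists_mem_of_measure_ne_zero_of_ae (measure_ball_pos volume x0 hρ).ne'
    (ae_restrict_of_ae k2.prod_left_ae)

/-- The vertical line in a chart of N. -/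
theorem chart (h : IsOpenEmbedding ι) (hN : IsSpacetime IsSmooth N)
    (hs : IsSpacetime (IsC0W1 2) N') (hI : IsIsom ι) {b : R4} {s : ℝ}
    (hW : b + s • Tv ∈ D.W ι univ) {e : N.Chart} {a : ℝ → N.pt}
    (ha : a = fun t => Function.invFun ι (D.Y (b + t • Tv))) (he : On e (a s)) {z : ℝ → R4}
    {y w : R4} (hz : z = fun t => co e (a t)) (hy : y = z s) (hw : w = _root_.deriv z s) :
    ContDiffAt ℝ ∞ z s ∧ 1 / 2 ≤ -N.g e y w w ∧ -N.g e y w w ≤ 2 ∧
      ∀ v, |low (N.g e) y w (_root_.deriv (_root_.deriv z) s) v| ≤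
        2 * ‖fderiv ℝ D.G (b + s • Tv)‖ * √(N.g e y v v + 2 * N.g e y v w ^ 2) := by
  have c : ContDiff ℝ ∞ fun t : ℝ => b + t • (Tv : R4) := by fun_prop
  have ev : ∀ᶠ t in 𝓝 s, b + t • Tv ∈ D.W ι univ :=
    c.continuous.continuousAt.eventually_mem ((D.W_open h).mem_nhds hW)
  have ia : ∀ t, b + t • Tv ∈ D.W ι univ → ι (a t) = D.Y (b + t • Tv) := fun t ht => by
    rw [ha]; exact Function.invFun_eq (ht.2.imp fun _ k => k.2)
  have ca : ContinuousAt a s := h.isInducing.continuousAt_iff.2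
    ((ContinuousAt.comp (f := fun t : ℝ => b + t • (Tv : R4)) (D.cont hW.1)
      c.continuous.continuousAt).congr (ev.mono fun t ht => (ia t ht).symm))
  set θ := theta e D.e ι h with hθ
  have ev2 : ∀ᶠ t in 𝓝 s, yv D.y0 D.A (b + t • Tv) ∈ θ.target ∧
      z t = θ.symm (yv D.y0 D.A (b + t • Tv)) := by
    filter_upwards [ev, ca.eventually_mem ((N.toE e).open_source.mem_nhds he)] with t h1 h2
    exact ⟨mem_theta_target.2 ⟨D.tg' h1.1, _, h2, ia t h1⟩,
      by rw [hz]; exact (theta_symm_apply h2 (D.tg' h1.1) (ia t h1)).symm⟩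
  obtain ⟨m1, m2⟩ := ev2.self_of_nhds
  have sz : ContDiffAt ℝ ∞ z s :=
    (((theta_symm_contDiffOn hN hs hI).contDiffAt (θ.open_target.mem_nhds m1)).comp s
      ((yv_contDiff _ _).comp c).contDiffAt).congr_of_eventuallyEq (ev2.mono fun _ k => k.2)
  have my : y ∈ θ.source := by rw [hy, m2]; exact θ.map_target m1
  set Θ : R4 → R4 := fun x => D.A.symm (θ x - D.y0) with hΘ
  have yΘ : ∀ x, yv D.y0 D.A (Θ x) = θ x := fun x => by simp [yv, hΘ]
  have hl : ∀ᶠ t in 𝓝 s, Θ (z t) = b + t • Tv := ev2.mono fun t k => by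
    simp only [hΘ]
    rw [k.2, θ.right_inv k.1]
    simp [yv]
  have e0 : Θ y = b + s • Tv := by rw [hy]; exact hl.self_of_nhds
  have hg : ∀ x ∈ θ.source, ∀ a b, N.g e x a b =
      D.G (Θ x) (fderiv ℝ Θ x a) (fderiv ℝ Θ x b) := fun x hx a b => by
    have k := (D.A.symm.hasFDerivAt.comp x ((theta_hasFDerivAt hI hx).sub_const D.y0)).fderiv
    have m : yv D.y0 D.A (Θ x) ∈ tgt D.e := by
      rw [yΘ]; exact (mem_theta_target.1 (θ.map_source hx)).1
    rw [theta_pull hI hx, G, Gf_apply (hs.bilin D.e m), yΘ, show fderiv ℝ Θ x = _ from k]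
    simp [hθ]
  have sΘ : ContDiffAt ℝ 2 Θ y := D.A.symm.contDiff.contDiffAt.comp y
    ((((theta_contDiffOn hI).contDiffAt (θ.open_source.mem_nhds my)).of_le
      two_le).sub contDiffAt_const)
  obtain ⟨k1, k2⟩ := low_pull (g := N.g e) (G := D.G) hy sΘ
    (by rw [e0]
        exact ((D.G_smooth h hN hs hI).contDiffAt ((D.W_open h).mem_nhds hW)).differentiableAt
          (by simp))
    (fun a b => by
      have m := D.tg' hW.1
      rw [e0, G, Gf_apply (hs.bilin D.e m), Gf_apply (hs.bilin D.e m), hs.symm D.e m])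
    (eventually_of_mem (θ.open_source.mem_nhds my) hg) (sz.of_le two_le) hl
  have n : NearM (D.G (b + s • Tv)) := (D.near _ hW.1).1
  have n1 := abs_le.1 (n Tv Tv)
  rw [norm_Tv, show P354.mink Tv Tv = -1 by simp [P354.mink, Tv]] at n1
  subst hw
  refine ⟨sz, ?_, ?_, fun v => ?_⟩
  · rw [hg y my, k1, e0]; linarith [n1.2]
  · rw [hg y my, k1, e0]; linarith [n1.1]
  · rw [k2, hg y my, hg y my, k1, e0]
    exact low_le n _

end Ad

end Vale.Agent.P354XA
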