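import Vale.Agent.P354XA.Main

/-!
Piece ACC: derivatives along the curve of products with vector fields and of functions.
-/

set_option maxSynthPendingDepth 3

open scoped ContDiff
open Set Filter Topology

namespace Vale.Agent.P354XA

open Vale.Agent.P354n

variable {g : R4 → R4 → R4 → ℝ} {G : R4 → R4 →L[ℝ] R4 →L[ℝ] ℝ} {z : ℝ → R4} {s : ℝ} {y : R4}

theorem line_eq (hG : DifferentiableAt ℝ G y) (hg : ∀ᶠ x in 𝓝 y, ∀ a b, g x a b = G x a b)
    (a b c : R4) : lineDeriv ℝ (fun x => g x a b) y c = fderiv ℝ G y c a b := by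
  have k := ((hG.hasFDerivAt.clm_apply (hasFDerivAt_const a y)).clm_apply
    (hasFDerivAt_const b y)).congr_of_eventuallyEq (f₁ := fun x => g x a b)
    (hg.mono fun x hx => hx a b)
  rw [k.differentiableAt.lineDeriv_eq_fderiv, k.fderiv]
  simp

/-- The derivative of g(X,z') along a curve z: half the Lie derivative of g on (z',z') plus the
product of X with the acceleration. -/
theorem field_deriv (hG : DifferentiableAt ℝ G (z s))
    (hg : ∀ᶠ x in 𝓝 (z s), ∀ a b, g x a b = G x a b) (hz : ContDiffAt ℝ 2 z s) {X : R4 → R4}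
    (hX : DifferentiableAt ℝ X (z s)) :
    HasDerivAt (fun t => g (z t) (X (z t)) (deriv z t))
      (lineDeriv ℝ (fun x => g x (deriv z s) (deriv z s)) (z s) (X (z s)) / 2 +
        g (z s) (fderiv ℝ X (z s) (deriv z s)) (deriv z s) +
        low g (z s) (deriv z s) (deriv (deriv z) s) (X (z s))) s := by
  have z1 := (hz.differentiableAt (by simp)).hasDerivAt
  have z2 : HasDerivAt (deriv z) (deriv (deriv z) s) s :=
    ((hz.derivWithin (m := 1) (by norm_num)).differentiableAt one_ne_zero).hasDerivAt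
  refine ((((hG.hasFDerivAt.comp_hasDerivAt s z1).clm_apply
    (hX.hasFDerivAt.comp_hasDerivAt s z1)).clm_apply z2).congr_of_eventuallyEq
    ((hz.continuousAt.eventually hg).mono fun t ht => ht _ _)).congr_deriv ?_
  unfold low
  rw [line_eq hG hg, line_eq hG hg, hg.self_of_nhds, hg.self_of_nhds]
  simp
  ring

/-- The second derivative of a function f along a curve; v is the gradient of f. -/
theorem fn_deriv (hz : ContDiffAt ℝ 2 z s) {f : R4 → ℝ} (hf : ContDiffAt ℝ 2 f (z s)) {v : R4}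
    (hv : ∀ u, fderiv ℝ f (z s) u = g (z s) v u) :
    HasDerivAt (fun t => fderiv ℝ f (z t) (deriv z t))
      (fderiv ℝ (fderiv ℝ f) (z s) (deriv z s) (deriv z s) -
        (lineDeriv ℝ (fun x => g x v (deriv z s)) (z s) (deriv z s) -
          lineDeriv ℝ (fun x => g x (deriv z s) (deriv z s)) (z s) v / 2) +
        low g (z s) (deriv z s) (deriv (deriv z) s) v) s := by
  have z1 := (hz.differentiableAt (by simp)).hasDerivAt
  have z2 : HasDerivAt (deriv z) (deriv (deriv z) s) s :=
    ((hz.derivWithin (m := 1) (by norm_num)).differentiableAt one_ne_zero).hasDerivAt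
  have d2 : HasFDerivAt (fderiv ℝ f) (fderiv ℝ (fderiv ℝ f) (z s)) (z s) :=
    ((hf.fderiv_right (m := 1) (by norm_num)).differentiableAt one_ne_zero).hasFDerivAt
  refine ((d2.comp_hasDerivAt s z1).clm_apply z2).congr_deriv ?_
  unfold low
  rw [← hv]
  simp only [Function.comp]
  ring

variable {N : Spc} {e : N.Chart}

/-- The metric in a chart as a smooth family of continuous bilinear forms. -/
theorem exists_G (hN : IsSpacetime IsSmooth N) (e : N.Chart) :
    ∃ G : R4 → R4 →L[ℝ] R4 →L[ℝ] ℝ, ContDiffOn ℝ ∞ G (tgt e) ∧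
      ∀ x ∈ tgt e, ∀ a b, N.g e x a b = G x a b := by
  have e0 : ∀ x, P354p.yv 0 (ContinuousLinearEquiv.refl ℝ R4) x = x := fun x => by simp [P354p.yv]
  refine ⟨P354p.Gf (P354p.comp (N := Up N) e) 0 (ContinuousLinearEquiv.refl ℝ R4),
    (P354p.Gf_contDiffOn (D := tgt e) (fun i j => hN.regular e _ _) _ _).mono fun x hx => ?_,
    fun x hx a b => ?_⟩
  · rwa [mem_preimage, e0]
  · rw [P354p.Gf_apply (N := Up N) (hN.up.bilin (M := Up N) e (by rwa [e0])), e0]
    rfl

/-- With a connection, low is the product with the covariant acceleration. -/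
theorem low_conn (hN : IsSpacetime IsSmooth N) (hy : y ∈ tgt e) {Γ : R4 → R4 → R4 → R4}
    (hΓ : IsConn (N.g e) Γ y) (w u v : R4) : low (N.g e) y w u v = N.g e y v (u + Γ y w w) := by
  have k := hΓ w w v
  have sy : (fun x => N.g e x w v) =ᶠ[𝓝 y] fun x => N.g e x v w :=
    eventually_of_mem ((N.toE e).open_target.mem_nhds hy) fun x hx =>
      hN.up.symm (M := Up N) e hx w v
  unfold P354n.deriv at k
  rw [sy.lineDeriv_eq] at k
  have b : N.g e y v (u + Γ y w w) = N.g e y v u + N.g e y v (Γ y w w) :=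
    (hN.up.bilin (M := Up N) e hy).add_right _ _ _
  have b2 : N.g e y v (Γ y w w) = N.g e y (Γ y w w) v := hN.up.symm (M := Up N) e hy _ _
  unfold low
  linarith

variable {P : Set N.pt} {L : ℝ} {a : ℝ → N.pt} {A I : ℝ → ℝ}

/-- The derivative of g(X,w) along the curve. -/
theorem Acc.field (hN : IsSpacetime IsSmooth N) (h : Acc N P L a A I) (hs : s ∈ Ioo 0 L)
    (he : On e (a s)) (hz : z = fun t => co e (a t)) {w : R4} (hy : y = z s) (hw : w = deriv z s)
    {X : R4 → R4} (hX : DifferentiableAt ℝ X y) :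
    ∃ E, |E| ≤ A s * √(N.g e y (X y) (X y) + 2 * N.g e y (X y) w ^ 2) ∧
      HasDerivAt (fun t => N.g e (z t) (X (z t)) (deriv z t))
        (lineDeriv ℝ (fun x => N.g e x w w) y (X y) / 2 + N.g e y (fderiv ℝ X y w) w + E) s := by
  obtain ⟨k1, -, -, k2⟩ := h.chart s hs e he z y w hz hy hw
  obtain ⟨G, h1, h2⟩ := exists_G hN e
  have m : tgt e ∈ 𝓝 y := (N.toE e).open_target.mem_nhds (by
    rw [hy, hz]; exact (N.toE e).map_source he)
  subst hy hw
  exact ⟨_, k2 _, field_deriv ((h1.contDiffAt m).differentiableAt (by simp))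
    (eventually_of_mem m h2) (k1.of_le two_le) hX⟩

/-- The second derivative of a function f along the curve; v is its gradient. -/
theorem Acc.fn (h : Acc N P L a A I) (hs : s ∈ Ioo 0 L)
    (he : On e (a s)) (hz : z = fun t => co e (a t)) {w : R4} (hy : y = z s) (hw : w = deriv z s)
    {f : R4 → ℝ} (hf : ContDiffAt ℝ 2 f y) {v : R4} (hv : ∀ u, fderiv ℝ f y u = N.g e y v u) :
    ∃ E, |E| ≤ A s * √(N.g e y v v + 2 * N.g e y v w ^ 2) ∧
      HasDerivAt (fun t => fderiv ℝ f (z t) (deriv z t))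
        (fderiv ℝ (fderiv ℝ f) y w w - (lineDeriv ℝ (fun x => N.g e x v w) y w -
          lineDeriv ℝ (fun x => N.g e x w w) y v / 2) + E) s := by
  obtain ⟨k1, -, -, k2⟩ := h.chart s hs e he z y w hz hy hw
  subst hy hw
  exact ⟨_, k2 _, fn_deriv (k1.of_le two_le) hf hv⟩

end Vale.Agent.P354XA
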