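import Vale.Agent.P354XA.Seg
import Vale.Agent.P354XA.Defs

/-!
Piece ACC: the acceleration of a coordinate line, seen in another chart.
-/

set_option maxSynthPendingDepth 3

open scoped ContDiff
open Set Filter Topology Metric

namespace Vale.Agent.P354XA

open Vale.Agent.P354p (R4)
open Vale.Agent.P354 (NearM Tv cone norm_Tv)

variable {g : R4 → R4 → R4 → ℝ} {G : R4 → R4 →L[ℝ] R4 →L[ℝ] ℝ} {Θ : R4 → R4} {y : R4}

theorem line_pull (hΘ : ContDiffAt ℝ 2 Θ y) (hG : DifferentiableAt ℝ G (Θ y))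
    (hg : ∀ᶠ x in 𝓝 y, ∀ a b, g x a b = G (Θ x) (fderiv ℝ Θ x a) (fderiv ℝ Θ x b)) (a b c : R4) :
    lineDeriv ℝ (fun x => g x a b) y c =
      fderiv ℝ G (Θ y) (fderiv ℝ Θ y c) (fderiv ℝ Θ y a) (fderiv ℝ Θ y b) +
        G (Θ y) (fderiv ℝ (fderiv ℝ Θ) y c a) (fderiv ℝ Θ y b) +
        G (Θ y) (fderiv ℝ Θ y a) (fderiv ℝ (fderiv ℝ Θ) y c b) := by
  have d1 := (hΘ.differentiableAt (by simp)).hasFDerivAt
  have d2 : HasFDerivAt (fderiv ℝ Θ) (fderiv ℝ (fderiv ℝ Θ) y) y :=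
    ((hΘ.fderiv_right (m := 1) (by norm_num)).differentiableAt one_ne_zero).hasFDerivAt
  have k := (((hG.hasFDerivAt.comp y d1).clm_apply
    (d2.clm_apply (hasFDerivAt_const a y))).clm_apply
    (d2.clm_apply (hasFDerivAt_const b y))).congr_of_eventuallyEq
    (f₁ := fun x => g x a b) (hg.mono fun x hx => hx a b)
  rw [k.differentiableAt.lineDeriv_eq_fderiv, k.fderiv]
  simp
  ring

theorem low_pull {z : ℝ → R4} {s : ℝ} {p T : R4} (hy : y = z s) (hΘ : ContDiffAt ℝ 2 Θ y)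
    (hG : DifferentiableAt ℝ G (Θ y)) (hs : ∀ a b, G (Θ y) a b = G (Θ y) b a)
    (hg : ∀ᶠ x in 𝓝 y, ∀ a b, g x a b = G (Θ x) (fderiv ℝ Θ x a) (fderiv ℝ Θ x b))
    (hz : ContDiffAt ℝ 2 z s) (hl : ∀ᶠ t in 𝓝 s, Θ (z t) = p + t • T) :
    fderiv ℝ Θ y (deriv z s) = T ∧ ∀ v, low g y (deriv z s) (deriv (deriv z) s) v =
      fderiv ℝ G (Θ y) T (fderiv ℝ Θ y v) T - fderiv ℝ G (Θ y) (fderiv ℝ Θ y v) T T / 2 := by
  subst hy
  have e1 : ∀ᶠ t in 𝓝 s, fderiv ℝ Θ (z t) (deriv z t) = T := by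
    filter_upwards [hl.eventually_nhds, hz.eventually (by simp),
      hz.continuousAt.eventually (hΘ.eventually (by simp))] with t h1 h2 h3
    have k := (h3.differentiableAt (by simp)).hasFDerivAt.comp_hasDerivAt t
      (h2.differentiableAt (by simp)).hasDerivAt
    exact k.unique ((P354.hasDerivAt_line p T t).congr_of_eventuallyEq h1)
  have e0 := e1.self_of_nhds
  have d2 : HasFDerivAt (fderiv ℝ Θ) (fderiv ℝ (fderiv ℝ Θ) (z s)) (z s) :=
    ((hΘ.fderiv_right (m := 1) (by norm_num)).differentiableAt one_ne_zero).hasFDerivAt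
  have z1 := (hz.differentiableAt (by simp)).hasDerivAt
  have z2 : HasDerivAt (deriv z) (deriv (deriv z) s) s :=
    ((hz.derivWithin (m := 1) (by norm_num)).differentiableAt one_ne_zero).hasDerivAt
  have e2 := ((d2.comp_hasDerivAt s z1).clm_apply z2).unique
    ((hasDerivAt_const s T).congr_of_eventuallyEq e1)
  have sy := hΘ.isSymmSndFDerivAt (by simp)
  refine ⟨e0, fun v => ?_⟩
  have e3 : fderiv ℝ Θ (z s) (deriv (deriv z) s) =
      -fderiv ℝ (fderiv ℝ Θ) (z s) (deriv z s) (deriv z s) := by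
    rw [eq_neg_iff_add_eq_zero, add_comm]; exact e2
  unfold low
  rw [line_pull hΘ hG hg, line_pull hΘ hG hg, hg.self_of_nhds, e0, e3, map_neg, sy (deriv z s) v,
    hs T]
  ring

theorem low_le {D : R4 →L[ℝ] R4 →L[ℝ] R4 →L[ℝ] ℝ} {B : R4 →L[ℝ] R4 →L[ℝ] ℝ} (h : NearM B)
    (a : R4) : |D Tv a Tv - D a Tv Tv / 2| ≤ 2 * ‖D‖ * √(B a a + 2 * B a Tv ^ 2) := by
  have k : ∀ u v w : R4, |D u v w| ≤ ‖D‖ * ‖u‖ * ‖v‖ * ‖w‖ := fun u v w =>
    ((D u).le_opNorm₂ v w).trans (by gcongr; exact D.le_opNorm u)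
  have k1 := k Tv a Tv
  have k2 := k a Tv Tv
  rw [norm_Tv] at k1 k2
  have k3 := mul_le_mul_of_nonneg_left (norm_le_sqrt h a) (norm_nonneg D)
  rw [abs_le] at k1 k2 ⊢
  constructor <;> linarith [k1.1, k1.2, k2.1, k2.2]

end Vale.Agent.P354XA
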