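import Vale.Agent.P354XA.Rint
import Vale.Agent.P354CQ.Glu

/-!
The chart along the rays is close to the near chart.
-/

set_option maxSynthPendingDepth 3

open scoped ContDiff
open Set Filter Topology

noncomputable section

namespace Vale.Agent.P354XA

open Vale.Agent.P354n (R4)
open Vale.Agent.P354XG (E6)
open Vale.Agent.P354XD (pj nq nq_pos cd_pj)
open Vale.Agent.P354XE (rd)
open Vale.Agent.P354XR (rd_pj)
open Vale.Agent.P354XO (rr sc sc_ap sc_sc sc_inv inv_sc pj_sc lift lift_pj dnf dn4 Cn nz nz_ne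
  norm_unit)
open Vale.Agent.P354YI
open Vale.Agent.P354YO (pr0)
open Vale.Agent.P354CQ (glu anc far chi er)
open Vale.Agent.P354TS (rd_near rr_rd gl gl_cd gl_pj gl_id gl_pr ex_pj oj_nid)
open Vale.Agent.P354EF (Sr)
open Vale.Agent.P354MG

variable {x : E6} {p y : R4} {v : ℂ × ℂ} {s R ρ : ℝ} {n : ℕ}

theorem pj_anc (h : 0 < x.2.1) (h' : x.2.2 ≠ 0) : pj (anc s x) = ray s (pj x) := by
  rw [ray, rd_pj h h']
  simp only [pj, anc, nq, Prod.smul_mk, smul_eq_mul, ← mul_assoc, div_mul_cancel₀ _ h.ne']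

theorem pj_gl (h : 0 < rd p) (h' : (gl (v, p)).2.2 ≠ 0) : pj (gl (v, p)) = p := by
  obtain ⟨y, y1, y2, rfl⟩ := ex_pj (h.trans_eq (rr_rd p).symm)
  rw [gl_pj y1 y2] at h' ⊢
  exact pj_sc (fun z => h' (by rw [z, sc_ap, zero_smul])) _

theorem gl_sc (z : ℂ) : gl (z • v, p) = sc z (gl (v, p)) := by
  simp only [gl, sc_ap, Prod.smul_fst, Prod.smul_snd, smul_eq_mul, mul_smul, ← smul_add]
  rw [smul_comm z]

theorem gl_ray {l : ℝ} (h : 0 < rd p) (h' : 0 < rd p + l) :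
    gl (v, p) + l • er = gl (v, p + l • er4 p) := by
  rw [← ray_add h]
  obtain ⟨y, y1, y2, rfl⟩ := ex_pj (h.trans_eq (rr_rd p).symm)
  rw [← pj_anc y1 y2, gl_pj y1 y2, gl_pj (x := anc _ y) h' y2, rd_pj y1 y2]
  simp [sc_ap, anc, er, nq]

theorem lift_ok (h : 0 < rd y) : 0 < (lift y).2.1 ∧ (lift y).2.2 ≠ 0 ∧ pj (lift y) = y := by
  obtain ⟨u, u1, u2, rfl⟩ := ex_pj (h.trans_eq (rr_rd y).symm)
  obtain ⟨z, hz, e⟩ := lift_pj u1 u2
  rw [e]
  exact ⟨u1, smul_ne_zero hz u2, pj_sc hz u⟩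

/-- The factor of the affine parameter on the base. -/
theorem al_cone {α : E6 → ℝ} (h : 0 < R) (x1 : 0 < x.2.1) (x2 : x.2.2 ≠ 0)
    (ind : ∀ y, α (anc R y) = α y)
    (hα : ∀ᶠ y in 𝓝 (anc R x), ∀ z ≠ 0, ContDiffAt ℝ ∞ α (sc z y) ∧ α (sc z y) = α y) :
    ContDiffAt ℝ ∞ (dnf α) (ray R (pj x)) ∧ ∀ᶠ y in 𝓝 (pj x), dnf α y = dnf α (ray R y) := by
  let O := {y : E6 | ∀ᶠ u in 𝓝 y, ∀ z ≠ 0, ContDiffAt ℝ ∞ α (sc z u) ∧ α (sc z u) = α u} ∩
    {y | 0 < y.2.1 ∧ y.2.2 ≠ 0}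
  have c : Cn O := ⟨isOpen_setOfPred_eventually_nhds.inter ((isOpen_lt continuous_const
    continuous_snd.fst).inter (isOpen_ne.preimage continuous_snd.snd)), fun _ k => k.2,
    fun y k w hw => ⟨(((sc w⁻¹).continuous.tendsto' _ _ (inv_sc hw y)).eventually k.1).mono
      fun u hu z hz => by
        have a := hu _ (mul_ne_zero hz hw)
        have b := (hu _ hw).2
        rw [← sc_sc, sc_inv hw] at a
        rw [sc_inv hw] at b
        exact ⟨a.1, a.2.trans b.symm⟩, k.2.1, smul_ne_zero hw k.2.2⟩⟩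
  have i : ∀ y ∈ O, ∀ z ≠ 0, α (sc z y) = α y := fun y k z hz => (k.1.self_of_nhds z hz).2
  have m : anc R x ∈ O := ⟨hα, h, x2⟩
  have q0 : 0 < rd (pj x) := x1.trans_eq (rd_pj x1 x2).symm
  refine ⟨pj_anc x1 x2 ▸ c.dnf_sm i (fun y k => by
    simpa [sc_ap] using (k.1.self_of_nhds 1 one_ne_zero).1) m, ?_⟩
  filter_upwards [ev_rd q0, (ray_cd' (s := R) q0).continuousAt.eventually
    (c.shadow.mem_nhds ⟨_, m, pj_anc x1 x2⟩)] with y y0 k
  obtain ⟨l1, l2, l3⟩ := lift_ok y0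
  rw [← l3, ← pj_anc l1 l2] at k
  rw [← congrArg (ray R) l3, ← pj_anc l1 l2, c.dnf_pj i (c.mem_of (x := anc R _) h l2 k), ind]
  rfl

/-- The interpolation of two lifts. -/
def mx (c : ℝ) (v : ℂ × ℂ) (p d : R4) : E6 := gl (v, p) + c • (gl (v, p + d) - gl (v, p))
def cf (R : ℝ) (y : R4) : ℝ := Real.smoothTransition (4 * (rd y - R))
def af (R : ℝ) (φ : R4 → R4) (β : R4 → ℝ) (y : R4) : R4 :=
  φ (ray R y) + (β (ray R y) * (rd y - R)) • er4 (φ (ray R y))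

theorem glu_eq {φ : R4 → R4} {α : E6 → ℝ} (y0 : 0 < rd y) (h : (gl (v, y)).2.2 ≠ 0)
    (e : dnf α y = dnf α (ray R y)) (h1 : 0 < rd (φ (ray R y)))
    (h2 : 0 < rd (φ (ray R y)) + dnf α (ray R y) * (rd y - R)) : dn4 (glu R (lft φ) α) y =
      pj (mx (cf R y) (gl (v, y)).2.2 (φ y) (af R φ (dnf α) y - φ y)) := by
  obtain ⟨l1, l2, l3⟩ := lift_ok y0
  obtain ⟨z, hz, k⟩ := lift_pj (x := gl (v, y)) (y0.trans_eq (rr_rd y).symm) h
  have r : (lift y).2.1 = rd y := by rw [← rd_pj l1 l2, l3]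
  rw [pj_gl y0 h] at k
  show pj (gl ((lift y).2.2, φ (pj (lift y))) + Real.smoothTransition (4 * ((lift y).2.1 - R)) •
    (gl ((lift y).2.2, φ (pj (anc R (lift y)))) + (dnf α y * ((lift y).2.1 - R)) • er -
      gl ((lift y).2.2, φ (pj (lift y))))) = _
  rw [pj_anc l1 l2, l3, r, e, gl_ray h1 h2, show (lift y).2.2 = z • (gl (v, y)).2.2 by rw [k]; rfl,
    gl_sc, gl_sc, ← map_sub, ← map_smul, ← map_add, pj_sc hz, mx, add_sub_cancel]
  rfl

theorem mx_tr (c t : ℝ) (d : R4) : pj (mx c v (p + (t, 0)) d) = pj (mx c v p d) + (t, 0) := by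
  have e : ∀ p : R4, gl (v, p + (t, 0)) = gl (v, p) + (t, 0) := fun p => by
    rw [gl_pr, gl_pr v p, add_assoc]
    simp [pr0]
  rw [mx, mx, add_right_comm p, e, e, add_sub_add_right_eq_sub, add_right_comm]
  simp [pj, nq]

/-- The interpolation as a function of the deviations and of the point. -/
def hh (R : ℝ) (w : (R4 × R4) × (ℂ × ℂ) × R4) : E6 :=
  mx (cf R w.2.2) (gl w.2).2.2 (w.2.2 + w.1.1) w.1.2
def Gd (R : ℝ) (w : (R4 × R4) × (ℂ × ℂ) × R4) : Prop :=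
  0 < rd w.2.2 ∧ 0 < rd (w.2.2 + w.1.1) ∧ 0 < rd (w.2.2 + w.1.1 + w.1.2) ∧ (gl w.2).2.2 ≠ 0 ∧
    (hh R w).2.2 ≠ 0
def Kq (R ρ : ℝ) : Set ((ℂ × ℂ) × R4) :=
  (fun x : E6 => (x.2.2, pj x)) '' {0} ×ˢ Icc R ρ ×ˢ Metric.sphere 0 1

theorem Gd.cd {w : (R4 × R4) × (ℂ × ℂ) × R4} (h : Gd R w) : ContDiffAt ℝ ∞ (hh R) w ∧
    ContDiffAt ℝ ∞ (fun w : (R4 × R4) × (ℂ × ℂ) × R4 => (gl w.2).2.2) w := by
  have k : ∀ {f : (R4 × R4) × (ℂ × ℂ) × R4 → (ℂ × ℂ) × R4}, ContDiffAt ℝ ∞ f w → 0 < rd (f w).2 →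
      ContDiffAt ℝ ∞ (fun u => gl (f u)) w := fun a b =>
    at_comp (gl_cd (by rw [rr_rd]; exact b.ne')) a
  have a := (k contDiffAt_snd h.1).snd.snd
  have b : ContDiffAt ℝ ∞ (fun w : (R4 × R4) × (ℂ × ℂ) × R4 => w.2.2 + w.1.1) w := by fun_prop
  have c := k (a.prodMk b) h.2.1
  have d := k (a.prodMk (b.add contDiffAt_fst.snd)) h.2.2.1
  have r : ContDiffAt ℝ ∞ (fun w : (R4 × R4) × (ℂ × ℂ) × R4 => rd w.2.2) w :=
    at_comp (f := fun w : (R4 × R4) × (ℂ × ℂ) × R4 => w.2.2) (rd_cd h.1.ne') contDiffAt_snd.snd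
  have e : ContDiffAt ℝ ∞ (fun w : (R4 × R4) × (ℂ × ℂ) × R4 => cf R w.2.2) w :=
    at_comp (G := Real.smoothTransition) Real.smoothTransition.contDiffAt
      (contDiffAt_const.mul (r.sub contDiffAt_const))
  exact ⟨c.add (e.smul (d.sub c)), a⟩

theorem Gd.ev {w : (R4 × R4) × (ℂ × ℂ) × R4} (h : Gd R w) : ∀ᶠ u in 𝓝 w, Gd R u := by
  have k : ∀ {f : (R4 × R4) × (ℂ × ℂ) × R4 → R4}, Continuous f → 0 < rd (f w) →
      ∀ᶠ u in 𝓝 w, 0 < rd (f u) := fun a b => a.continuousAt.eventually (ev_rd b)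
  filter_upwards [k (f := fun u => u.2.2) (by fun_prop) h.1,
    k (f := fun u => u.2.2 + u.1.1) (by fun_prop) h.2.1,
    k (f := fun u => u.2.2 + u.1.1 + u.1.2) (by fun_prop) h.2.2.1,
    h.cd.2.continuousAt.eventually_ne h.2.2.2.1,
    h.cd.1.continuousAt.snd.snd.eventually_ne h.2.2.2.2] with u a b c d e using ⟨a, b, c, d, e⟩

theorem kq_cpt (R ρ : ℝ) : IsCompact (Kq R ρ) :=
  (isCompact_singleton.prod (isCompact_Icc.prod (isCompact_sphere _ _))).image_of_continuousOn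
    fun _ k => (continuous_snd.snd.continuousAt.prodMk (cd_pj (norm_ne_zero_iff.1
      ((mem_sphere_zero_iff_norm.1 k.2.2).trans_ne one_ne_zero))).continuousAt).continuousWithinAt

theorem ex_gd (h : 0 < R) (ρ : ℝ) :
    ∃ δ > 0, ∀ w ∈ Metric.closedBall (0 : R4 × R4) δ ×ˢ Kq R ρ, Gd R w := by
  obtain ⟨δ, d0, k⟩ := Metric.nhds_basis_closedBall.eventually_iff.1
    ((kq_cpt R ρ).eventually_forall_of_forall_eventually (x₀ := (0 : R4 × R4))
      (P := fun a z => Gd R (a, z)) (by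
        rintro _ ⟨x, hx, rfl⟩
        have x1 := h.trans_le hx.2.1.1
        have x2 := norm_ne_zero_iff.1 ((mem_sphere_zero_iff_norm.1 hx.2.2).trans_ne one_ne_zero)
        refine Gd.ev ?_
        simpa [Gd, hh, mx, gl_id x1 x2, rd_pj x1 x2, x1] using x2))
  exact ⟨δ, d0, fun w hw => k hw.1 _ hw.2⟩

theorem oj_lip1 {J E V W : Type} [NormedAddCommGroup E] [NormedSpace ℝ E] [NormedAddCommGroup V]
    [NormedSpace ℝ V] [NormedAddCommGroup W] [NormedSpace ℝ W] {x : J → E} {f f' : J → E → V}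
    {μ : J → ℝ} {S : J → Set V} {G : J → V → W} (hf : Oj n x f 1) (hf' : Oj n x f' 1)
    (hS : ∀ j, segment ℝ (f j (x j)) (f' j (x j)) ⊆ S j)
    (d : Oj n x (fun j y => f j y - f' j y) μ) (hG : Os (n + 1) S G 1) :
    Oj n x (fun j y => G j (f j y) - G j (f' j y)) μ := by
  cases n with
  | succ m => simpa only [one_mul] using Oj.lip hf.sm hf'.sm hS (m + 1) hf.fd hf'.fd d hG
  | zero =>
    have := Oj.lip (x := x) (f := fun j _ => f j (x j)) (f' := fun j _ => f' j (x j))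
      (fun _ => contDiffAt_const) (fun _ => contDiffAt_const) hS 0 (od_const _).d (od_const _).d
      (Oj.const d.nn (d.val.imp fun _ h => h.2)) hG
    rw [one_mul] at this
    exact .zero (fun j => (at_comp (f := f j) (hG.sm ⟨(j, _), hS j (left_mem_segment ℝ _ _)⟩)
      (hf.sm j)).sub (at_comp (f := f' j) (hG.sm ⟨(j, _), hS j (right_mem_segment ℝ _ _)⟩)
        (hf'.sm j))) d.nn
      (this.val.imp fun _ h => h.2)

theorem oj_mx {J : Type} {q : J → R4} {v : J → ℂ × ℂ} {φ d : J → R4 → R4} {μ : J → ℝ} {δ e : ℝ}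
    (h : 0 < R) (G : ∀ w ∈ Metric.closedBall (0 : R4 × R4) δ ×ˢ Kq R ρ, Gd R w) (e1 : e ≤ δ)
    (hq : ∀ j, R ≤ rd (q j) ∧ rd (q j) ≤ ρ) (hv : ∀ j, (v j, pr0 (q j)) ∈ Kq R ρ)
    (N : ∀ j, Nid n (φ j) (q j) e) (D : Oj n q d μ) (b : ∀ j, ‖d j (q j)‖ ≤ δ) (m : ∀ j, μ j ≤ 1) :
    (∀ j, ∀ᶠ y in 𝓝 (q j), (gl (v j, y)).2.2 ≠ 0) ∧
      Oj n q (fun j y => pj (mx (cf R y) (gl (v j, y)).2.2 (φ j y) (d j y)) - φ j y) μ := by
  have a := (oj_nid N).pred.wt (c := e) (ν := 1) (fun _ => zero_le_one) fun _ => by simp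
  obtain ⟨B, hB⟩ := (kq_cpt R ρ).isBounded.exists_norm_le
  have z := (Oj.const (m := n) (x := q) (v := v) a.nn ⟨B, fun j => by
    simpa using (norm_fst_le _).trans (hB _ (hv j))⟩).pair ((Oj.cst (0 : ℝ)).pair (oj_sp h hq))
  have w := (a.pair (D.mono le_rfl m)).pair z
  have w' := (a.pair (Oj.cst (0 : R4))).pair z
  have o : ∀ {V : Type} [NormedAddCommGroup V] [NormedSpace ℝ V], Oj n q (fun _ _ => (0 : V)) μ :=
    Oj.const D.nn ⟨0, by simp⟩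
  have S : ∀ j, segment ℝ _ _ ⊆ Metric.closedBall (0 : R4 × R4) δ ×ˢ Kq R ρ := fun j =>
    (segment_subset_iff ℝ).2 fun s t hs ht st => (show s • ((φ j (q j) - q j -
      ((φ j (q j) - q j).1, 0), d j (q j)), v j, (0 : ℝ), (q j).2) + t • ((φ j (q j) - q j -
      ((φ j (q j) - q j).1, 0), (0 : R4)), v j, (0 : ℝ), (q j).2) ∈ _ by
        have k : ‖φ j (q j) - q j - ((φ j (q j) - q j).1, 0)‖ ≤ δ := by
          rw [Prod.norm_def, Prod.fst_sub, sub_self, norm_zero, Prod.snd_sub, sub_zero]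
          exact max_le ((norm_nonneg _).trans (b j)) ((N j).x.trans e1)
        refine ⟨convex_closedBall _ _ (mem_closedBall_zero_iff.2 (max_le k (b j)))
          (mem_closedBall_zero_iff.2 (max_le k ?_)) hs ht st, ?_⟩
        · exact norm_zero.trans_le ((norm_nonneg _).trans (b j))
        · exact mem_of_eq_of_mem (Convex.combo_self st (v j, pr0 (q j))) (hv j))
  have g := fun j => w'.sm j |>.continuousAt.eventually (G _ (S j (right_mem_segment ℝ _ _))).ev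
  refine ⟨fun j => (g j).mono fun y k => k.2.2.2.1, (oj_lip1 w w' S
    (((o.pair D).pair o).congr' (by simp)) (G := fun _ u => pj (hh R u))
    (Oj.fix ((isCompact_closedBall _ _).prod (kq_cpt R ρ)) (fun u hu =>
      at_comp (cd_pj (G u hu).2.2.2.2) (G u hu).cd.1) fun j => j.2)).congr fun j =>
        (g j).mono fun y k => ?_⟩
  have k1 := k.2.2.2.2
  simp only [hh, mx, add_zero, sub_self, smul_zero] at k1
  have e : φ j y = ((0 : ℝ), y.2) + (φ j y - y - ((φ j (q j) - q j).1, 0)) +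
      (y.1 + (φ j (q j) - q j).1, 0) := by ext <;> simp
  simp only [hh]
  rw [show ∀ c v p, mx c v p 0 = gl (v, p) from fun _ _ _ => by simp [mx], pj_gl k.2.1 k1]
  conv_lhs => rw [e, mx_tr, add_sub_add_right_eq_sub]
  rfl

/-- The data of the statement. -/
structure Fc where
  φ : R4 → R4
  α : E6 → ℝ
  k : ℝ
  μ : ℝ
  x : E6

structure Fc.Ok (R ρ : ℝ) (n : ℕ) (e : ℝ) (z : Fc) : Prop where
  ne : z.x.2.2 ≠ 0
  l : R ≤ z.x.2.1
  u : z.x.2.1 ≤ ρ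
  m : z.μ ∈ Icc 0 e
  k : |z.k - 1| ≤ e
  ind : ∀ y, z.α (anc R y) = z.α y
  sm : ∀ᶠ y in 𝓝 (anc R z.x), ∀ w ≠ 0, ContDiffAt ℝ ∞ z.α (sc w y) ∧ z.α (sc w y) = z.α y
  jb : Jb n (fun q => dnf z.α q - z.k) (pj (anc R z.x)) z.μ
  ry : ∀ s ∈ Icc R z.x.2.1, Nid n z.φ (pj (anc s z.x)) e ∧ Jb n (dfc z.φ z.k) (pj (anc s z.x)) z.μ

theorem Fc.Ok.mono {e e' : ℝ} {z : Fc} (h : z.Ok R ρ n e) (l : e ≤ e') : z.Ok R ρ n e' :=
  ⟨h.ne, h.l, h.u, ⟨h.m.1, h.m.2.trans l⟩, h.k.trans l, h.ind, h.sm, h.jb,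
    fun s hs => ⟨(h.ry s hs).1.mono le_rfl l, (h.ry s hs).2⟩⟩

theorem Fc.Ok.sr {e : ℝ} {z : Fc} (h : z.Ok R ρ n e) (h1 : 1 ≤ R) :
    (R ≤ rd (pj z.x) ∧ rd (pj z.x) ≤ ρ) ∧ Jb n (fun q => dnf z.α q - z.k) (ray R (pj z.x)) z.μ ∧
      ∀ y ∈ Sr R (pj z.x), Nid n z.φ y e ∧ Jb n (dfc z.φ z.k) y z.μ := by
  have x1 : 0 < z.x.2.1 := by linarith [h.l]
  refine ⟨(rd_pj x1 h.ne).symm ▸ ⟨h.l, h.u⟩, pj_anc x1 h.ne ▸ h.jb, ?_⟩
  rintro _ ⟨s, hs, rfl⟩
  simpa only [pj_anc x1 h.ne] using h.ry s (rd_pj x1 h.ne ▸ hs)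

theorem oj_af {J : Type} {z : J → Fc} (h1 : 1 ≤ R) (k : ∀ j, (z j).Ok R ρ n (1 / 8)) :
    Oj n (fun j => pj (z j).x) (fun j y => af R (z j).φ (dnf (z j).α) y - (z j).φ y)
      fun j => (z j).μ := by
  have h : 0 < R := by linarith
  have s := fun j => (k j).sr h1
  have hq := fun j => (s j).1
  obtain ⟨a, b⟩ := oj_aff h hq (fun j => by
    have := abs_le.1 (k j).k
    exact abs_le.2 ⟨by linarith, by linarith⟩) fun j y hy => ((s j).2.2 y hy).imp_left fun u =>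
      u.mono le_rfl (le_min (by norm_num) (by linarith))
  have c := (od_ray h hq (.cst R)).oj (G := fun j q => dnf (z j).α q - (z j).k) (.of (fun j =>
    (al_cone h (h.trans_le (k j).l) (k j).ne (k j).ind (k j).sm).1.sub contDiffAt_const)
      fun j => (s j).2.1)
  exact (((c.smull ((oj_rd h hq).sub (.cst R))).smull a).sub b).congr' fun j y => by
    simp only [af, smul_eq_mul]; module

/-- **FARC.** -/
theorem farc : FARC := by
  intro R ρ n h1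
  have h : 0 < R := by linarith
  obtain ⟨δ, d0, G⟩ := ex_gd h ρ
  obtain ⟨B, b0, hB⟩ := (oj_af (ρ := ρ) (n := n) (z := fun j : {z : Fc // z.Ok R ρ n (1 / 8)} => j.1)
    h1 fun j => j.2).val
  obtain ⟨e, e0, e1, e2, e3⟩ : ∃ e > 0, e ≤ 1 / 8 ∧ e ≤ δ ∧ B * e ≤ δ :=
    ⟨min (1 / 8) (δ / (B + 1)), by positivity, min_le_left _ _,
      (min_le_right _ _).trans (div_le_self d0.le (by linarith)), by
        have := (le_div_iff₀ (by positivity)).1 (min_le_right (1 / 8) (δ / (B + 1)))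
        nlinarith [lt_min (show (0 : ℝ) < 1 / 8 by norm_num) (show 0 < δ / (B + 1) by positivity)]⟩
  let J := {z : Fc // z.Ok R ρ n e}
  have s := fun j : J => j.2.sr h1
  have m := fun j : J => P354XA.sr_mem h (s j).1.1
  obtain ⟨g, o⟩ := oj_mx (v := fun j : J => (sc (nz j.1.x)⁻¹ j.1.x).2.2) h G e2 (fun j => (s j).1)
    (fun j => ⟨(0, (sc (nz j.1.x)⁻¹ j.1.x).2), ⟨rfl, ⟨j.2.l, j.2.u⟩,
      mem_sphere_zero_iff_norm.2 (norm_unit j.2.ne)⟩,
      Prod.ext rfl (congrArg pr0 (pj_sc (inv_ne_zero (nz_ne j.2.ne)) j.1.x))⟩)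
    (fun j => ((s j).2.2 _ (m j).1).1) (oj_af h1 fun j => j.2.mono e1)
    (fun j => (hB ⟨j.1, j.2.mono e1⟩).trans ((mul_le_mul_of_nonneg_left j.2.m.2 b0).trans e3))
    fun j => j.2.m.2.trans (by linarith)
  have o' := o.congr (g := fun j y => dn4 (glu R (lft j.1.φ) j.1.α) y - j.1.φ y) fun j => by
    obtain ⟨a1, a2⟩ := al_cone h (h.trans_le j.2.l) j.2.ne j.2.ind j.2.sm
    have q0 := h.trans_le (s j).1.1
    have r := ray_cd' (s := R) q0
    have N := ((s j).2.2 _ (m j).2).1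
    have k1 : 0 < rd (j.1.φ (ray R (pj j.1.x))) := by
      have := (abs_le.1 (rd_near N.x)).1
      rw [P354EF.rd_ray q0 h.le] at this
      linarith
    have c := rd_cont.continuousAt.comp' (at_comp N.sm r).continuousAt
    filter_upwards [ev_rd q0, g j, a2, continuousAt_const.eventually_lt c k1,
      continuousAt_const.eventually_lt (c.add ((at_comp a1 r).continuousAt.mul
        (rd_cont.continuousAt.sub continuousAt_const))) (add_pos_of_pos_of_nonneg k1 (mul_nonneg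
          (by linarith [(abs_le.1 (s j).2.1.zero).1, (abs_le.1 j.2.k).1, j.2.m.2])
          (sub_nonneg.2 (s j).1.1)))] with y y0 u1 u2 u3 u4
    rw [glu_eq y0 u1 u2 u3 u4]
  obtain ⟨C, -, hC⟩ := o'.bd
  refine ⟨C, e, e0, fun φ α k μ x k1 k2 k3 k4 k5 k6 k7 k8 k9 => ?_⟩
  let j : J := ⟨⟨φ, α, k, μ, x⟩, k1, k2, k3, k4, k5, k6, k7, k8, k9⟩
  exact ⟨by simpa using (o'.sm j).add ((s j).2.2 _ (m j).1).1.sm, hC j⟩

end Vale.Agent.P354XA
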