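import Vale.Agent.P354XA.Ad

/-!
Piece ACC: the proof.
-/

set_option maxSynthPendingDepth 3

open scoped ContDiff
open MeasureTheory Set Filter Topology Metric

namespace Vale.Agent.P354XA

open Vale.Agent.P354n
open Vale.Agent.P354 (Tv)
open Vale.Agent.P354V (fut_affine isom_comp)

variable {N N' : Spc} {ι : N.pt → N'.pt} {P : Set N.pt} {c : ℝ → N'.pt}

/-- Some vertical line with integrable derivative of the metric starts in P and leaves N. -/
theorem exists_line [Nonempty N.pt] (hN : IsSpacetime IsSmooth N) (hP : Bar N P)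
    (H : IsFutureExtension (IsC0W1 2) N N' ι c) : ∃ (D : Ad (Up N')) (b : R4) (L : ℝ), 0 < L ∧
      (∀ s ∈ Icc 0 L, b + s • Tv ∈ ball (0 : R4) D.R) ∧
      (∀ s ∈ Ico 0 L, b + s • Tv ∈ D.W (N := Up N) ι P) ∧ D.Y (b + L • Tv) ∉ range ι ∧
      Integrable fun s : ℝ =>
        (D.W (N := Up N) ι univ).indicator (fun z => ‖fderiv ℝ D.G z‖) (b + s • Tv) := by
  have hs := H.spacetime.up
  have h := H.embedding
  have hI := H.isometry.up
  have hc := H.curve.up le_rfl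
  have c1 : c 1 ∉ range ι := (h.isOpen_range.frontier_eq ▸ H.curve_end).2
  obtain ⟨D, hp, hy0⟩ := exists_ad hs hc
  set σ := Function.invFun ι with hσ
  have li : ∀ p, σ (ι p) = p := Function.leftInverse_invFun h.injective
  have ri : ∀ q ∈ range ι, ι (σ q) = q := fun q hq => Function.invFun_eq hq
  set W := D.W (N := Up N) ι univ with hW
  set Q := D.W (N := Up N) ι P with hQ
  have oW : IsOpen W := D.W_open h
  have QW : Q ⊆ W := fun z hz => ⟨hz.1, image_mono (subset_univ _) hz.2⟩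
  have mQ : ∀ z ∈ W, σ (D.Y z) ∈ P → z ∈ Q := fun z hz k =>
    ⟨hz.1, _, k, ri _ (hz.2.imp fun _ k => k.2)⟩
  have Qm : ∀ z ∈ Q, σ (D.Y z) ∈ P := by
    rintro z ⟨-, p, k1, k2⟩
    rw [← k2, li]; exact k1
  have hF : ∀ a, ∀ v ∈ Co, (∀ τ ∈ Icc (0 : ℝ) 1, a + τ • v ∈ W) → a ∈ Q → a + v ∈ Q := by
    intro a v hv h1 h2
    refine mQ _ (by simpa using h1 1 ⟨zero_le_one, le_rfl⟩) ?_
    simpa using hP.fut _ (IsFutureCurve.of (D.pull h hN.up hs hI hv (uniqueDiffOn_Icc zero_lt_one)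
      h1)) (by simpa using Qm a h2)
  have hC : ∀ z ∈ W, z ∈ closure Q → z ∈ Q := by
    intro z hz k
    refine mQ z hz ?_
    rw [← hP.closed.closure_eq, h.isInducing.closure_eq_preimage_closure_image, mem_preimage,
      ri _ (hz.2.imp fun _ k => k.2)]
    exact (D.cont hz.1).continuousWithinAt.mem_closure k fun x hx => hx.2
  have hPa : ∀ a ∈ ball (0 : R4) D.R, ∀ v ∈ Co, (∀ τ ∈ Ioc (0 : ℝ) 1, a + τ • v ∈ Q) → a ∈ W := by
    intro a ha v hv h1
    by_contra k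
    obtain ⟨t, ht, k2⟩ := hP.past _ (IsFutureCurve.of (D.pull h hN.up hs hI hv
      isOpen_Ioo.uniqueDiffOn fun τ hτ => QW (h1 τ (Ioo_subset_Ioc_self hτ)))) fun x hx => k (by
      have c0 : Continuous fun τ : ℝ => a + τ • v := by fun_prop
      have k1 : Tendsto (fun τ : ℝ => D.Y (a + τ • v)) (𝓝[>] 0) (𝓝 (D.Y a)) :=
        (D.cont ha).tendsto.comp (by simpa using (c0.tendsto 0).mono_left nhdsWithin_le_nhds)
      have k2 : Tendsto (fun τ : ℝ => D.Y (a + τ • v)) (𝓝[>] 0) (𝓝 (ι x)) :=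
        ((h.continuous.tendsto x).comp hx).congr' (eventually_of_mem (Ioc_mem_nhdsGT zero_lt_one)
          fun τ hτ => ri _ ((h1 τ hτ).2.imp fun _ k => k.2))
      exact ⟨ha, x, mem_univ _, tendsto_nhds_unique k2 k1⟩)
    exact k2 (Qm _ (h1 t (Ioo_subset_Ioc_self ht)))
  have fa : P354p.IsFutureCurve (Up N) 0 (Ico 0 1) fun t => σ (c t) :=
    P354p.IsFutureCurve.pull_map h hN.up hs hI (uniqueDiffOn_Ico 0 1)
      ((hc.mono Ico_subset_Icc_self (uniqueDiffOn_Ico 0 1)).congr fun t ht =>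
        ri _ (H.curve_mem t ht))
  have lim : Tendsto c (𝓝[<] 1) (𝓝 (c 1)) := by
    refine (H.curve.1 1 ⟨zero_le_one, le_rfl⟩).mono_left ?_
    rw [← nhdsWithin_Ioo_eq_nhdsLT zero_lt_one]
    exact nhdsWithin_mono _ Ioo_subset_Icc_self
  obtain ⟨t1, ht1, k1⟩ := hP.enter _ (IsFutureCurve.of (fa.mono Ioo_subset_Ico_self
    isOpen_Ioo.uniqueDiffOn)) fun x hx => c1 ⟨x, tendsto_nhds_unique
      (((h.continuous.tendsto x).comp hx).congr' (eventually_of_mem (Ioo_mem_nhdsLT zero_lt_one)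
        fun t ht => ri _ (H.curve_mem t (Ioo_subset_Ico_self ht)))) lim⟩
  have inP : ∀ t ∈ Ioo t1 1, σ (c t) ∈ P := fun t ht => by
    have l : 0 < t - t1 := sub_pos.2 ht.1
    simpa using hP.fut _ (IsFutureCurve.of (fut_affine (N := Up N) hN.up (s := t1) l
      (fa.mono (fun u hu => ⟨ht1.1.le.trans hu.1, by linarith [hu.2, ht.2]⟩)
        (uniqueDiffOn_Icc (by linarith))))) (by simpa using k1)
  obtain ⟨δ, d0, d1, hon, hcd⟩ := P354p.curve_contDiffOn hp hc
  set γ := P354p.gam D.e D.A c with hγ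
  have cγ : ContinuousOn γ (Icc (1 - δ) 1) :=
    D.A.symm.continuous.comp_continuousOn (hcd.continuousOn.sub continuousOn_const)
  have Yγ : ∀ t ∈ Icc (1 - δ) 1, D.Y (γ t) = c t := fun t ht => by
    rw [Ad.Y, hy0, hγ, P354p.yv_gam]; exact P354p.inv_co (hon t ht)
  obtain ⟨r, r0, hr⟩ : ∃ r, 0 < r ∧ D.R = 40 * r := ⟨D.R / 40, by linarith [D.pos], by ring⟩
  obtain ⟨ε, e0, he⟩ := Metric.continuousWithinAt_iff.1 (cγ 1 ⟨by linarith, le_rfl⟩) r r0
  obtain ⟨s, s1, s2⟩ := exists_between (show max t1 (max (1 - δ) (1 - ε)) < 1 from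
    max_lt ht1.2 (max_lt (by linarith) (by linarith)))
  simp only [max_lt_iff] at s1
  have nγ : ∀ t ∈ Icc s 1, ‖γ t‖ ≤ r := fun t ht => by
    have := he (x := t) ⟨by linarith [ht.1, s1.2.1], ht.2⟩ (by
      rw [Real.dist_eq, abs_lt]; constructor <;> linarith [ht.1, ht.2, s1.2.2])
    rw [hγ, P354p.gam_one, dist_zero_right] at this
    exact this.le
  have inB : ∀ z : R4, ‖z‖ ≤ 20 * r → z ∈ ball (0 : R4) D.R := fun z hz =>
    mem_ball_zero_iff.2 (by linarith)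
  have γQ : ∀ t ∈ Ico s 1, γ t ∈ Q := fun t ht => by
    have m : t ∈ Icc (1 - δ) 1 := ⟨by linarith [ht.1, s1.2.1], ht.2.le⟩
    refine ⟨inB _ (by linarith [nγ t (Ico_subset_Icc_self ht)]), _,
      inP t ⟨s1.1.trans_le ht.1, ht.2⟩, ?_⟩
    rw [Yγ t m]
    exact ri _ (H.curve_mem t ⟨by linarith [m.1], ht.2⟩)
  obtain ⟨ρ', p0', hρ'⟩ := Metric.isOpen_iff.1 oW _ (QW (γQ s ⟨le_rfl, s2⟩))
  obtain ⟨ρ, p0, p1, hρ⟩ : ∃ ρ, 0 < ρ ∧ 8 * ρ ≤ r ∧ ball (γ s) (8 * ρ) ⊆ W :=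
    ⟨min ρ' r / 8, by positivity, by linarith [min_le_right ρ' r],
      (ball_subset_ball (by linarith [min_le_left ρ' r])).trans hρ'⟩
  obtain ⟨x, hx, hint⟩ := D.fubini h hN.up hs hI (γ s).2 p0
  rw [mem_ball, dist_eq_norm] at hx
  set u : R4 := (4 * ρ, x - (γ s).2) with hu
  have uC : u ∈ Co := ⟨by show ‖x - (γ s).2‖ ≤ 1 / 4 * (4 * ρ); linarith, by
    show 0 < 4 * ρ; linarith⟩
  have nu : ∀ τ ∈ Icc (0 : ℝ) 1, ‖τ • u‖ ≤ 4 * ρ := fun τ hτ => by
    have : ‖u‖ ≤ 4 * ρ := max_le (by rw [Real.norm_of_nonneg (by linarith)]) (by linarith)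
    rw [norm_smul, Real.norm_of_nonneg hτ.1]
    nlinarith [hτ.1, hτ.2, norm_nonneg u]
  have uQ : ∀ τ ∈ Ioc (0 : ℝ) 1, γ s + τ • u ∈ Q := fun τ hτ =>
    hF _ _ (Co.smul uC hτ.1) (fun l hl => hρ (by
      rw [smul_smul, add_mem_ball_iff_norm]
      linarith [nu (l * τ) ⟨mul_nonneg hl.1 hτ.1.le, by nlinarith [hl.1, hl.2, hτ.1, hτ.2]⟩]))
      (γQ s ⟨le_rfl, s2⟩)
  have ns := nγ s ⟨le_rfl, s2.le⟩
  have nx : ‖x‖ ≤ 2 * r := by
    linarith [norm_le_norm_add_norm_sub' x (γ s).2, norm_snd_le (γ s), norm_sub_rev x (γ s).2]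
  set q : R4 := (20 * r, x) with hq
  have qB : q ∈ ball (0 : R4) D.R :=
    inB q (max_le (by rw [Real.norm_of_nonneg (by linarith)]) (by linarith))
  have bQ : γ s + u ∈ Q := by simpa using uQ 1 ⟨zero_lt_one, le_rfl⟩
  have claim : ¬ ∀ τ ∈ Icc (0 : ℝ) 1, γ s + u + τ • (q - (γ s + u)) ∈ W := by
    intro k
    have n1 : ∀ θ ∈ Icc (0 : ℝ) 1, ‖γ s + (1 - θ) • u‖ ≤ 2 * r := fun θ hθ => by
      linarith [norm_add_le (γ s) ((1 - θ) • u), nu (1 - θ) ⟨by linarith [hθ.2], by linarith [hθ.1]⟩]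
    have k2 := seg_of oW hF hC hPa (β := fun θ => γ s + (1 - θ) • u) (by fun_prop) (q := q)
      (fun θ hθ => top_mem r0 (n1 θ hθ) nx)
      (fun θ hθ τ hτ => P354.ball_seg (inB _ (by linarith [n1 θ hθ])) qB hτ)
      (fun θ hθ => uQ _ ⟨by linarith [hθ.2], by linarith [hθ.1]⟩) (by simpa using k)
    have mt : ∀ θ : ℝ, s + (projIcc (0 : ℝ) 1 zero_le_one θ : ℝ) * (1 - s) ∈ Icc s 1 := fun θ => by
      have := (projIcc (0 : ℝ) 1 zero_le_one θ).2
      constructor <;> nlinarith [this.1, this.2]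
    have k3 := seg_of oW hF hC hPa
      (β := fun θ => γ (s + (projIcc (0 : ℝ) 1 zero_le_one θ : ℝ) * (1 - s)))
      (cγ.comp_continuous (by fun_prop) fun θ => ⟨by linarith [(mt θ).1, s1.2.1], (mt θ).2⟩)
      (q := q) (fun θ _ => top_mem r0 (by linarith [nγ _ (mt θ)]) nx)
      (fun θ _ τ hτ => P354.ball_seg (inB _ (by linarith [nγ _ (mt θ)])) qB hτ)
      (fun θ hθ => γQ _ ⟨(mt θ).1, by
        rw [projIcc_of_mem _ (Ico_subset_Icc_self hθ)]
        show s + θ * (1 - s) < 1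
        nlinarith [hθ.2]⟩) (by simpa using k2) 0 ⟨le_rfl, zero_le_one⟩
    obtain ⟨-, p, -, k4⟩ := k3
    refine c1 ⟨p, k4.trans ?_⟩
    simpa using Yγ 1 ⟨by linarith, le_rfl⟩
  set b := γ s + u with hb
  have b2 : b.2 = x := by simp [hb, hu]
  have b1 : b.1 ≤ 2 * r := by
    have := (abs_le.1 ((norm_fst_le (γ s)).trans ns)).2
    show (γ s).1 + 4 * ρ ≤ 2 * r
    linarith
  have qb : q - b = (20 * r - b.1) • Tv := by
    refine Prod.ext ?_ ?_
    · simp [hq, Tv]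
    · simp [hq, Tv, b2, Prod.ext_iff]
  have h0 : 0 < 20 * r - b.1 := by linarith
  simp only [not_forall] at claim
  obtain ⟨l, hl, nl⟩ := claim
  rw [qb, smul_smul] at nl
  obtain ⟨τ, t0, t2, hτ, hτ'⟩ := P354v.exit
    (γ := fun t : ℝ => b + (t * (l * (20 * r - b.1))) • Tv) oW (by fun_prop)
    (by simpa using QW bQ) (by simpa using nl)
  have l0 : 0 < l * (20 * r - b.1) := by
    refine (mul_nonneg hl.1 h0.le).lt_of_ne fun k => nl ?_
    rw [← k]
    simpa using QW bQ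
  have vB : ∀ t ∈ Icc 0 (τ * (l * (20 * r - b.1))), b + t • Tv ∈ ball (0 : R4) D.R := fun t ht => by
    have := P354.ball_seg bQ.1 qB (τ := t / (20 * r - b.1)) ⟨div_nonneg ht.1 h0.le, by
      rw [div_le_one h0]
      nlinarith [ht.2, mul_le_mul_of_nonneg_right t2 l0.le, mul_le_mul_of_nonneg_right hl.2 h0.le]⟩
    rwa [qb, smul_smul, div_mul_cancel₀ _ h0.ne'] at this
  have vW : ∀ t ∈ Ico 0 (τ * (l * (20 * r - b.1))), b + t • Tv ∈ W := fun t ht => by
    have := hτ' (t / (l * (20 * r - b.1))) (div_nonneg ht.1 l0.le) (by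
      rw [div_lt_iff₀ l0]; exact ht.2)
    rwa [div_mul_cancel₀ _ l0.ne'] at this
  refine ⟨D, b, _, mul_pos t0 l0, vB, fun t ht => ?_, fun ⟨p, k⟩ => (oW.frontier_eq ▸ hτ).2
    ⟨vB _ ⟨(mul_pos t0 l0).le, le_rfl⟩, p, mem_univ _, k⟩, ?_⟩
  · rcases ht.1.eq_or_lt with k | k
    · rw [← k]; simpa using bQ
    · refine hF _ _ (Co.smul Tv_mem k) (fun l hl => ?_) bQ
      rw [smul_smul]
      exact vW _ ⟨mul_nonneg hl.1 ht.1, lt_of_le_of_lt (by nlinarith [hl.2]) ht.2⟩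
  · refine (hint.comp_add_left b.1).congr (Eventually.of_forall fun t => ?_)
    have : b + t • Tv = (b.1 + t, x) := Prod.ext (by simp [Tv]) (by simp [Tv, b2])
    simp only [this]

/-- **ACC.** -/
theorem acc : ACC := by
  intro N P hN hP h0
  simp only [P354I.NoExt, not_forall, not_not] at h0
  obtain ⟨N', ι, c, H⟩ := h0
  obtain ⟨p0, -⟩ := H.curve_mem 0 ⟨le_rfl, zero_lt_one⟩
  have : Nonempty N.pt := ⟨p0⟩
  obtain ⟨D, b, L, L0, vB, vQ, nL, hint⟩ := exists_line hN hP H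
  have hs := H.spacetime.up
  have h := H.embedding
  have hI := H.isometry.up
  set W := D.W (N := Up N) ι univ with hW
  have vW : ∀ s ∈ Ioo 0 L, b + s • Tv ∈ W := fun s k =>
    ⟨vB s (Ioo_subset_Icc_self k), image_mono (subset_univ _) (vQ s (Ioo_subset_Ico_self k)).2⟩
  have ia : ∀ s ∈ Ioo 0 L, ι (Function.invFun ι (D.Y (b + s • Tv))) = D.Y (b + s • Tv) :=
    fun s k => Function.invFun_eq ((vW s k).2.imp fun _ k => k.2)
  have cl : Continuous fun t : ℝ => b + t • (Tv : R4) := by fun_prop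
  set A : ℝ → ℝ := fun s => 2 * W.indicator (fun z => ‖fderiv ℝ D.G z‖) (b + s • Tv) with hA
  have eA : ∀ s ∈ Ioo 0 L, A s = 2 * ‖fderiv ℝ D.G (b + s • Tv)‖ := fun s k => by
    simp only [hA, indicator_of_mem (vW s k)]
  have iA : Integrable A := hint.const_mul 2
  have cA : ContinuousOn A (Ioo 0 L) :=
    (continuousOn_const.mul ((((D.G_smooth h hN.up hs hI).continuousOn_fderiv_of_isOpen
      (D.W_open h) (by simp)).comp cl.continuousOn vW).norm)).congr eA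
  refine ⟨L, fun s => Function.invFun ι (D.Y (b + s • Tv)), A, fun s => ∫ t in (0 : ℝ)..s, A t,
    { pos := L0
      curve := IsFutureCurve.of (D.pull h hN.up hs hI Tv_mem isOpen_Ioo.uniqueDiffOn vW)
      mem := fun s k => ?_
      leave := fun K hK => ?_
      avoid := fun M κ hM hκ hκ' hE s k m => ?_
      prim := ⟨(intervalIntegral.continuous_primitive (fun _ _ => iA.intervalIntegrable)
        0).continuousOn, cA, fun s k => ⟨intervalIntegral.integral_hasDerivAt_right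
          iA.intervalIntegrable iA.1.stronglyMeasurableAtFilter
          (cA.continuousAt (isOpen_Ioo.mem_nhds k)), by rw [eA s k]; positivity⟩⟩
      chart := fun s k e he z y w hz hy hw => ?_ }⟩
  · obtain ⟨-, p, k1, k2⟩ := vQ s (Ioo_subset_Ico_self k)
    rw [← k2, Function.leftInverse_invFun h.injective]
    exact k1
  · have c1 : ContinuousAt (fun s : ℝ => D.Y (b + s • Tv)) L :=
      ContinuousAt.comp (f := fun t : ℝ => b + t • (Tv : R4)) (D.cont (vB L ⟨L0.le, le_rfl⟩))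
        cl.continuousAt
    filter_upwards [Ioo_mem_nhdsLT L0, (c1.eventually_mem
      ((hK.image h.continuous).isClosed.isOpen_compl.mem_nhds
        fun k => nL (image_subset_range _ _ k))).filter_mono nhdsWithin_le_nhds] with s k1 k2 k3
    exact k2 ⟨_, k3, ia s k1⟩
  · have emb : IsOpenEmbedding (ι ∘ κ) := h.comp hκ
    have l0 : 0 < L - s := sub_pos.2 k.2
    have sub : ∀ l, 0 < l → l ≤ L - s → P354p.IsFutureCurve (Up N') 0 (Icc 0 1)
        fun x => D.Y (b + (s + x * l) • Tv) := fun l h1 h2 =>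
      fut_affine (N := Up N') hs (c := fun t => D.Y (b + t • Tv)) h1 (D.line hs Tv_mem
        (uniqueDiffOn_Icc (by linarith)) fun t ht => vB t ⟨by linarith [ht.1, k.1], by
          linarith [ht.2]⟩)
    have nd : D.Y (b + L • Tv) ∉ range (ι ∘ κ) := fun ⟨p, hp⟩ => nL ⟨κ p, hp⟩
    obtain ⟨τ, τ0, τ1, hτ, hτ'⟩ := P354v.exit emb.isOpen_range (sub _ l0 le_rfl).1 (by
      obtain ⟨p, hp⟩ := m
      refine ⟨p, ?_⟩
      simp only [zero_mul, add_zero, Function.comp, hp, ia s k]) (by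
      rwa [one_mul, add_sub_cancel])
    refine hE N' (ι ∘ κ) (fun x => D.Y (b + (s + x * (τ * (L - s))) • Tv))
      { spacetime := H.spacetime
        embedding := emb
        isometry := isom_comp hM hN H.spacetime hκ.continuous hκ' H.isometry
        proper := fun k => nd (k ▸ mem_univ _)
        curve := IsFutureCurve.of (sub _ (mul_pos τ0 l0) (by nlinarith))
        curve_mem := fun t ht => ?_
        curve_end := by rwa [one_mul] }
    have := hτ' (t * τ) (mul_nonneg ht.1 τ0.le) (by nlinarith [ht.2])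
    rwa [mul_assoc] at this
  · rw [eA s k]
    exact D.chart (N := Up N) h hN.up hs hI (vW s k) rfl he hz hy hw

end Vale.Agent.P354XA
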