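import Vale.Agent.P354XA.Farc
import Vale.Agent.P354XA.Cmp
import Vale.Agent.P354MG.Asm
import Vale.Agent.P354NA.Phb

/-!
The metric and the chart of the estimates.
-/

set_option maxSynthPendingDepth 3

open scoped ContDiff
open Set Filter Topology

noncomputable section

namespace Vale.Agent.P354XA

open Vale.Agent.P354n (R4)
open Vale.Agent.P354XG (E6)
open Vale.Agent.P354XD (pj nq)
open Vale.Agent.P354XE (Tw rd pb eT)
open Vale.Agent.P354XR (rd_pj)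
open Vale.Agent.P354XO (Om Cn Cht b4 dn4 dnf lift sc om_open om_sc cn_om)
open Vale.Agent.P354YI
open Vale.Agent.P354YO (sh Sb IsTh sh_sh sh_id sh_inv sh_cd sh_st rd_sh bd_mono)
open Vale.Agent.P354CQ (glu anc far ki P6 cut cut_open glu_near mem_cut)
open Vale.Agent.P354TS (rd_near oj_nid)
open Vale.Agent.P354NA (cjg cjg_near st_cd ts_cd ts_st st_ts rd_st4)
open Vale.Agent.P354MG

variable {f : Fx} {v : Va} {q : Qn} {Rb : ℝ} {x : E6} {n : ℕ}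

/-- The chart along the rays on the base. -/
def bph (f : Fx) (v : Va) : R4 → R4 := dn4 (glu f.R (f.na v) (f.al v))

theorem fx_num (o : f.Ok) : |f.z.a| < f.z.M ∧ 0 < f.z.r1 ∧ f.z.r1 ≤ f.R ∧ 1 ≤ f.R := by
  have h : |f.z.a| < f.z.M := (o.ok.ok _ le_rfl _ le_rfl).1.1.sub
  obtain ⟨h0, m0, -⟩ := hor h
  obtain ⟨a1, a2, -, a4, a5⟩ := o.nu.r1
  exact ⟨h, by linarith, by rw [Fx.R]; linarith, by rw [Fx.R]; linarith⟩

theorem phi_id {y : R4} (h : y.1 ≤ f.ti) : f.phi v y = y := by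
  rw [Fx.phi, phB, Real.smoothTransition.zero_of_nonpos (sub_nonpos.2 h), zero_smul, add_zero]

theorem na_eq (h : 0 < x.2.1) (h' : x.2.2 ≠ 0) : f.na v x = lft (f.phi v) x := by
  rw [Fx.na]
  split_ifs with k
  exacts [(P354TS.lift.1 _ x h h' (phi_id k)).symm, rfl]

theorem pj_ki {M : ℝ} (h : 0 < x.2.1) (h' : x.2.2 ≠ 0) :
    pj (ki (4 * M ^ 2) x) = ki4 M (pj x) := by
  rw [ki4, sh, rd_pj h h']
  simp [pj, ki, nq, sub_eq_add_neg]

theorem sh_ki (M : ℝ) (A B : ℝ → ℝ) (p : R4) : sh A B (ki4 M p) = st4 M A B p := by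
  rw [← st_ko M, ko_ki]

theorem x0_cn (G : Ge f v q Rb) : Cn (f.X0 v q) :=
  cn_om G.su.op0 fun _ k => (G.su.num.1.trans_le G.su.num.2.1).trans k.1.1

theorem bph_est (o : f.Ok) (n : ℕ) (ρ : ℝ) : ∃ C, 1 ≤ C ∧ ∃ e > 0, ∀ v q Rb, Ge f v q Rb →
    ∀ x ∈ f.X0 v q, x.2.1 ≤ ρ → ∀ μ ε, 0 ≤ μ → μ ≤ ε → ε ≤ e → Zn f v n x ε μ →
      Jb (n + 1) (fun y => bph f v y - f.phi v y) (pj x) (C * μ) := by
  obtain ⟨-, -, -, h1⟩ := fx_num o
  obtain ⟨C, e, e0, hC⟩ := farc f.R ρ (n + 1) h1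
  refine ⟨max 1 C, le_max_left _ _, e, e0, fun v q Rb G x hx u μ ε m0 m1 m2 Z => ?_⟩
  have c := x0_cn G
  have m : x ∈ Om (f.D q.c.Rs v.Lv) := ⟨hx.1.1, hx.2⟩
  rcases lt_or_ge x.2.1 f.R with r | r
  · have c' : Cn (Om (cut (f.D q.c.Rs v.Lv) f.R)) := cn_om (cut_open G.su.dk.op) fun _ k =>
      (G.su.num.1.trans_le G.su.num.2.1).trans k.1.1
    refine ((jb_const _ (0 : R4) _).mono le_rfl (by rw [norm_zero]; positivity)).congr
      (mem_of_superset (c'.shadow.mem_nhds ⟨x, mem_cut m r, rfl⟩) fun y hy => ?_)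
    obtain ⟨l1, l2⟩ := c'.lift_mem hy
    show pj (glu f.R (f.na v) (f.al v) (lift y)) - f.phi v y = 0
    rw [glu_near (le_of_lt l1.1.2), G.lf _ ⟨⟨l1.1.1, l1.1.2.trans (by linarith)⟩, l1.2⟩, l2, sub_self]
  · obtain ⟨κ, k1, k2, k3⟩ := Z.ray r
    have a : anc f.R x ∈ Om (P354CQ.Wd (f.D q.c.Rs v.Lv) f.R) := G.su.dk.mem (x := x) m r
    refine (((hC (f.phi v) (f.al v) κ μ x hx.2 r u ⟨m0, m1.trans m2⟩ (k1.trans m2) G.su.lb.ind
      (mem_of_superset ((om_open G.su.dk.wop).mem_nhds a) fun y hy z hz =>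
        ⟨G.su.lb.sm _ (om_sc hy hz), G.su.lb.hom y hy z hz⟩) k2 fun s hs =>
          ⟨(k3 s hs).1.mono le_rfl m2, (k3 s hs).2⟩).2).mono le_rfl
            (mul_le_mul_of_nonneg_right (le_max_right _ _) m0)).congr ?_
    filter_upwards [ev_rd ((c.pos x hx).1.trans_eq (rd_pj (c.pos x hx).1 hx.2).symm)] with y hy
    obtain ⟨l1, l2, -⟩ := lift_ok hy
    simp only [bph, dn4, dnf, glu, far, na_eq l1 l2,
      na_eq (x := anc f.R (lift y)) (zero_lt_one.trans_le h1) l2]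

theorem ch_eq (H : GEO) (o : f.Ok) (G : Ge f v q Rb) (hx : x ∈ f.X0 v q) :
    ContDiffAt ℝ ∞ (bph f v) (pj x) ∧ pj (f.ac v q x) = ki4 f.z.M (bph f v (pj x)) ∧
      dn4 (f.ch v q) (f.S (pj x)) = ki4 f.z.M (bph f v (pj x)) ∧
      b4 (f.U v q) (f.ch v q) (ki4 f.z.M (bph f v (pj x))) = f.S (pj x) := by
  obtain ⟨c, k, -⟩ := H f v q Rb o G
  have m : x ∈ Om (f.D q.c.Rs v.Lv) := ⟨hx.1.1, hx.2⟩
  have c0 : Cht (Om (f.D q.c.Rs v.Lv)) (glu f.R (f.na v) (f.al v)) := G.su.cht0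
  have e1 : pj (f.ac v q x) = ki4 f.z.M (bph f v (pj x)) := by
    rw [bph, c0.eqv.pj_dn m, ← pj_ki (c0.pos x m) (c0.eqv.ne x m)]; rfl
  have e2 : f.ch v q (f.P x) = f.ac v q x :=
    congrArg (f.ac v q) ((P354CS.pre _ f.z.a _ _ o.nu.sA o.nu.sB).2.2.2.2.2.1 x).2.2.1
  have u : f.P x ∈ f.U v q := ⟨x, hx, rfl⟩
  exact ⟨c0.eqv.sm_dn m, e1, by rw [← (k x hx).1, c.eqv.pj_dn u, e2, e1],
    by rw [← e1, ← e2, c.b4_a u, (k x hx).1]⟩

theorem jb_dn {A B : ℝ → ℝ} (hA : ContDiff ℝ ∞ A) (hB : ContDiff ℝ ∞ B) {r1 : ℝ} (h1 : 0 < r1)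
    (ρ : ℝ) (n : ℕ) : ∃ C, ∀ (G : R4 → R4) p, Nid n (fun y => sh A B (G y)) p (min 1 (r1 / 4)) →
      r1 ≤ rd p → rd p ≤ ρ → Jb n (fderiv ℝ G) p C := by
  let J := {j : (R4 → R4) × R4 // Nid n (fun y => sh A B (j.1 y)) j.2 (min 1 (r1 / 4)) ∧
    r1 ≤ rd j.2 ∧ rd j.2 ≤ ρ}
  have r : ∀ j : J, r1 / 2 ≤ rd (sh A B (j.1.1 j.1.2)) ∧ rd (sh A B (j.1.1 j.1.2)) ≤ ρ + 2 :=
    fun j => by
      have := abs_le.1 (rd_near j.2.1.x)
      have := min_le_left 1 (r1 / 4)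
      have := min_le_right 1 (r1 / 4)
      exact ⟨by linarith [j.2.2.1], by linarith [j.2.2.2]⟩
  have k : ∀ {F : ℝ → ℝ}, ContDiff ℝ ∞ F → Od n (fun j : J => rd (sh A B (j.1.1 j.1.2))) fun _ => -F :=
    fun hF => od_of (Oj.fix isCompact_Icc (fun _ _ => hF.neg.contDiffAt) r)
  obtain ⟨C, -, hC⟩ := (((od_nid (fun j : J => j.2.1) fun _ => min_le_left _ _).comp
    (od_sh (half_pos h1) r (k hA) (k hB))).congr (g := fun j => j.1.1)
      fun _ => .of_forall fun _ => (sh_inv A B _).symm).d.bd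
  exact ⟨C * 1, fun G p a b c => hC ⟨(G, p), a, b, c⟩⟩

/-- **MET.** -/
theorem met (H : GEO) : MET := by
  intro f o n ρ
  obtain ⟨ha, h1, hR, -⟩ := fx_num o
  have h0 : 0 < f.z.M := (abs_nonneg _).trans_lt ha
  have cd := And.intro o.nu.sA o.nu.sB
  obtain ⟨C1, c1, e1, e10, k1⟩ := bph_est o n ρ
  obtain ⟨C2, e2, e20, k2⟩ := cmp f.z.M f.z.a f.z.r1 ρ n ha h1
  obtain ⟨C3, c3, k3⟩ := cjg_near h0 o.nu.th h1 hR ρ n
  obtain ⟨C4, k4⟩ := jb_dn o.nu.sA o.nu.sB h1 ρ n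
  obtain ⟨e, e0, a1, a2⟩ : ∃ e > 0, e ≤ e1 ∧ (C3 + 1) * (2 * C1) * e ≤ min e2 (min 1 (f.z.r1 / 4)) :=
    ⟨min e1 (min e2 (min 1 (f.z.r1 / 4)) / ((C3 + 1) * (2 * C1))), by positivity, min_le_left _ _,
      (le_div_iff₀' (by positivity)).1 (min_le_right _ _)⟩
  refine ⟨max (max (|C2| * C1) (C3 * (2 * C1))) C4, e, e0,
    fun v q Rb G t hp x hx u μ ε m0 m1 m2 Z => ?_⟩
  have ε0 := m0.trans m1
  have c0 := zero_le_one.trans c1
  have b1 : 0 ≤ C3 * (2 * C1 * e) := by positivity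
  have b2 := le_mul_of_one_le_left e0.le c1
  have b3 := mul_le_mul_of_nonneg_left m2 c0
  have b4' := mul_le_mul_of_nonneg_left b3 c3
  have a3 : 2 * C1 * ε ≤ min e2 (min 1 (f.z.r1 / 4)) := by linarith
  have a4 : C1 * μ ≤ C1 * ε ∧ ε ≤ C1 * ε ∧ μ ≤ C1 * μ ∧ e ≤ e2 := ⟨mul_le_mul_of_nonneg_left m1 c0,
    le_mul_of_one_le_left ε0 c1, le_mul_of_one_le_left m0 c1,
    by linarith [min_le_left e2 (min 1 (f.z.r1 / 4))]⟩
  simp only [le_min_iff] at a3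
  have c := x0_cn G
  obtain ⟨cU, ge, -⟩ := H f v q Rb o G
  have r : rd (pj x) = x.2.1 := rd_pj (c.pos x hx).1 hx.2
  have l : f.z.r1 ≤ rd (pj x) := r ▸ le_of_lt hx.1.1.1
  have p0 := h1.trans_le l
  have d := k1 v q Rb G x hx u μ ε m0 m1 (m2.trans a1) Z
  obtain ⟨s, e3, e4, e5⟩ := ch_eq H o G hx
  have ev : ∀ᶠ y in 𝓝 (pj x), dn4 (f.ch v q) (f.S y) = ki4 f.z.M (bph f v y) ∧
      b4 (f.U v q) (f.ch v q) (ki4 f.z.M (bph f v y)) = f.S y :=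
    mem_of_superset (c.shadow.mem_nhds ⟨x, hx, rfl⟩) fun _ ⟨y, hy, k⟩ => k ▸ (ch_eq H o G hy).2.2
  have uU : f.S (pj x) ∈ pj '' f.U v q := ⟨_, ⟨x, hx, rfl⟩, (ge x hx).1⟩
  have sS : ContDiffAt ℝ ∞ f.S (pj x) := st_cd cd _ _ p0
  have sT : ContDiffAt ℝ ∞ (ts4 f.z.M f.A f.B) (f.S (pj x)) :=
    ts_cd cd _ _ (p0.trans_eq (rd_st4 _ _ _ _).symm)
  have tT : Tendsto (ts4 f.z.M f.A f.B) (𝓝 (f.S (pj x))) (𝓝 (pj x)) :=
    sT.continuousAt.tendsto.mono_right (congrArg 𝓝 (ts_st _ _ _ _)).le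
  have cj : ∀ t : ℝ, ∀ᶠ y in 𝓝 (f.S (pj x)), sh f.A f.B (dn4 (f.ch v q) y) - t • eT =
      cjg f.z.M f.A f.B f.A f.B (fun y => bph f v y - t • eT) y := fun t =>
    (tT.eventually ev).mono fun y k => by
      have k' := k.1
      rw [Fx.S, st_ts] at k'
      rw [k', sh_ki, cjg, sh_id (by simp) (by simp), sub_eq_add_neg, sub_eq_add_neg, ← neg_smul,
        st4, sh_st]
  have cn := fun (t ν : ℝ) (j : Jb (n + 1) (fun y => bph f v y - t • eT - y) (pj x) ν)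
    (b : ν ≤ 2 * C1 * ε) => k3 (fun y => bph f v y - t • eT) (pj x) ν _ _ _ _
      (s.sub contDiffAt_const) j (b.trans a3.2.1) (by linarith [a3.2.2]) l (r ▸ u)
      ⟨o.nu.th, rfl, rfl⟩ (by simpa using j.nonneg)
  have sm : ∀ᶠ y in 𝓝 (f.S (pj x)), ContDiffAt ℝ ∞ (fun y => sh f.A f.B (dn4 (f.ch v q) y)) y :=
    mem_of_superset (cU.eqv.shadow.mem_nhds uU) fun _ ⟨y, hy, k⟩ => k ▸ at_comp (sh_cd (by
      rw [cU.eqv.pj_dn hy, rd_pj (cU.pos y hy) (cU.eqv.ne y hy)]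
      exact (cU.pos y hy).ne') o.nu.sA.contDiffAt o.nu.sB.contDiffAt) (cU.eqv.sm_dn hy)
  have N : Nid n (fun y => sh f.A f.B (dn4 (f.ch v q) y)) (f.S (pj x)) (C3 * (2 * C1 * ε)) := by
    have j0 : Jb (n + 1) (fun y => f.phi v y - y - ((f.phi v (pj x) - pj x).1, 0)) (pj x) ε :=
      .succ (by
        rw [Prod.norm_def, Prod.fst_sub, sub_self, norm_zero, Prod.snd_sub, sub_zero]
        exact max_le ε0 Z.nid.x) ((Z.nid.d.mono n.le_succ le_rfl).congr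
          ((ev_dif Z.nid.sm).mono fun y hy => by
            simp only [fderiv_sub_const, fderiv_fun_sub hy differentiableAt_fun_id, fderiv_fun_id]))
    have j := ((cn (f.phi v (pj x) - pj x).1 _ (((d.add j0 (s.sub Z.nid.sm)
      ((Z.nid.sm.sub contDiffAt_id).sub contDiffAt_const)).mono le_rfl
        (show _ ≤ 2 * C1 * ε by linarith [a4.1, a4.2.1])).congr (.of_forall fun y => by
          simp only [eT, Prod.smul_mk, smul_eq_mul, mul_one, smul_zero]; abel)) le_rfl).2).congr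
      ((cj _).mono fun y k => congrArg (· - y) k)
    refine ⟨sm, j.fd.congr ((ev_dif sm.self_of_nhds).mono fun y hy => ?_), ?_⟩
    · simp only [fderiv_fun_sub (hy.sub_const _) differentiableAt_fun_id, fderiv_sub_const,
        fderiv_fun_id]
    · simpa [eT, Fx.S] using (norm_snd_le _).trans j.zero
  refine ⟨?_, N.mono le_rfl ?_, (k4 _ _ (N.mono le_rfl ?_) (l.trans_eq (rd_st4 _ _ _ _).symm)
    ((rd_st4 _ _ _ _).trans_le (r ▸ u))).mono le_rfl (le_max_right _ _), fun ti => ?_⟩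
  · obtain ⟨W, L, hW⟩ := G.lv _ (ge x hx).2.1
    have sb : ContDiffAt ℝ ∞ (b4 (f.U v q) (f.ch v q)) (ki4 f.z.M (bph f v (pj x))) :=
      cU.dif_b4.sm _ ⟨_, ⟨_, ⟨x, hx, rfl⟩, rfl⟩, (cU.eqv.pj_dn ⟨x, hx, rfl⟩).symm.trans
        ((congrArg _ (ge x hx).1).trans e4)⟩
    have sb' := at_comp (e5.symm ▸ sT) sb
    have B := k2 (f.h v) (f.phi v) (bph f v) _ v.M v.a v.A v.B (pj x) (C1 * μ) t
      (hp.trans a4.2.2.2) l (r ▸ u) ⟨by positivity, by linarith [a4.1, a4.2.1, a3.1]⟩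
      (Sb.pull ⟨mem_of_superset (L.isOpen.mem_nhds hW) fun _ hy => met_bil L.met hy,
        fun a b => (L.met.smooth a b).contDiffAt (L.isOpen.mem_nhds hW)⟩ sS)
      (Z.nid.mono n.le_succ (m2.trans a4.2.2.2)) s d sb' (ev.mono fun y k => by
        rw [k.2, Fx.S, ts_st]) (bd_mono Z.bd le_rfl a4.2.2.1)
    have pe := pb_two (g := v.g) (w := b4 (f.U v q) (f.ch v q)) sb'
      (by rw [e5, Fx.S, ts_st]; exact sS) (.of_forall fun y => st_ts _ _ _ _)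
    rw [e3]
    intro i hi a b
    refine (Jb.congr (m := n) (fun i hi => B i hi a b) (pe.mono fun y k => ?_) i hi).trans
      (mul_le_mul_of_nonneg_right ?_ (by positivity))
    · exact congrArg (fun T : R4 → R4 → ℝ => T a b - kE v.M v.a v.A v.B y a b) k.symm
    · rw [← mul_assoc]
      exact mul_le_mul_of_nonneg_right ((mul_le_mul_of_nonneg_right (le_abs_self _)
        c0).trans (le_max_of_le_left (le_max_left _ _))) m0
  · rw [← mul_assoc]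
    exact mul_le_mul_of_nonneg_right (le_max_of_le_left (le_max_right _ _)) ε0
  · refine le_trans ?_ (a2.trans (min_le_right _ _))
    linarith
  · refine (((cn 0 _ (d.congr ((continuousAt_fst.eventually_lt_const (show (pj x).1 < f.ti from
      ti)).mono fun y hy => by simp only [zero_smul, sub_zero, phi_id hy.le]))
        (by linarith [a4.1, a4.2.1])).2.mono n.le_succ ?_).congr
      ((cj 0).mono fun y k => congrArg (· - y) (by rw [← k, zero_smul, sub_zero])))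
    rw [← mul_assoc]
    exact mul_le_mul_of_nonneg_right (le_max_of_le_left (le_max_of_le_right
      (mul_le_mul_of_nonneg_left (by linarith) c3))) m0

end Vale.Agent.P354XA
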