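import Vale.Agent.P354TS.Lift
import Vale.Agent.P354CV.Bas
import Vale.Agent.P354YI.Met

/-!
Families of maps whose derivatives have bounded jets; the maps sh and Kerr in the charts.
-/

set_option maxSynthPendingDepth 3

open scoped ContDiff
open Set Filter Topology

noncomputable section

namespace Vale.Agent.P354XA

open Vale.Agent.P354n (R4)
open Vale.Agent.P354XD (tb)
open Vale.Agent.P354XE
open Vale.Agent.P354YI
open Vale.Agent.P354YO
open Vale.Agent.P354Z (hs js)
open Vale.Agent.P354CV (hs_cd js_cd)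
open Vale.Agent.P354MG

section gen
variable {J E V W : Type} [NormedAddCommGroup E] [NormedSpace ℝ E] [NormedAddCommGroup V]
  [NormedSpace ℝ V] [NormedAddCommGroup W] [NormedSpace ℝ W]

/-- The maps are smooth, and the jets of order m of their derivatives are bounded. -/
structure Od (m : ℕ) (x : J → E) (f : J → E → V) : Prop where
  sm : ∀ j, ContDiffAt ℝ ∞ (f j) (x j)
  d : Oj m x (fun j => fderiv ℝ (f j)) 1

variable {m m' : ℕ} {x : J → E} {f g : J → E → V} {μ : J → ℝ}

theorem Od.le (h : Od m x f) (k : m' ≤ m) : Od m' x f := ⟨h.sm, h.d.le k⟩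

theorem od_of (h : Oj (m + 1) x f 1) : Od m x f := ⟨h.sm, h.fd⟩

theorem od_clm (L : E →L[ℝ] V) : Od m x fun _ y => L y :=
  ⟨fun _ => L.contDiff.contDiffAt, (Oj.cst L).congr' fun _ _ => L.fderiv⟩

theorem od_id : Od m x fun _ y => y := od_clm (.id ℝ E)

theorem od_const (v : J → V) : Od m x fun j _ => v j :=
  ⟨fun _ => contDiffAt_const, (Oj.cst 0).congr' fun _ _ => by simp⟩

theorem Od.congr (h : Od m x f) (e : ∀ j, g j =ᶠ[𝓝 (x j)] f j) : Od m x g :=
  ⟨fun j => (h.sm j).congr_of_eventuallyEq (e j), h.d.congr fun j => (e j).fderiv⟩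

theorem Od.oj {G : J → V → W} (h : Od m x f) (hG : Oj m (fun j => f j (x j)) G μ) :
    Oj m x (fun j y => G j (f j y)) μ := Oj.comp h.sm m (h.d.le (Nat.sub_le m 1)) hG

theorem Od.oj' {G : J → V → W} (h : Od m x f) (hG : Oj (m + 1) (fun j => f j (x j)) G μ) :
    Oj (m + 1) x (fun j y => G j (f j y)) μ := Oj.comp h.sm (m + 1) h.d hG

theorem Od.comp {G : J → V → W} (h : Od m x f) (hG : Od m (fun j => f j (x j)) G) :
    Od m x fun j y => G j (f j y) :=
  ⟨fun j => at_comp (hG.sm j) (h.sm j),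
    ((h.oj hG.d).cl h.d).congr fun j => fd_comp (hG.sm j) (h.sm j)⟩

theorem Od.clm (L : V →L[ℝ] W) (h : Od m x f) : Od m x fun j y => L (f j y) := h.comp (od_clm L)

theorem Od.add (h : Od m x f) (k : Od m x g) : Od m x fun j y => f j y + g j y :=
  ⟨fun j => (h.sm j).add (k.sm j), (h.d.add k.d).congr fun j => by
    filter_upwards [ev_dif (h.sm j), ev_dif (k.sm j)] with y a b using fderiv_fun_add a b⟩

theorem Od.sub (h : Od m x f) (k : Od m x g) : Od m x fun j y => f j y - g j y :=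
  (h.add (k.clm (-.id ℝ V))).congr fun _ => .of_forall fun _ => sub_eq_add_neg _ _

theorem Od.pair {g : J → E → W} (h : Od m x f) (k : Od m x g) :
    Od m x fun j y => (f j y, g j y) :=
  ((h.clm (.inl ℝ V W)).add (k.clm (.inr ℝ V W))).congr fun _ => .of_forall fun _ => by simp

/-- A bound of the values gives one more order. -/
theorem Od.succ (h : Od m x f) (b : ∃ C, ∀ j, ‖f j (x j)‖ ≤ C) : Oj (m + 1) x f 1 :=
  (Oj.zero h.sm h.d.nn (by simpa using b)).succ h.d

/-- A left inverse is a right inverse, and the jets of its derivative are bounded. -/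
theorem Od.inv {x : J → R4} {f b : J → R4 → R4} {C : ℝ} (h : Od m x f)
    (s : ∀ j, ContDiffAt ℝ ∞ (b j) (f j (x j))) (e : ∀ j, ∀ᶠ y in 𝓝 (x j), b j (f j y) = y)
    (l : ∀ j v, ‖v‖ ≤ C * ‖fderiv ℝ (f j) (x j) v‖) :
    (∀ j, ∀ᶠ z in 𝓝 (f j (x j)), f j (b j z) = z) ∧ Od m (fun j => f j (x j)) b := by
  have i : ∀ j, (fderiv ℝ (f j) (x j)).IsInvertible := fun j =>
    ⟨(LinearEquiv.ofInjectiveEndo (fderiv ℝ (f j) (x j) : R4 →ₗ[ℝ] R4)
      ((injective_iff_map_eq_zero _).2 fun v k => by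
        simpa [show fderiv ℝ (f j) (x j) v = 0 from k] using l j v)).toContinuousLinearEquiv,
      ContinuousLinearMap.ext fun _ => rfl⟩
  have p : ∀ j, map (f j) (𝓝 (x j)) = 𝓝 (f j (x j)) := fun j => by
    obtain ⟨A, hA⟩ := i j
    exact HasStrictFDerivAt.map_nhds_eq_of_equiv (f' := A)
      (hA ▸ (h.sm j).hasStrictFDerivAt (by simp))
  have e0 : (fun j => b j (f j (x j))) = x := funext fun j => (e j).self_of_nhds
  have k : ∀ j, fderiv ℝ (b j) =ᶠ[𝓝 (f j (x j))] fun z => (fderiv ℝ (f j) (b j z)).inverse :=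
    fun j => by
      rw [EventuallyEq, ← p j, eventually_map]
      filter_upwards [fd_comp (s j) (h.sm j), (e j).eventually_nhds,
        ev_inv (at_fd (h.sm j)).continuousAt (i j)] with z a b' c
      rw [EventuallyEq.fderiv_eq (show (fun y => b j (f j y)) =ᶠ[𝓝 z] id from b'), fderiv_id] at a
      rw [b'.self_of_nhds, ← ContinuousLinearMap.id_comp (fderiv ℝ (f j) z).inverse, a,
        ContinuousLinearMap.comp_assoc, c.self_comp_inverse, ContinuousLinearMap.comp_id]
  have v : ∀ j, ‖(fderiv ℝ (f j) (x j)).inverse‖ ≤ |C| := fun j =>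
    ContinuousLinearMap.opNorm_le_bound _ (abs_nonneg _) fun v => (l j _).trans (by
      rw [(i j).self_apply_inverse]
      exact mul_le_mul_of_nonneg_right (le_abs_self C) (norm_nonneg _))
  refine ⟨fun j => ?_, s, ?_⟩
  · rw [← p j, eventually_map]
    exact (e j).mono fun y hy => by rw [hy]
  have q : Oj m (fun j => b j (f j (x j))) (fun j y => (fderiv ℝ (f j) y).inverse) 1 :=
    e0.symm ▸ Oj.inv i ⟨_, v⟩ h.d
  clear h
  induction m with
  | zero =>
    exact .zero (fun j => at_fd (s j)) q.nn (q.val.imp fun _ c j => (k j).eq_of_nhds ▸ c.2 j)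
  | succ m ih => exact (Oj.comp s (m + 1) (ih q.pred) q).congr k

end gen

theorem low_half {A : R4 →L[ℝ] R4} (h : ‖A - ContinuousLinearMap.id ℝ R4‖ ≤ 1 / 2) (v : R4) :
    ‖v‖ ≤ 2 * ‖A v‖ := by
  have k := (A - ContinuousLinearMap.id ℝ R4).le_of_opNorm_le h v
  rw [sub_apply, ContinuousLinearMap.id_apply, norm_sub_rev] at k
  linarith [norm_sub_norm_le v (A v)]

section shell
variable {J : Type} {x : J → R4} {m : ℕ} {r1 R2 M0 a0 : ℝ} {F G : J → ℝ → ℝ} {M a : J → ℝ}

theorem od_nid {φ : J → R4 → R4} {e : J → ℝ} (h : ∀ j, Nid m (φ j) (x j) (e j))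
    (l : ∀ j, e j ≤ 1) : Od m x φ :=
  ⟨fun j => (h j).sm, ((Oj.of1 (fun j => (at_fd (h j).sm).sub contDiffAt_const)
    fun j => (h j).d.mono le_rfl (l j)).add (.cst (ContinuousLinearMap.id ℝ R4))).congr'
      fun _ _ => (sub_add_cancel _ _).symm⟩

variable (h1 : 0 < r1) (hx : ∀ j, r1 ≤ rd (x j) ∧ rd (x j) ≤ R2)
include h1 hx

theorem oj_rd : Oj m x (fun _ => rd) 1 := oj_st (F := rd) h1 hx fun _ hy => rd_cd hy.ne'

theorem oj_sp : Oj m x (fun _ y => y.2) 1 :=
  (oj_st (F := id) h1 hx fun _ _ => contDiffAt_id).clm (.snd ℝ ℝ _)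

theorem od_sh (hF : Od m (fun j => rd (x j)) F) (hG : Od m (fun j => rd (x j)) G) :
    Od m x fun j => sh (F j) (G j) := by
  have r : Od m x fun _ => rd := od_of (oj_rd h1 hx)
  have g := r.comp hG
  have c := g.oj' (G := fun _ => Real.cos) (.of1 (fun _ => Real.contDiff_cos.contDiffAt)
    fun _ k _ => by
      rw [norm_iteratedFDeriv_eq_norm_iteratedDeriv]; exact Real.abs_iteratedDeriv_cos_le_one _ _)
  have s := g.oj' (G := fun _ => Real.sin) (.of1 (fun _ => Real.contDiff_sin.contDiffAt)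
    fun _ k _ => by
      rw [norm_iteratedFDeriv_eq_norm_iteratedDeriv]; exact Real.abs_iteratedDeriv_sin_le_one _ _)
  have y := oj_sp (m := m + 1) h1 hx
  have y1 := y.clm (.fst ℝ ℝ _)
  have y2 := (y.clm (.snd ℝ ℝ _)).clm (.fst ℝ ℝ _)
  have y3 := (y.clm (.snd ℝ ℝ _)).clm (.snd ℝ ℝ _)
  exact ((od_clm (.fst ℝ ℝ _)).add (r.comp hF)).pair (od_of
    (((c.smull y1).sub (s.smull y2)).pair (((s.smull y1).add (c.smull y2)).pair y3)))

theorem od_q (c : ℝ) : Od m (fun j => rd (x j)) fun _ r => c / r :=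
  od_of (Oj.fix (isCompact_Icc (a := r1) (b := R2))
    (fun _ hy => contDiffAt_const.div contDiffAt_id (h1.trans_le hy.1).ne') hx)

theorem od_ki : Od m x fun _ => ki4 M0 :=
  od_sh h1 hx ((od_q h1 hx (4 * M0 ^ 2)).clm (-.id ℝ ℝ)) (od_const fun _ => 0)

theorem od_ko : Od m x fun _ => ko4 M0 := od_sh h1 hx (od_q h1 hx _) (od_const fun _ => 0)

variable (hp : ∀ j, |M j - M0| + |a j - a0| ≤ 1)
include hp

theorem oj_gin : Oj m x (fun j => tb (gin (M j) (a j))) 1 :=
  ((od_const M).pair ((od_const a).pair od_id)).oj ((os_gin M0 a0 h1 R2 m).at id fun j => by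
    have k := hp j
    have k1 := abs_le.1 ((le_add_of_nonneg_right (abs_nonneg _)).trans k)
    have k2 := abs_le.1 ((le_add_of_nonneg_left (abs_nonneg _)).trans k)
    exact ⟨⟨by linarith, by linarith⟩, ⟨by linarith, by linarith⟩, hx j⟩)

theorem oj_psh (hF : Od m (fun j => rd (x j)) F) (hG : Od m (fun j => rd (x j)) G) :
    (∀ j, Sb (pb (sh (F j) (G j)) (gin (M j) (a j))) (x j)) ∧
      Oj m x (fun j => tb (pb (sh (F j) (G j)) (gin (M j) (a j)))) 1 := by
  have d := od_sh h1 hx hF hG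
  have s := fun j => sb_gin (M := M j) (a := a j) (p := sh (F j) (G j) (x j))
    (by rw [rd_sh]; exact h1.trans_le (hx j).1)
  exact ⟨fun j => (s j).pull (d.sm j), oj_pb d.sm d.d s
    (oj_gin h1 (fun j => by rw [rd_sh]; exact hx j) hp)⟩

variable (h0 : 0 < M0) (t : ∀ j, IsTh M0 (M j) (a j) (F j) (G j))
include h0 t

omit h1 in
theorem od_th : Od m (fun j => rd (x j)) F ∧ Od m (fun j => rd (x j)) G := by
  have k : ∀ {u : ℝ × ℝ × ℝ → ℝ} {f : J → ℝ → ℝ}, ContDiff ℝ ∞ u →
      (∀ j r, HasDerivAt (f j) (u (M j, a j, r)) r) → Od m (fun j => rd (x j)) f := by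
    intro u f hu hf
    have o := (((od_const M).pair ((od_const a).pair od_id)).oj (x := fun j => rd (x j)) (m := m)
      (Oj.fix ((isCompact_Icc (a := M0 - 1) (b := M0 + 1)).prod ((isCompact_Icc (a := a0 - 1)
        (b := a0 + 1)).prod (isCompact_Icc (a := r1) (b := R2)))) (fun _ _ => hu.contDiffAt)
        fun j => by
          have k := hp j
          have k1 := abs_le.1 ((le_add_of_nonneg_right (abs_nonneg _)).trans k)
          have k2 := abs_le.1 ((le_add_of_nonneg_left (abs_nonneg _)).trans k)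
          exact ⟨⟨by linarith, by linarith⟩, ⟨by linarith, by linarith⟩, hx j⟩)).smull
      (Oj.cst (ContinuousLinearMap.id ℝ ℝ))
    refine ⟨fun j => (contDiff_infty_iff_deriv.2 ⟨fun r => (hf j r).differentiableAt, ?_⟩).contDiffAt,
      o.congr' fun j r => (hf j r).hasFDerivAt.fderiv.trans (by ext; simp)⟩
    rw [show deriv (f j) = _ from funext fun r => (hf j r).deriv]
    exact hu.comp (by fun_prop)
  exact ⟨k ((hs_cd h0).sub contDiff_const) fun j r => (t j r).1,
    k (contDiff_const.mul (js_cd h0)) fun j r => (t j r).2⟩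

theorem od_st : Od m x fun j => st4 M0 (F j) (G j) :=
  od_sh h1 hx ((od_th hx hp h0 t).1.sub (od_q h1 hx _)) (od_th hx hp h0 t).2

/-- Kerr in the straight chart and in the chart of the estimates. -/
theorem oj_kS : (∀ j, Sb (kS M0 (M j) (a j) (F j) (G j)) (x j)) ∧
    Oj m x (fun j => tb (kS M0 (M j) (a j) (F j) (G j))) 1 :=
  oj_psh h1 hx hp ((od_th hx hp h0 t).1.sub (od_q h1 hx _)) (od_th hx hp h0 t).2

theorem oj_kE : (∀ j, Sb (kE (M j) (a j) (F j) (G j)) (x j)) ∧
    Oj m x (fun j => tb (kE (M j) (a j) (F j) (G j))) 1 :=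
  oj_psh h1 hx hp (od_th hx hp h0 t).1 (od_th hx hp h0 t).2

end shell

theorem ko_ki (M : ℝ) (p : R4) : ko4 M (ki4 M p) = p := by
  rw [ko4, ki4, sh_sh]; exact sh_id (by simp) (by simp)

theorem ki_ko (M : ℝ) (p : R4) : ki4 M (ko4 M p) = p := by
  rw [ko4, ki4, sh_sh]; exact sh_id (by simp) (by simp)

theorem st_ko (M : ℝ) (A B : ℝ → ℝ) (p : R4) : st4 M A B (ko4 M p) = sh A B p := by
  rw [st4, ko4, sh_sh, add_zero]
  exact congrArg (sh · B p) (funext fun r => sub_add_cancel _ _)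

end Vale.Agent.P354XA
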