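import Vale.Agent.P354XA.Od
import Vale.Agent.P354EF.ShK

/-!
Integration of jets along the rays, and the estimate for the affine continuation of a map.
-/

set_option maxSynthPendingDepth 3

open scoped ContDiff
open Set Filter Topology

noncomputable section

namespace Vale.Agent.P354XA

open Vale.Agent.P354n (R4)
open Vale.Agent.P354XE
open Vale.Agent.P354YI
open Vale.Agent.P354YO
open Vale.Agent.P354TS (rd_near)
open Vale.Agent.P354EF (er_cd rd_ray er_ray ray_self ray_d er_er dr_er Sr sr_rd)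
open Vale.Agent.P354MG

variable {p : R4} {s t R ρ : ℝ}

theorem ray_eq (s : ℝ) (y : R4) : ray s y = (y.1, 0) + s • er4 y := by
  simp [ray, er4, smul_smul, div_eq_mul_inv]

theorem ray_ray (h : 0 < rd p) (hs : 0 < s) : ray t (ray s p) = ray t p := by
  rw [ray_eq, er_ray h hs, ray_eq t]; rfl

theorem ray_add (h : 0 < rd p) (l : ℝ) : ray (rd p + l) p = p + l • er4 p := by
  rw [ray_eq, add_smul, ← add_assoc, ← ray_eq, ray_self h]

theorem ray_cd {E : Type} [NormedAddCommGroup E] [NormedSpace ℝ E] {u : E → ℝ} {y : E → R4} {z : E}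
    (hu : ContDiffAt ℝ ∞ u z) (hy : ContDiffAt ℝ ∞ y z) (h : 0 < rd (y z)) :
    ContDiffAt ℝ ∞ (fun z => ray (u z) (y z)) z := by
  simp only [ray_eq]
  exact (hy.fst.prodMk contDiffAt_const).add (hu.smul (at_comp (er_cd h) hy))

theorem ray_cd' (h : 0 < rd p) : ContDiffAt ℝ ∞ (ray s) p :=
  ray_cd contDiffAt_const contDiffAt_id h

theorem ray_er (h : 0 < rd p) : fderiv ℝ (ray s) p (er4 p) = 0 := by
  have a := ((ray_cd' (s := s) h).differentiableAt (by simp)).hasFDerivAt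
  rw [← ray_self h] at a
  have b := a.comp_hasDerivAt (rd p) (ray_d p (rd p))
  rw [ray_self h] at b
  exact b.unique ((hasDerivAt_const _ (ray s p)).congr_of_eventuallyEq
    ((lt_mem_nhds h).mono fun s hs => ray_ray h hs))

theorem sr_sub {q y : R4} (h : 0 < R) (hy : y ∈ Sr R q) : Sr R y ⊆ Sr R q ∧ ray R y = ray R q := by
  have r := sr_rd h hy
  have q0 := h.trans_le (r.1.trans r.2)
  obtain ⟨s, hs, rfl⟩ := hy
  refine ⟨?_, ray_ray q0 (h.trans_le hs.1)⟩
  rintro _ ⟨u, hu, rfl⟩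
  exact ⟨u, ⟨hu.1, hu.2.trans r.2⟩, (ray_ray q0 (h.trans_le hs.1)).symm⟩

theorem sr_mem {q : R4} (h : 0 < R) (l : R ≤ rd q) : q ∈ Sr R q ∧ ray R q ∈ Sr R q :=
  ⟨⟨_, ⟨l, le_rfl⟩, ray_self (h.trans_le l)⟩, ⟨_, ⟨le_rfl, l⟩, rfl⟩⟩

theorem ev_rd (h : 0 < rd p) : ∀ᶠ y in 𝓝 p, 0 < rd y :=
  continuousAt_const.eventually_lt rd_cont.continuousAt h

section family
variable {J : Type} {q : J → R4} {μ : J → ℝ} {n : ℕ} (h : 0 < R)
  (hq : ∀ j, R ≤ rd (q j) ∧ rd (q j) ≤ ρ)
include h hq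

theorem oj_er : Oj n q (fun _ => er4) 1 := oj_st (F := er4) h hq fun _ => er_cd

theorem od_ray {u : J → R4 → ℝ} (hu : Oj (n + 1) q u 1) : Od n q fun j y => ray (u j y) y :=
  (((od_clm (.fst ℝ ℝ _)).pair (od_const fun _ => 0)).add (od_of (hu.smull (oj_er h hq)))).congr
    fun _ => .of_forall fun _ => ray_eq _ _

/-- Integration along the rays. -/
theorem oj_int {V : Type} [NormedAddCommGroup V] [NormedSpace ℝ V] {W f : J → R4 → V}
    (hW : ∀ j, ∀ y ∈ Sr R (q j), ∀ᶠ x in 𝓝 y, ContDiffAt ℝ ∞ (W j) x ∧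
      fderiv ℝ (W j) x (er4 x) = f j x) (hf : Os n (fun j => Sr R (q j)) f μ) :
    Oj n q (fun j y => W j y - W j (ray R y)) μ := by
  let m : ℝ × R4 → R4 := fun z => ray (R + z.1 * (rd z.2 - R)) z.2
  have q0 := fun j => h.trans_le (hq j).1
  have mem : ∀ j, ∀ t ∈ Icc (0 : ℝ) 1, m (t, q j) ∈ Sr R (q j) := fun j t ht =>
    ⟨R + t * (rd (q j) - R), ⟨by nlinarith [ht.1, (hq j).1], by nlinarith [ht.2, (hq j).1]⟩, rfl⟩
  have r : Oj (n + 1) (fun i : J × Icc (0 : ℝ) 1 => q i.1) (fun _ y => rd y - R) 1 :=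
    (oj_rd (x := fun i : J × Icc (0 : ℝ) 1 => q i.1) h fun i => hq i.1).sub (.cst R)
  have u : Oj (n + 1) (fun i : J × Icc (0 : ℝ) 1 => q i.1) (fun i y => R + i.2.1 * (rd y - R)) 1 :=
    (Oj.cst R).add ((Oj.const (v := fun i : J × Icc (0 : ℝ) 1 => i.2.1) r.nn ⟨1, fun i => by
      simpa [abs_of_nonneg i.2.2.1] using i.2.2.2⟩).smull r)
  have o1 : Od n (fun i : J × Icc (0 : ℝ) 1 => q i.1) fun i y => m (i.2, y) :=
    od_ray (q := fun i : J × Icc (0 : ℝ) 1 => q i.1) h (fun i => hq i.1) u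
  have o := o1.oj (hf.at Prod.fst fun i => mem i.1 i.2 i.2.2)
  obtain ⟨C, c0, hC⟩ := (r.pred.smulr o).bd
  have sm : ∀ z : ℝ × R4, 0 < rd z.2 → ContDiffAt ℝ ∞ m z := fun z hz => ray_cd (contDiffAt_const.add
    (contDiffAt_fst.mul ((at_comp (rd_cd hz.ne') contDiffAt_snd).sub contDiffAt_const)))
    contDiffAt_snd hz
  have S : ∀ j, ∀ t ∈ Icc (0 : ℝ) 1, ∀ᶠ z in 𝓝 (t, q j), ContDiffAt ℝ ∞ (fun z => W j (m z)) z ∧
      fderiv ℝ (fun z => W j (m z)) z (1, 0) = (rd z.2 - R) • f j (m z) := fun j t ht => by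
    have c := (sm (t, q j) (q0 j)).continuousAt
    filter_upwards [c.eventually (hW j _ (mem j t ht)), continuousAt_snd.eventually (ev_rd (q0 j)),
      (show ContinuousAt (fun z : ℝ × R4 => R + z.1 * (rd z.2 - R)) (t, q j) from
        continuousAt_const.add (continuousAt_fst.mul ((rd_cont.comp continuous_snd).continuousAt.sub
          continuousAt_const))).eventually (lt_mem_nhds (show 0 < R + t * (rd (q j) - R) by
            nlinarith [ht.1, (hq j).1]))] with z k1 k2 k3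
    have k4 := at_comp k1.1 (sm z k2)
    refine ⟨k4, ((k4.differentiableAt (by simp)).hasFDerivAt.comp_hasDerivAt z.1
      ((hasDerivAt_id z.1).prodMk (hasDerivAt_const z.1 z.2))).unique ?_⟩
    have k5 := (k1.1.differentiableAt (by simp)).hasFDerivAt.comp_hasDerivAt z.1
      ((ray_d z.2 _).scomp z.1 (((hasDerivAt_id z.1).mul_const (rd z.2 - R)).const_add R))
    rwa [map_smul, one_mul, ← er_ray k2 k3, k1.2] at k5
  have s : ∀ j, ∀ t ∈ Icc (0 : ℝ) 1, ContDiffAt ℝ ∞ (fun y => W j (m (t, y))) (q j) := fun j t ht =>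
    at_comp (f := fun y => (t, y)) (S j t ht).self_of_nhds.1 (contDiffAt_const.prodMk contDiffAt_id)
  have i1 : (1 : ℝ) ∈ Icc (0 : ℝ) 1 := ⟨zero_le_one, le_rfl⟩
  have o0 : (0 : ℝ) ∈ Icc (0 : ℝ) 1 := ⟨le_rfl, zero_le_one⟩
  refine Oj.congr (f := fun j y => W j (m (1, y)) - W j (m (0, y))) ⟨fun j => (s j 1 i1).sub
    (s j 0 o0), (hf.at id fun j => mem j 0 o0).nn, C, c0, fun j i hi => ?_⟩ fun j =>
    (ev_rd (q0 j)).mono fun y hy => by simp [m, ray_self hy]
  rw [fun_iteratedFDeriv_sub_apply ((s j 1 i1).of_le (le_inf i)) ((s j 0 o0).of_le (le_inf i))]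
  refine norm_image_sub_le_of_norm_deriv_le_segment_01' (fun t ht => (P354YQ.hasDerivAt_jet i V
    (fun z => W j (m z)) t (q j) ((S j t ht).mono fun _ k => k.1)).hasDerivWithinAt) fun t ht => ?_
  have ht' := Ico_subset_Icc_self ht
  exact (hC (j, ⟨t, ht'⟩)).congr (((show ContinuousAt (fun y => (t, y)) (q j) by
    fun_prop).eventually (S j t ht')).mono fun y k => k.2) i hi

/-- The affine continuation along the image of the ray is close to the map. -/
theorem oj_aff {φ : J → R4 → R4} {k : J → ℝ} (hk : ∀ j, |k j| ≤ 2)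
    (hφ : ∀ j, ∀ y ∈ Sr R (q j), Nid n (φ j) y (min 1 (R / 4)) ∧
      Jb n (dfc (φ j) (k j)) y (μ j)) :
    Oj n q (fun j y => er4 (φ j (ray R y))) 1 ∧ Oj n q (fun j y => φ j y - (φ j (ray R y) +
      (k j * (rd y - R)) • er4 (φ j (ray R y)))) μ := by
  let I := {i : J × R4 // i.2 ∈ Sr R (q i.1)}
  have h2 := half_pos h
  have r : ∀ i : I, R ≤ rd i.1.2 ∧ rd i.1.2 ≤ ρ := fun i =>
    (sr_rd h i.2).imp_right fun u => u.trans (hq _).2
  have r' : ∀ i : I, R / 2 ≤ rd (φ i.1.1 i.1.2) ∧ rd (φ i.1.1 i.1.2) ≤ ρ + 2 := fun i => by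
    have := abs_le.1 (rd_near (hφ _ _ i.2).1.x)
    have := min_le_left 1 (R / 4)
    have := min_le_right 1 (R / 4)
    exact ⟨by linarith [(r i).1], by linarith [(r i).2]⟩
  have d : Od n (fun i : I => i.1.2) fun i => φ i.1.1 :=
    od_nid (fun i => (hφ _ _ i.2).1) fun _ => min_le_left _ _
  have ev : ∀ j, ∀ y ∈ Sr R (q j), ∀ᶠ x in 𝓝 y, ContDiffAt ℝ ∞ (φ j) x ∧ 0 < rd (φ j x) :=
    fun j y hy => (hφ j y hy).1.ev.and ((hφ j y hy).1.sm.continuousAt.eventually
      (ev_rd (h2.trans_le (r' ⟨(j, y), hy⟩).1)))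
  have f : Os n (fun j => Sr R (q j)) (fun j => dfc (φ j) (k j)) μ := .of (fun j y hy =>
    ((at_fd (hφ j y hy).1.sm).clm_apply (er_cd (h.trans_le (sr_rd h hy).1))).sub
      ((at_comp (er_cd (ev j y hy).self_of_nhds.2) (hφ j y hy).1.sm).const_smul (k j)))
    fun j y hy => (hφ j y hy).2
  have e1 : Os n (fun j => Sr R (q j)) (fun j x => fderiv ℝ er4 (φ j x) (dfc (φ j) (k j) x)) μ :=
    (d.oj (oj_er (n := n + 1) h2 r').fd).apr f
  have e2 : Os n (fun j => Sr R (q j)) (fun j x => er4 (φ j x) - er4 (φ j (ray R x))) μ :=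
    oj_int h r (W := fun i x => er4 (φ i.1.1 x))
      (f := fun i x => fderiv ℝ er4 (φ i.1.1 x) (dfc (φ i.1.1) (k i.1.1) x)) (fun i y hy => by
      filter_upwards [ev _ y ((sr_sub h i.2).1 hy)] with x u
      refine ⟨at_comp (er_cd u.2) u.1, ?_⟩
      rw [(fd_comp (er_cd u.2) u.1).eq_of_nhds, ContinuousLinearMap.comp_apply, dfc, map_sub,
        map_smul, er_er u.2, smul_zero, sub_zero])
      (e1.at (fun i : {i : I × R4 // i.2 ∈ Sr R i.1.1.2} => i.1.1.1.1)
        fun i => (sr_sub h i.1.1.2).1 i.2)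
  have kk : Os n (fun j => Sr R (q j)) (fun j _ => k j) 1 :=
    Oj.const (fun _ => zero_le_one) ⟨2, fun i => by simpa using hk i.1.1⟩
  have m := fun j => sr_mem h (hq j).1
  have e3 : Os n (fun j => Sr R (q j)) (fun j x => er4 (φ j x)) 1 := d.oj (oj_er h2 r')
  refine ⟨(od_ray h hq (.cst R)).oj (e3.at id fun j => (m j).2), (oj_int h hq
      (W := fun j x => φ j x - (k j * rd x) • er4 (φ j (ray R x))) (fun j y hy => ?_)
      (f := fun j x => dfc (φ j) (k j) x + k j • (er4 (φ j x) - er4 (φ j (ray R x))))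
      (f.add (kk.smulr e2))).congr fun j =>
        (ev_rd (h.trans_le (hq j).1)).mono fun y hy => ?_⟩
  · have y0 := h.trans_le (sr_rd h hy).1
    filter_upwards [ev j y hy, ev_rd y0, (ray_cd' (s := R) y0).continuousAt.eventually
      ((sr_sub h hy).2.symm ▸ ev j _ (m j).2)] with x u x0 u'
    have a := at_comp (er_cd u'.2) u'.1
    have b := at_comp a (ray_cd' x0)
    have c : ContDiffAt ℝ ∞ (fun x => k j * rd x) x := contDiffAt_const.mul (rd_cd x0.ne')
    have c' : ContDiffAt ℝ ∞ (fun x => (k j * rd x) • er4 (φ j (ray R x))) x := c.smul b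
    refine ⟨u.1.sub c', ?_⟩
    rw [fderiv_fun_sub (u.1.differentiableAt (by simp)) (c'.differentiableAt (by simp)),
      fderiv_fun_smul (c.differentiableAt (by simp)) (b.differentiableAt (by simp)),
      (fd_comp a (ray_cd' x0)).eq_of_nhds, fderiv_const_mul ((rd_cd (n := 1) x0.ne'
        ).differentiableAt one_ne_zero)]
    simp only [sub_apply, add_apply, smul_apply, ContinuousLinearMap.comp_apply, ray_er x0,
      map_zero, smul_zero, zero_add, ContinuousLinearMap.smulRight_apply, rd_fd x0.ne',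
      dr_er x0.ne', smul_eq_mul, mul_one, dfc]
    module
  · simp only [ray_ray hy h, rd_ray hy h.le]
    module

end family

end Vale.Agent.P354XA
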