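import Vale.Agent.P354XA.Xi3

/-!
Dilations of metrics and of data, and the geodesic gauge.
-/

set_option linter.unusedSectionVars false

open scoped ContDiff
open Set Filter Topology

noncomputable section

namespace Vale.Agent.P354XA

open Vale.Agent.P354n (R4 Riem)
open Vale.Agent.P354I (X Dat pd ee)
open Vale.Agent.P354R (chr)
open Vale.Agent.P354XE
open Vale.Agent.P354XV (Lv In0 CnAt Gq)
open Vale.Agent.P354YI (Jb Gd)

variable {ρ : ℝ} {c p : R4} {g : Tw} {D : Set R4} {d : Dat} {y : X}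

theorem iter_sc {E V : Type} [NormedAddCommGroup E] [NormedSpace ℝ E] [NormedAddCommGroup V]
    [NormedSpace ℝ V] (f : E → V) (ρ : ℝ) (c : E) (k : ℕ) :
    iteratedFDeriv ℝ k (fun z => f (ρ • z + c)) =
      fun x => ρ ^ k • iteratedFDeriv ℝ k f (ρ • x + c) := by
  induction k with
  | zero => ext; simp
  | succ k ih =>
    ext x m
    have e := fderiv_const_smul_field (𝕜 := ℝ) (f := fun x => iteratedFDeriv ℝ k f (ρ • x + c))
      (ρ ^ k)
    rw [iteratedFDeriv_succ_apply_left, ih, smul_apply,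
      iteratedFDeriv_succ_apply_left]
    erw [e]
    rw [Pi.smul_apply, fderiv_comp_smul (f := fun x => iteratedFDeriv ℝ k f (x + c)),
      fderiv_comp_add_right, smul_smul, ← pow_succ]
    rfl

theorem der_sc (F : R4 → ℝ) (t : ℝ) (a : R4) :
    P354n.deriv (fun z => t * F (ρ • z + c)) p a = t * ρ * P354n.deriv F (ρ • p + c) a := by
  rw [mul_assoc, P354n.deriv, P354n.deriv, ← smul_eq_mul ρ, ← lineDeriv_smul, lineDeriv, lineDeriv,
    deriv_const_mul_field]
  simp only [smul_add, smul_comm ρ _ a, add_right_comm]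

theorem der_sc' (g : Tw) (u v a : R4) : P354n.deriv (fun z => g (ρ • z + c) u v) p a =
    ρ * P354n.deriv (fun z => g z u v) (ρ • p + c) a := by
  simpa only [one_mul] using der_sc (fun z => g z u v) 1 a

theorem chr_sc (g : Tw) (u v w : R4) :
    chr (fun z => g (ρ • z + c)) p u v w = ρ * chr g (ρ • p + c) u v w := by
  simp only [chr, der_sc']
  ring

/-- A dilation of a vacuum metric is a vacuum metric. -/
theorem lv_sc (l : Lv g D) : Lv (fun z => g (ρ • z + c)) {z | ρ • z + c ∈ D} := by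
  have o : IsOpen {z | ρ • z + c ∈ D} := l.isOpen.preimage (by fun_prop)
  have s : ∀ z ∈ D, ∀ u v, g z (ρ • u) v = ρ * g z u v := fun z hz u v => by
    rw [l.met.symm z hz, (l.met.lin z hz v).map_smul, l.met.symm z hz, smul_eq_mul]
  refine ⟨o, ⟨fun _ h => l.met.lin _ h, fun _ h => l.met.symm _ h, fun _ h => l.met.nondeg _ h,
    fun a b => (l.met.smooth a b).comp (by fun_prop) fun _ h => h⟩, ?_, fun _ h => l.sig _ h⟩
  obtain ⟨G, hG⟩ := l.vac
  refine ⟨fun z a b => ρ • G (ρ • z + c) a b, fun p hp => ?_⟩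
  obtain ⟨k, E, E', e1, e2⟩ := hG _ hp
  refine ⟨fun a b u => ?_, E, E', e1, fun u v => ?_⟩
  · simp only [s _ hp, der_sc']
    linear_combination ρ * k a b u
  · have t : ∀ a b u v, P354n.deriv (fun z => g (ρ • z + c) (ρ • G (ρ • z + c) b u) v) p a =
        ρ * ρ * P354n.deriv (fun z => g z (G z b u) v) (ρ • p + c) a := fun a b u v => by
      rw [← der_sc]
      exact EventuallyEq.lineDeriv_eq (mem_of_superset (o.mem_nhds hp) fun z hz => s _ hz _ _)
    simp only [Riem, t, s _ hp, (l.met.lin _ hp _).map_smul, smul_eq_mul]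
    rw [← mul_zero (ρ * ρ), ← e2 u v, Finset.mul_sum]
    exact Finset.sum_congr rfl fun i _ => by simp only [Riem]; ring

/-- The dilation of data. -/
def scd (ρ : ℝ) (d : Dat) : Dat := ⟨fun y => d.h (ρ • y), fun y => ρ • d.K (ρ • y)⟩

theorem scd_scd (h : ρ ≠ 0) : scd ρ⁻¹ (scd ρ d) = d := by
  simp only [scd, smul_inv_smul₀ h, inv_smul_smul₀ h]

theorem pt_sc (ρ : ℝ) (y : X) : pt 0 (ρ • y) = ρ • pt 0 y := by simp [pt]

theorem in0_sc (I : In0 g d (ρ • y)) : In0 (fun z => g (ρ • z)) (scd ρ d) y := by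
  obtain ⟨n, a, b, k⟩ := I
  rw [pt_sc] at a k
  refine ⟨n, a, b, fun i j => ⟨(k i j).1, (k i j).2.1, ?_⟩⟩
  have := chr_sc (ρ := ρ) (c := 0) (p := pt 0 y) g (pt 0 (ee i)) (pt 0 (ee j)) n
  simp only [add_zero] at this
  rw [this, ← mul_neg, (k i j).2.2]
  rfl

theorem pd_sc (f : X → ℝ) (t : ℝ) (i : Fin 3) :
    pd i (fun z => t * f (ρ • z)) y = t * ρ * pd i f (ρ • y) := by
  have e := fderiv_const_smul_field (𝕜 := ℝ) (f := fun x => f (ρ • x)) t
  rw [pd]
  erw [e]
  rw [Pi.smul_apply, fderiv_comp_smul, smul_smul]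
  rfl

theorem cn_sc (h : CnAt d (ρ • y)) : CnAt (scd ρ d) y := by
  have e : ∀ a b i y, pd i (fun z => d.h (ρ • z) a b) y = ρ * pd i (fun z => d.h z a b) (ρ • y) :=
    fun a b i y => by simpa only [one_mul] using pd_sc (fun z => d.h z a b) 1 i
  have e' : ∀ a b i, pd i (fun z => ρ * d.K (ρ • z) a b) y =
      ρ * ρ * pd i (fun z => d.K z a b) (ρ • y) := fun a b => pd_sc (fun z => d.K z a b) ρ
  have c : ∀ k i j, (scd ρ d).chr k i j = fun y => ρ * d.chr k i j (ρ • y) := fun k i j =>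
    funext fun y => by
      simp only [Dat.chr, scd, e, Finset.mul_sum]
      exact Finset.sum_congr rfl fun _ _ => by ring
  have t : (scd ρ d).trK = fun y => ρ * d.trK (ρ • y) := funext fun y => by
    simp only [Dat.trK, scd, Finset.mul_sum, Matrix.smul_apply, smul_eq_mul, mul_left_comm]
  have r : ∀ i j, (scd ρ d).ric i j y = ρ * ρ * d.ric i j (ρ • y) := fun i j => by
    simp only [Dat.ric, c, pd_sc, Finset.mul_sum, mul_add, mul_sub]
    exact Finset.sum_congr rfl fun _ _ => congrArg _ (Finset.sum_congr rfl fun _ _ => by ring)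
  refine ⟨?_, fun j => ?_⟩
  · have s : (scd ρ d).scal y = ρ * ρ * d.scal (ρ • y) := by
      simp only [Dat.scal, r, Finset.mul_sum]
      exact Finset.sum_congr rfl fun _ _ => Finset.sum_congr rfl fun _ _ => mul_left_comm _ _ _
    have q : (scd ρ d).sqK y = ρ * ρ * d.sqK (ρ • y) := by
      simp only [Dat.sqK, scd, Finset.mul_sum, Matrix.smul_apply, smul_eq_mul]
      iterate 4 refine Finset.sum_congr rfl fun _ _ => ?_
      ring
    rw [s, q, t]
    linear_combination ρ * ρ * h.1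
  · have s : (scd ρ d).divK j y = ρ * ρ * d.divK j (ρ • y) := by
      simp only [Dat.divK, c]
      simp only [scd, Matrix.smul_apply, smul_eq_mul, e', Finset.mul_sum, mul_sub]
      iterate 2 refine Finset.sum_congr rfl fun _ _ => ?_
      exact congrArg₂ _ (by ring) (Finset.sum_congr rfl fun _ _ => by ring)
    rw [s, t, pd_sc]
    linear_combination ρ * ρ * h.2 j

theorem gd_sc (h : Gd d (ρ • y)) : Gd (scd ρ d) y :=
  ⟨fun i j => ⟨(h.sm i j).1.comp y (f := fun z : X => ρ • z) (by fun_prop), contDiffAt_const.mul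
      ((h.sm i j).2.comp y (f := fun z : X => ρ • z) (by fun_prop))⟩,
    ⟨h.sy.1, h.sy.2.smul ρ⟩, cn_sc h.cn⟩

/-- The geodesic equation after a dilation. -/
theorem geo_sc {Y : R4 → R4} (u : R4) :
    g (ρ • p + c) (fderiv ℝ (fun z => Y (ρ • z + c)) p (Y (ρ • p + c))) u +
      chr (fun z => g (ρ • z + c)) p (Y (ρ • p + c)) (Y (ρ • p + c)) u =
    g (ρ • p + c) (ρ • fderiv ℝ Y (ρ • p + c) (Y (ρ • p + c))) u +
      ρ * chr g (ρ • p + c) (Y (ρ • p + c)) (Y (ρ • p + c)) u := by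
  rw [chr_sc, fderiv_comp_smul (f := fun z => Y (z + c)), fderiv_comp_add_right]
  rfl

/-- The geodesic gauge. -/
def N0 : P354XV.Nat := ⟨0, univ, univ, fun _ => 0⟩

theorem N0_is : N0.Is :=
  ⟨isOpen_univ, subset_rfl, fun _ _ _ => trivial, contDiffOn_const, fun _ _ _ _ _ _ _ _ _ _ _ _ =>
    ⟨Iff.rfl, Iff.rfl, fun _ => map_zero _⟩⟩

theorem gq_N0 (q : R4) : Gq N0 q g (fun _ => (1 : ℝ) • eT) p ↔
    ∀ u, chr g p eT eT u = 0 := by
  simp only [Gq, N0, one_smul, fderiv_fun_const, Pi.zero_apply, zero_apply, add_eq_left]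
  exact and_iff_right trivial

end Vale.Agent.P354XA
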