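import Vale.Agent.P354V.Main

/-!
Piece ACC: the lemmas in coordinates.
-/

open scoped ContDiff
open Set Filter Topology Metric

namespace Vale.Agent.P354XA

open Vale.Agent.P354p (R4)
open Vale.Agent.P354 (NearM Tv cone norm_Tv)

/-- The narrow future cone. -/
def Co : Set R4 := {v | ‖v.2‖ ≤ 1 / 4 * v.1 ∧ 0 < v.1}

theorem Co.smul {v : R4} (h : v ∈ Co) {t : ℝ} (ht : 0 < t) : t • v ∈ Co := by
  refine ⟨?_, mul_pos ht h.2⟩
  rw [Prod.smul_snd, norm_smul, Real.norm_of_nonneg ht.le, Prod.smul_fst, smul_eq_mul]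
  nlinarith [h.1]

theorem Tv_mem : (Tv : R4) ∈ Co := by
  refine ⟨?_, zero_lt_one⟩
  simp [Tv]

theorem top_mem {r : ℝ} (hr : 0 < r) {z : R4} {x : ℝ × ℝ × ℝ} (hz : ‖z‖ ≤ 2 * r)
    (hx : ‖x‖ ≤ 2 * r) : ((20 * r, x) : R4) - z ∈ Co := by
  have h1 : |z.1| ≤ 2 * r := (norm_fst_le z).trans hz
  have h2 : ‖z.2‖ ≤ 2 * r := (norm_snd_le z).trans hz
  have h3 := norm_sub_le x z.2
  have h4 := (abs_le.1 h1).2
  refine ⟨?_, ?_⟩
  · show ‖x - z.2‖ ≤ 1 / 4 * (20 * r - z.1)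
    linarith
  · show 0 < 20 * r - z.1
    linarith

/-- The segments to a point q stay in W when the base point moves in Q. -/
theorem seg_of {B W Q : Set R4} (hW : IsOpen W)
    (hF : ∀ a, ∀ v ∈ Co, (∀ τ ∈ Icc (0 : ℝ) 1, a + τ • v ∈ W) → a ∈ Q → a + v ∈ Q)
    (hC : ∀ z ∈ W, z ∈ closure Q → z ∈ Q)
    (hP : ∀ a ∈ B, ∀ v ∈ Co, (∀ τ ∈ Ioc (0 : ℝ) 1, a + τ • v ∈ Q) → a ∈ W)
    {β : ℝ → R4} (hβ : Continuous β) {q : R4} (hq : ∀ θ ∈ Icc (0 : ℝ) 1, q - β θ ∈ Co)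
    (hB : ∀ θ ∈ Icc (0 : ℝ) 1, ∀ τ ∈ Icc (0 : ℝ) 1, β θ + τ • (q - β θ) ∈ B)
    (hQ : ∀ θ ∈ Ico (0 : ℝ) 1, β θ ∈ Q)
    (h0 : ∀ τ ∈ Icc (0 : ℝ) 1, β 0 + τ • (q - β 0) ∈ W) :
    ∀ τ ∈ Icc (0 : ℝ) 1, β 1 + τ • (q - β 1) ∈ W := by
  by_contra h1
  set U : Set ℝ := {θ | ∀ τ ∈ Icc (0 : ℝ) 1, β θ + τ • (q - β θ) ∈ W} with hU
  have hUo : IsOpen U := by
    rw [isOpen_iff_eventually]
    intro θ hθ
    refine isCompact_Icc.eventually_forall_of_forall_eventually fun τ hτ => ?_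
    have c : Continuous fun p : ℝ × ℝ => β p.1 + p.2 • (q - β p.1) := by fun_prop
    exact c.continuousAt.eventually_mem (hW.mem_nhds (hθ τ hτ))
  obtain ⟨θ, t0, t1, hθ, hθ'⟩ := P354v.exit (γ := id) hUo continuousOn_id h0 h1
  have nU : θ ∉ U := (hUo.frontier_eq ▸ hθ).2
  have qW : q ∈ W := by simpa using h0 1 ⟨zero_le_one, le_rfl⟩
  simp only [hU, mem_ofPred_eq, not_forall] at nU
  obtain ⟨r, hr, nr⟩ := nU
  have r1 : r < 1 := by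
    refine hr.2.lt_of_ne fun k => nr ?_
    simpa [k] using qW
  set v := q - β θ with hv
  obtain ⟨ρ, p0, p1, hρ, hρ'⟩ := P354v.exit (γ := fun u : ℝ => β θ + (1 - u * (1 - r)) • v) hW
    (by fun_prop) (by simpa [hv] using qW) (by simpa using nr)
  have hl : 0 < ρ * (1 - r) := mul_pos p0 (sub_pos.2 r1)
  have hl1 : ρ * (1 - r) ≤ 1 := by nlinarith [hr.1]
  refine (hW.frontier_eq ▸ hρ).2 (hP _ (hB θ ⟨t0.le, t1⟩ _ ⟨by linarith, by linarith⟩)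
    ((ρ * (1 - r)) • v) (Co.smul (hq θ ⟨t0.le, t1⟩) hl) fun τ hτ => ?_)
  set l := 1 - ρ * (1 - τ) * (1 - r) with hl'
  have e : β θ + (1 - ρ * (1 - r)) • v + τ • (ρ * (1 - r)) • v = β θ + l • v := by
    rw [hl']; module
  have l0 : 0 < l := by nlinarith [mul_pos hτ.1 hl]
  have l1 : l ≤ 1 := by nlinarith [mul_nonneg hl.le (sub_nonneg.2 hτ.2)]
  rw [e]
  refine hC _ (hρ' (ρ * (1 - τ)) (mul_nonneg p0.le (sub_nonneg.2 hτ.2))
    (by nlinarith [mul_pos p0 hτ.1])) ?_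
  have c : Continuous fun u : ℝ => β u + l • (q - β u) := by fun_prop
  refine mem_closure_of_tendsto (b := 𝓝[<] θ) (c.continuousAt.mono_left nhdsWithin_le_nhds) ?_
  filter_upwards [Ioo_mem_nhdsLT t0] with u hu
  refine hF _ _ (Co.smul (hq u ⟨hu.1.le, hu.2.le.trans t1⟩) l0) (fun τ hτ => ?_)
    (hQ u ⟨hu.1.le, hu.2.trans_le t1⟩)
  rw [smul_smul]
  exact hθ' u hu.1.le hu.2 _ ⟨mul_nonneg hτ.1 l0.le, by nlinarith [hτ.1, hτ.2]⟩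

/-- The size of a vector in terms of a form near the Minkowski form. -/
theorem norm_le_sqrt {G : R4 →L[ℝ] R4 →L[ℝ] ℝ} (h : NearM G) (a : R4) :
    3 / 4 * ‖a‖ ≤ √(G a a + 2 * G a Tv ^ 2) := by
  refine Real.le_sqrt_of_sq_le ?_
  have h1 := (abs_le.1 (h a a)).1
  have h2 := h a Tv
  rw [P354.mink_self] at h1
  have h3 : P354.mink a Tv = -a.1 := by simp [P354.mink, Tv]
  rw [h3, norm_Tv, mul_one, sub_neg_eq_add] at h2
  have h4 : |a.1| ≤ ‖a‖ := norm_fst_le a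
  have h5 : ‖a‖ ^ 2 ≤ a.1 ^ 2 + a.2.1 ^ 2 + a.2.2.1 ^ 2 + a.2.2.2 ^ 2 := by
    have e1 : ‖a‖ = max |a.1| (max |a.2.1| (max |a.2.2.1| |a.2.2.2|)) := rfl
    rw [e1]
    have s1 := sq_nonneg a.1
    have s2 := sq_nonneg a.2.1
    have s3 := sq_nonneg a.2.2.1
    have s4 := sq_nonneg a.2.2.2
    rcases max_choice |a.1| (max |a.2.1| (max |a.2.2.1| |a.2.2.2|)) with k | k <;> rw [k]
    · rw [sq_abs]; linarith
    rcases max_choice |a.2.1| (max |a.2.2.1| |a.2.2.2|) with k | k <;> rw [k]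
    · rw [sq_abs]; linarith
    rcases max_choice |a.2.2.1| |a.2.2.2| with k | k <;> rw [k, sq_abs] <;> linarith
  have h6 : |a.1 * (G a Tv + a.1)| ≤ ‖a‖ * (1 / 100 * ‖a‖) := by
    rw [abs_mul]
    exact mul_le_mul h4 h2 (abs_nonneg _) (norm_nonneg _)
  have h7 := (abs_le.1 h6).2
  nlinarith [sq_nonneg (G a Tv + a.1), sq_nonneg ‖a‖]

end Vale.Agent.P354XA
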