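import Vale.Agent.P354XA.Uni
import Vale.Agent.P354XA.Indl
import Vale.Agent.P354YC.Cor

/-!
The null vector with a given dual form on the slice, the propagation of the dual form of a
geodesic field, and the pull back by a map which is close to the identity.
-/

set_option linter.unusedSectionVars false
set_option maxSynthPendingDepth 3

open scoped ContDiff
open Set Filter Topology Real

noncomputable section

namespace Vale.Agent.P354XA

open Vale.Agent.P354n (R4)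
open Vale.Agent.P354R (Met Pull chr)
open Vale.Agent.P354RC (B2)
open Vale.Agent.P354XD (tb rp_tb)
open Vale.Agent.P354XE
open Vale.Agent.P354XV (Lv Nice)
open Vale.Agent.P354YI (Oj Os Jb)

/-- The future null vector for x.1 whose dual form agrees with x.2 on the slice. -/
def wd (x : B2 × (R4 →L[ℝ] ℝ)) : ℝ :=
  (x.1.inverse x.2).1 ^ 2 - (gt x.1).1 * x.2 (x.1.inverse x.2)
def wf (x : B2 × (R4 →L[ℝ] ℝ)) : R4 :=
  x.1.inverse x.2 + ((√(wd x) - (x.1.inverse x.2).1) / (gt x.1).1) • gt x.1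
def Ow : Set (B2 × (R4 →L[ℝ] ℝ)) := {x | x.1.IsInvertible ∧ (gt x.1).1 < 0 ∧ 0 < wd x}

variable {x : B2 × (R4 →L[ℝ] ℝ)} {H : B2} {g G : Tw} {W D : Set R4} {p : R4}

theorem wd_cd (h : x.1.IsInvertible) :
    ContDiffAt ℝ ∞ (fun x : B2 × (R4 →L[ℝ] ℝ) => x.1.inverse x.2) x ∧
    ContDiffAt ℝ ∞ (fun x : B2 × (R4 →L[ℝ] ℝ) => gt x.1) x ∧ ContDiffAt ℝ ∞ wd x := by
  have i := P354YI.at_comp (f := Prod.fst) h.contDiffAt_map_inverse (contDiffAt_fst (p := x))
  have a := i.clm_apply contDiffAt_snd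
  have b := i.clm_apply (contDiffAt_const (c := ContinuousLinearMap.fst ℝ ℝ (ℝ × ℝ × ℝ)))
  exact ⟨a, b, (a.fst.pow 2).sub (b.fst.mul (contDiffAt_snd.clm_apply a))⟩

theorem Ow_open : IsOpen Ow := isOpen_iff_mem_nhds.2 fun _ h =>
  (P354YI.ev_inv continuousAt_fst h.1).and
    (((wd_cd h.1).2.1.fst.continuousAt.eventually_lt_const h.2.1).and
      ((wd_cd h.1).2.2.continuousAt.eventually_const_lt h.2.2))

theorem wf_cd (h : x ∈ Ow) : ContDiffAt ℝ ∞ wf x :=
  let ⟨a, b, c⟩ := wd_cd h.1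
  a.add ((((c.sqrt h.2.2.ne').sub a.fst).div b.fst h.2.1.ne).smul b)

theorem wf_pos (h : x ∈ Ow) : 0 < (wf x).1 := by
  simpa [wf, h.2.1.ne] using h.2.2

theorem wf_ap (h : x ∈ Ow) (u : R4) : x.1 (wf x) u =
    x.2 u + (√(wd x) - (x.1.inverse x.2).1) / (gt x.1).1 * u.1 := by
  rw [wf, map_add, map_smul, gt, h.1.self_apply_inverse, h.1.self_apply_inverse]; rfl

theorem wf_nul (h : x ∈ Ow) (sy : ∀ u v, x.1 u v = x.1 v u) : x.1 (wf x) (wf x) = 0 := by
  have a : x.2 (gt x.1) = (x.1.inverse x.2).1 := by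
    rw [← congrArg (· (gt x.1)) (h.1.self_apply_inverse x.2), sy, gt, h.1.self_apply_inverse]; rfl
  have s := sq_sqrt h.2.2.le
  have n := h.2.1.ne
  rw [wf_ap h, wf, map_add, map_smul, a, Prod.fst_add, Prod.smul_fst, smul_eq_mul, smul_eq_mul]
  generalize √(wd x) = S at *
  rw [wd] at s
  field_simp
  linear_combination s

theorem wf_eT (i : H.IsInvertible) (z : H eT eT = 0) : wd (H, H eT) = 1 ∧ wf (H, H eT) = eT := by
  have e : H.inverse (H eT) = eT := i.inverse_apply_self eT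
  have d : wd (H, H eT) = 1 := by simp only [wd, e, z]; simp [eT]
  exact ⟨d, by simp only [wf, d, e]; simp [eT]⟩

theorem ex_r (B : ℝ) : ∃ r > 0, ∃ S, IsCompact S ∧ S ⊆ Ow ∧ ∀ H ∈ Kc B B, H eT eT = 0 →
    ∀ h, ‖h - H‖ ≤ r → (h, H eT) ∈ S := by
  have k : IsCompact ((fun H : B2 => (H, H eT)) '' (Kc B B ∩ {H | H eT eT = 0})) :=
    ((kc_cpt B B).inter_right (isClosed_eq (by fun_prop) continuous_const)).image (by fun_prop)
  obtain ⟨r, r0, hr⟩ := k.exists_cthickening_subset_open Ow_open (by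
    rintro _ ⟨H, ⟨a, b⟩, rfl⟩
    exact ⟨kc_inv a, gt_neg a, (wf_eT (kc_inv a) b).1 ▸ one_pos⟩)
  exact ⟨r, r0, _, k.cthickening, hr, fun H a b h e => Metric.mem_cthickening_of_dist_le _ _ _ _
    ⟨H, ⟨a, b⟩, rfl⟩ (by simpa [Prod.dist_eq, dist_eq_norm, r0.le] using e)⟩

theorem oj_sub {J : Type} {m : ℕ} {g G : J → Tw} {D D0 : J → Set R4} {p : J → R4} {ε : J → ℝ}
    (l : ∀ j, Lv (g j) (D j)) (L : ∀ j, Lv (G j) (D0 j)) (hp : ∀ j, p j ∈ D j)
    (hp0 : ∀ j, p j ∈ D0 j) (b : ∀ j, Bd m (g j - G j) (p j) (ε j)) :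
    Oj m p (fun j => tb (g j - G j)) ε :=
  Oj.tb (fun j v w => (P354YI.Lv.at (l j) (hp j) v w).sub (P354YI.Lv.at (L j) (hp0 j) v w)) b

/-- The initial velocity is close to eT. -/
theorem oj_wf (B : ℝ) : ∃ η > 0, ∀ {J : Type} {m : ℕ} {g G : J → Tw} {D : J → Set R4} {p : J → R4}
    {ε : J → ℝ}, (∀ j, Lv (g j) (D j)) → (∀ j, Lv (G j) (D j)) → (∀ j, p j ∈ D j) →
    (∀ j, Nice (m + 1) B (G j) Prod.fst (p j)) → (∀ j, ∀ z ∈ D j, G j z eT eT = 0) →
    (∀ j, Bd (m + 1) (g j - G j) (p j) (ε j)) → (∀ j, ε j ≤ η) →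
    (∀ j, (tb (g j) (p j), tb (G j) (p j) eT) ∈ Ow) ∧
      Oj m p (fun j z => wf (tb (g j) z, tb (G j) z eT) - eT) ε := by
  obtain ⟨r, r0, S, cS, sS, hS⟩ := ex_r B
  refine ⟨min r 1, lt_min r0 one_pos, fun {J m g G D p ε} l L hp n z b e => ?_⟩
  have r1 := fun j => rp_tb (l j).isOpen (l j).met
  have r2 := fun j => rp_tb (L j).isOpen (L j).met
  have a : Oj (m + 1) p (fun j => tb (G j)) 1 :=
    oj_tb fun j => ⟨(L j).isOpen, (L j).met, hp j, (n j).bd⟩
  have d : Oj (m + 1) p (fun j z => tb (g j) z - tb (G j) z) ε :=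
    (oj_sub l L hp hp b).congr' fun _ _ => (P354YI.tb_sub _ _ _).symm
  have a' : Oj (m + 1) p (fun j z => tb (g j) z) 1 :=
    ((d.mono le_rfl fun j => (e j).trans (min_le_right _ _)).add a).congr'
      fun _ _ => (sub_add_cancel _ _).symm
  have nr : ∀ j, ‖tb (g j) (p j) - tb (G j) (p j)‖ ≤ r := fun j =>
    ContinuousLinearMap.opNorm_le_bound₂ _ r0.le fun v w => by
      rw [sub_apply, sub_apply, ← (r1 j).eq _ (hp j), ← (r2 j).eq _ (hp j), mul_assoc]
      exact (P354YI.bd_zero (b j) v w).trans (mul_le_mul_of_nonneg_right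
        ((e j).trans (min_le_left _ _)) (by positivity))
  have ms := fun j => hS _ (nice_kc (r2 j) (hp j) (n j))
    (((r2 j).eq _ (hp j) _ _).symm.trans (z j _ (hp j)))
  have t := a'.pair (a.apl (.cst eT))
  have t' := a.pair (a.apl (.cst eT))
  have k := Oj.lip t.sm t'.sm (S := fun _ => S) (fun j => by
      rintro _ ⟨u, v, hu, hv, e, rfl⟩
      have := ms j (u • tb (g j) (p j) + v • tb (G j) (p j)) (by
        rw [eq_sub_of_add_eq' e, sub_smul, one_smul, add_sub_left_comm, add_sub_cancel_left,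
          ← smul_sub, norm_smul, Real.norm_of_nonneg hu]
        exact (mul_le_of_le_one_left (norm_nonneg _) (by linarith)).trans (nr j))
      rwa [Prod.smul_mk, Prod.smul_mk, Prod.mk_add_mk, ← add_smul, e, one_smul])
    m (G := fun _ => wf) (ν := 1) (μ := ε) (t.fd.le (by omega))
    (t'.fd.le (by omega)) ((d.pred.clm (.inl ℝ B2 (R4 →L[ℝ] ℝ))).congr' fun _ _ => by simp)
    (Oj.fix cS (fun _ h => wf_cd (sS h)) fun i => i.2)
  rw [one_mul] at k
  refine ⟨fun j => sS (ms j _ (nr j)), k.congr fun j => ?_⟩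
  filter_upwards [(L j).isOpen.mem_nhds (hp j)] with x hx
  rw [(wf_eT (P354RC.inv_of_inj ((r2 j).nd x hx)) (((r2 j).eq x hx _ _).symm.trans (z j x hx))).2]

theorem line_const {F : R4 → ℝ} (s : P354XU.Star W) (hF : ∀ z ∈ W, DifferentiableAt ℝ F z)
    (h0 : ∀ z ∈ W, P354n.deriv F z eT = 0) (hp : p ∈ W) : F p = F (0, p.2) := by
  have := (convex_uIcc 0 p.1).norm_image_sub_le_of_norm_hasDerivWithin_le (C := 0)
    (f := fun t => F (t, p.2)) (f' := fun _ => 0) (fun t ht => by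
      have k := (hF _ (s p hp t ht)).hasFDerivAt.comp_hasDerivAt t (f := fun t : ℝ => (t, p.2))
        ((hasDerivAt_id t).prodMk (hasDerivAt_const t _))
      rw [show fderiv ℝ F (t, p.2) (1, 0) = 0 from
        (hF _ (s p hp t ht)).lineDeriv_eq_fderiv.symm.trans (h0 _ (s p hp t ht))] at k
      exact k.hasDerivWithinAt) (fun _ _ => norm_zero.le) left_mem_uIcc right_mem_uIcc
  exact sub_eq_zero.1 (by simpa using this)

/-- The form dual to a geodesic null field eT does not depend on the first coordinate. -/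
theorem flat_of (l : Lv g W) (s : P354XU.Star W) (e : ∀ z ∈ W, ∀ c, chr g z eT eT c = 0)
    (h0 : ∀ z ∈ W, z.1 = 0 → g z eT eT = 0) (hp : p ∈ W) (v : R4) :
    g p eT v = g (0, p.2) eT v := by
  have d := fun z hz u v => (P354YI.Lv.at l (p := z) hz u v).differentiableAt (by simp)
  have a : ∀ z ∈ W, g z eT eT = 0 := fun z hz =>
    (line_const s (fun z hz => d z hz eT eT) (fun z hz => by
      have := e z hz eT
      rw [chr] at this
      linarith) hz).trans (h0 _ (s z hz 0 left_mem_uIcc) rfl)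
  refine line_const s (fun z hz => d z hz eT v) (fun z hz => ?_) hp
  have k := e z hz v
  have k1 : P354n.deriv (fun z => g z eT eT) z v = 0 := by
    rw [P354n.deriv, EventuallyEq.lineDeriv_eq (f := fun _ => 0)
      (mem_of_superset (l.isOpen.mem_nhds hz) a)]
    simp [lineDeriv]
  rw [chr, k1] at k
  linarith

/-- The pull back by a map which is close to the identity. -/
theorem bd_near {J : Type} {k : ℕ} {B : ℝ} {b : J → R4 → R4} {g G : J → Tw} {D D0 : J → Set R4}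
    {p : J → R4} {ε : J → ℝ} (s : ∀ j, ContDiffAt ℝ ∞ (b j) (p j)) (l : ∀ j, Lv (g j) (D j))
    (L : ∀ j, Lv (G j) (D0 j)) (hb : ∀ j, b j (p j) ∈ D j)
    (t : ∀ j q, dist q (p j) ≤ ε j → q ∈ D0 j ∧ Bd (k + 1) (G j) q B)
    (e : ∀ j, Jb (k + 1) (fun x => b j x - x) (p j) (ε j)) (e1 : ∀ j, ε j ≤ 1)
    (c : ∀ j, Bd k (g j - G j) (b j (p j)) (ε j)) :
    ∃ C, 0 ≤ C ∧ ∀ j, Bd k (pb (b j) (g j) - G j) (p j) (C * ε j) := by
  have d : Oj (k + 1) p (fun j x => b j x - id x) ε := .of (fun j => (s j).sub contDiffAt_id) e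
  have i1 : Oj k p (fun _ => fderiv ℝ (id : R4 → R4)) 1 :=
    (Oj.cst (.id ℝ R4)).congr' fun _ _ => fderiv_id
  have f1 : Oj k p (fun j => fderiv ℝ (b j)) 1 :=
    ((d.fd.mono le_rfl e1).add i1).congr fun j => by
      filter_upwards [P354YI.ev_dif (s j)] with y hy
      rw [fderiv_fun_sub hy differentiableAt_id, sub_add_cancel]
  have m : ∀ j, dist (b j (p j)) (p j) ≤ ε j := fun j => dist_eq_norm (b j _) _ ▸ (e j).zero
  have a := Oj.pb s f1 (oj_sub l L hb (fun j => (t j _ (m j)).1) c)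
  have a' := Oj.pb_lip s (fun _ => contDiffAt_id) (S := fun j => Metric.closedBall (p j) (ε j))
    (fun j => (convex_closedBall _ _).segment_subset (m j)
      (Metric.mem_closedBall_self (e j).nonneg)) f1 i1 d (h := fun j => tb (G j))
    (oj_tb fun i => ⟨(L _).isOpen, (L _).met, t _ _ i.2⟩)
  refine (a.add a').bd' fun j => ?_
  have r := rp_tb (l j).isOpen (l j).met
  have r0 := rp_tb (L j).isOpen (L j).met
  filter_upwards [(s j).continuousAt.eventually ((l j).isOpen.mem_nhds (hb j)),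
    (L j).isOpen.mem_nhds (t j (p j) (by simpa using (e j).nonneg)).1] with z h1 h2 v w
  simp only [add_apply, sub_apply, P354RC.pb_ap, P354YI.tb_sub, fderiv_id, id,
    ContinuousLinearMap.id_apply, Pi.sub_apply, pb, r.eq _ h1, r0.eq _ h2, sub_add_sub_cancel]

end Vale.Agent.P354XA
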