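import Vale.Agent.P354XA.Wf
import Vale.Agent.P354YQ.Reg
import Vale.Agent.P354YO.Ob

/-!
One window of the far band, in the chart Xi: local existence and the geodesic gauge.
-/

set_option linter.unusedSectionVars false
set_option maxSynthPendingDepth 3

open scoped ContDiff
open Set Filter Topology Real

noncomputable section

namespace Vale.Agent.P354XA

open Vale.Agent.P354n (R4)
open Vale.Agent.P354I (X Dat)
open Vale.Agent.P354R (Met Pull chr)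
open Vale.Agent.P354XD (tb rp_tb)
open Vale.Agent.P354XE
open Vale.Agent.P354XV (Lv Nice In0)
open Vale.Agent.P354YI (Oj Jb Gd Cls Ref S0 RgIn)

variable {M a : ℝ} {p : R4}

/-- The lid function on the slice. -/
def qq (p : R4) : ℝ := (ip p p - 1 / 64) * (ip p p - 64)

theorem qq_cd : ContDiff ℝ ∞ qq := by unfold qq ip; fun_prop

theorem qq_le (h : qq p ≤ 1 / 40) : rd p ∈ Ioo (1 / 9 : ℝ) 9 := by
  have r := rd_nonneg p
  rw [qq, ← rd_sq] at h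
  refine ⟨by_contra fun k => ?_, by_contra fun k => ?_⟩
  · have : rd p ^ 2 ≤ 1 / 81 := by nlinarith
    nlinarith
  · have : 81 ≤ rd p ^ 2 := by nlinarith
    nlinarith

theorem qq_neg (h : rd p ∈ Icc (1 / 5 : ℝ) 5) : qq p ≤ -(1 / 2) := by
  have a : 1 / 25 ≤ rd p ^ 2 := by nlinarith [h.1]
  have b : rd p ^ 2 ≤ 25 := by nlinarith [h.1, h.2]
  rw [qq, ← rd_sq]
  nlinarith

/-- The data are close to the data of GX. -/
def Dt (M a l : ℝ) (m : ℕ) (ε : ℝ) (d d0 : Dat) : Prop :=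
  ∀ y : X, ‖y‖ ∈ Icc (1 / 16) 16 → In0 (GX M a l) d0 y ∧ Gd d y ∧ Cls m ε d d0 y

/-- The windows. -/
def Wd (δ u v : ℝ) : Set R4 := {p | p.1 ∈ Icc 0 δ ∧ rd p ∈ Icc u v}

theorem winA (hS : S0) (h : |a| < M) : ∃ l0 ∈ Ioc 0 (64 * M)⁻¹, ∃ s ∈ Ioc (0 : ℝ) (1 / 32),
    (∀ k, ∃ B ≥ (1 : ℝ), ∀ l ∈ Icc 0 l0, ∀ p ∈ Bx s, p ∈ DX M a l ∧
      Nice k B (GX M a l) Prod.fst p) ∧ ∃ δ ∈ Ioc 0 s, ∀ k, ∃ m, ∃ η > 0, ∃ C, 0 ≤ C ∧
    ∀ l ∈ Icc 0 l0, ∀ d d0, ∀ ε ∈ Icc 0 η, Dt M a l m ε d d0 → ∃ g D, Lv g D ∧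
      (∀ p ∈ Wd δ (1 / 5) 5, p ∈ D ∧ Bd k (g - GX M a l) p (C * ε)) ∧
      ∀ y : X, ‖y‖ ∈ Icc (1 / 5) 5 → In0 g d y := by
  obtain ⟨l0, hl0, s, hs, hu⟩ := uni h
  refine ⟨l0, hl0, s, hs, fun k => (hu k).imp fun B b => ⟨b.1, fun l hl p hp =>
    ⟨(b.2 l hl p hp).1, (b.2 l hl p hp).2.1⟩⟩, ?_⟩
  obtain ⟨B0, b0, h0⟩ := hu 0
  obtain ⟨Q, q0, hQ⟩ := P354YI.ex_jb 1 (Bx_cpt s) fun _ _ => qq_cd.contDiffAt
  set c := 1 + B0 + 2 * B0 ^ 2
  have c1 : 1 ≤ c := by have : 0 ≤ B0 + 2 * B0 ^ 2 := by positivity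
                        simp only [c]; linarith
  set κ := c * (Q + 1)
  have κ1 : Q + 1 ≤ κ := le_mul_of_one_le_left (by positivity) c1
  let Φ : R4 → ℝ := fun p => κ * p.1 + qq p
  have sΦ : ContDiff ℝ ∞ Φ := (contDiff_const.mul contDiff_fst).add qq_cd
  have dΦ : ∀ p ∈ Bx s, ∀ v, κ * v.1 - Q * ‖v‖ ≤ fderiv ℝ Φ p v := fun p hp v => by
    rw [show fderiv ℝ Φ p = _ from ((hasFDerivAt_fst.const_mul κ).add
      (qq_cd.differentiable (by simp) p).hasFDerivAt).fderiv]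
    have := (abs_le.1 (((fderiv ℝ qq p).le_opNorm v).trans
      (mul_le_mul_of_nonneg_right (hQ p hp).fd.zero (norm_nonneg v)))).1
    simp only [add_apply, smul_apply, ContinuousLinearMap.coe_fst', smul_eq_mul]
    linarith
  let K : Set X := {y | ‖y‖ ∈ Icc (1 / 16) 16}
  let U : Set X := {y | ‖y‖ ∈ Ioo (1 / 12) 12}
  have a0 : 0 < min s (1 / 40) := lt_min hs.1 (by norm_num)
  have bx : ∀ p : R4, p.1 ∈ Icc 0 (min s (1 / 40)) → xs p ∈ U → p ∈ Bx s := fun p a b =>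
    ⟨(abs_of_nonneg a.1).trans_le (a.2.trans (min_le_left _ _)),
      by linarith [show 1 / 12 < rd p from b.1], by linarith [show rd p < 12 from b.2]⟩
  have low : ∀ p : R4, 0 ≤ p.1 → Φ p ≤ 1 / 40 → rd p ∈ Ioo (1 / 9 : ℝ) 9 := fun p a b =>
    qq_le (by have := mul_nonneg (show 0 ≤ κ by linarith) a; simp only [Φ] at b; linarith)
  have ref : ∀ m, ∃ B, ∀ l ∈ Icc 0 l0, ∀ d0, (∀ y ∈ K, In0 (GX M a l) d0 y) →
      Ref m B (min s (1 / 40)) K U (GX M a l) (DX M a l) Φ d0 := fun m => by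
    obtain ⟨B, b1, hB⟩ := hu m
    obtain ⟨B', b', hB'⟩ := P354YI.ex_jb m (Bx_cpt s) fun _ _ => sΦ.contDiffAt
    refine ⟨B + B', fun l hl d0 I => ⟨GX_lv h hl.1, sΦ, fun y hy => ?_, fun p a b =>
      (hB' p (bx p a b)).mono le_rfl (by linarith), fun p _ _ t ht => ?_, fun p a b => ?_⟩⟩
    · have := hB l hl (pt 0 y) ⟨abs_zero.trans_le hs.1.le, by rwa [rd, xs_pt]⟩
      exact ⟨this.1, this.2.1.le le_rfl (by linarith), I y hy⟩
    · exact add_le_add (mul_le_mul_of_nonneg_left ht.2 (by linarith)) le_rfl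
    have r := low p a.1 (b.trans (min_le_right _ _))
    have s1 : Metric.closedBall (xs p) (min s (1 / 40)) ⊆ U := fun y hy => by
      have := abs_le.1 ((abs_norm_sub_norm_le _ _).trans ((mem_closedBall_iff_norm.1 hy).trans
        (min_le_right _ _)))
      rw [← rd] at this
      exact ⟨by linarith [r.1, this.1], by linarith [r.2, this.2]⟩
    have hp := bx p a (s1 (Metric.mem_closedBall_self a0.le))
    have n := hB l hl p hp
    have rg := rp_tb (GX_lv h hl.1).isOpen (GX_lv h hl.1).met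
    have k : ∀ {x y : ℝ}, 0 ≤ x → x ≤ y → x ≤ (B + B') * y := fun hx hy =>
      hy.trans (le_mul_of_one_le_left (hx.trans hy) (by linarith))
    refine ⟨s1, n.1, n.2.1.le le_rfl (by linarith), k zero_le_one ?_, fun v hv v0 =>
      k (norm_nonneg v) ?_⟩
    · have := dΦ p hp eT
      rw [P354XV.norm_eT, show eT.1 = 1 from rfl] at this
      linarith
    · have := ((h0 l hl p hp).2.1.n0 rg n.1).cone (rg.eq p n.1 v v ▸ hv)
      rw [abs_of_nonneg v0] at this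
      have := mul_le_mul_of_nonneg_left this (show 0 ≤ Q + 1 by positivity)
      have := dΦ p hp v
      simp only [κ] at this
      linarith
  obtain ⟨B, hB⟩ := ref 14
  obtain ⟨δ, δ0, hδ⟩ := hS B _ K U a0
    (Metric.isCompact_of_isClosed_isBounded (isClosed_Icc.preimage continuous_norm)
      (isBounded_iff_forall_norm_le.2 ⟨16, fun _ hy => hy.2⟩))
    (isOpen_Ioo.preimage continuous_norm)
    ((closure_minimal (t := {y : X | ‖y‖ ∈ Icc (1 / 12) 12}) (fun _ => mem_Icc_of_Ioo)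
      (isClosed_Icc.preimage continuous_norm)).trans ((show _ ⊆ {y : X | ‖y‖ ∈ Ioo (1 / 16) 16} from
        fun _ hy => ⟨by linarith [hy.1], by linarith [hy.2]⟩).trans
      (interior_maximal (fun _ => mem_Icc_of_Ioo) (isOpen_Ioo.preimage continuous_norm))))
  have κ0 : 0 < κ := by linarith
  refine ⟨min δ (4 * κ)⁻¹, ⟨lt_min δ0.1 (by positivity),
    (min_le_left _ _).trans (δ0.2.trans (min_le_left _ _))⟩, fun k => ?_⟩
  obtain ⟨m, hm⟩ := hδ k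
  obtain ⟨B', hB'⟩ := ref m
  obtain ⟨η, η0, C, hC⟩ := hm B' (1 / 4) (by norm_num)
  refine ⟨m, η, η0, |C|, abs_nonneg C, fun l hl d d0 ε hε H => ?_⟩
  obtain ⟨g, D, L, h1, h2⟩ := hC _ _ _ _ d ε (hB l hl d0 fun y hy => (H y hy).1)
    (hB' l hl d0 fun y hy => (H y hy).1) hε.2 fun y hy => by
      have := low (pt 0 y) le_rfl (by linarith)
      rw [rd, xs_pt] at this
      exact (H y ⟨by linarith [this.1], by linarith [this.2]⟩).2
  refine ⟨g, D, L, fun p hp => (h1 p ⟨hp.1.1, hp.1.2.trans (min_le_left _ _)⟩ ?_).imp_right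
    fun k => P354YI.bd_le k le_rfl (mul_le_mul_of_nonneg_right (le_abs_self C) hε.1),
    fun y hy => h2 y ?_⟩
  · have := (le_inv_mul_iff₀ (by positivity)).1 ((hp.1.2.trans (min_le_right _ _)).trans_eq
      (mul_one _).symm)
    have := qq_neg hp.2
    simp only [Φ]; linarith
  · have := qq_neg (p := pt 0 y) (by rwa [rd, xs_pt])
    simp only [Φ, show (pt 0 y).1 = 0 from rfl]; linarith

theorem jb_wf (m : ℕ) (B : ℝ) : ∃ η > 0, ∃ C, 0 ≤ C ∧ ∀ g G D p ε, Lv g D → Lv G D → p ∈ D →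
    Nice (m + 1) B G Prod.fst p → (∀ z ∈ D, G z eT eT = 0) → Bd (m + 1) (g - G) p ε → ε ≤ η →
    (tb g p, tb G p eT) ∈ Ow ∧ Jb m (fun z => wf (tb g z, tb G z eT) - eT) p (C * ε) := by
  obtain ⟨η, η0, H⟩ := oj_wf B
  obtain ⟨a, -, -, C, c0, hC⟩ := H (J := {i : Tw × Tw × Set R4 × R4 × ℝ // Lv i.1 i.2.2.1 ∧
    Lv i.2.1 i.2.2.1 ∧ i.2.2.2.1 ∈ i.2.2.1 ∧ Nice (m + 1) B i.2.1 Prod.fst i.2.2.2.1 ∧
    (∀ z ∈ i.2.2.1, i.2.1 z eT eT = 0) ∧ Bd (m + 1) (i.1 - i.2.1) i.2.2.2.1 i.2.2.2.2 ∧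
    i.2.2.2.2 ≤ η}) (fun j => j.2.1) (fun j => j.2.2.1) (fun j => j.2.2.2.1)
    (fun j => j.2.2.2.2.1) (fun j => j.2.2.2.2.2.1) (fun j => j.2.2.2.2.2.2.1)
    fun j => j.2.2.2.2.2.2.2
  exact ⟨η, η0, C, c0, fun g G D p ε a1 a2 a3 a4 a5 a6 a7 =>
    ⟨a ⟨(g, G, D, p, ε), a1, a2, a3, a4, a5, a6, a7⟩,
      hC ⟨(g, G, D, p, ε), a1, a2, a3, a4, a5, a6, a7⟩⟩⟩

theorem bd_near' (k : ℕ) (B : ℝ) : ∃ C, 0 ≤ C ∧ ∀ b g G D D0 p ε, ContDiffAt ℝ ∞ b p → Lv g D →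
    Lv G D0 → b p ∈ D → (∀ q, dist q p ≤ ε → q ∈ D0 ∧ Bd (k + 1) G q B) →
    Jb (k + 1) (fun x => b x - x) p ε → ε ≤ 1 → Bd k (g - G) (b p) ε →
    Bd k (pb b g - G) p (C * ε) := by
  obtain ⟨C, c0, hC⟩ := bd_near (J := {i : (R4 → R4) × Tw × Tw × Set R4 × Set R4 × R4 × ℝ //
    ContDiffAt ℝ ∞ i.1 i.2.2.2.2.2.1 ∧ Lv i.2.1 i.2.2.2.1 ∧ Lv i.2.2.1 i.2.2.2.2.1 ∧
    i.1 i.2.2.2.2.2.1 ∈ i.2.2.2.1 ∧ (∀ q, dist q i.2.2.2.2.2.1 ≤ i.2.2.2.2.2.2 →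
      q ∈ i.2.2.2.2.1 ∧ Bd (k + 1) i.2.2.1 q B) ∧
    Jb (k + 1) (fun x => i.1 x - x) i.2.2.2.2.2.1 i.2.2.2.2.2.2 ∧ i.2.2.2.2.2.2 ≤ 1 ∧
    Bd k (i.2.1 - i.2.2.1) (i.1 i.2.2.2.2.2.1) i.2.2.2.2.2.2}) (fun j => j.2.1) (fun j => j.2.2.1)
    (fun j => j.2.2.2.1) (fun j => j.2.2.2.2.1) (fun j => j.2.2.2.2.2.1) (fun j => j.2.2.2.2.2.2.1)
    (fun j => j.2.2.2.2.2.2.2.1) fun j => j.2.2.2.2.2.2.2.2
  exact ⟨C, c0, fun b g G D D0 p ε a1 a2 a3 a4 a5 a6 a7 a8 =>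
    hC ⟨(b, g, G, D, D0, p, ε), a1, a2, a3, a4, a5, a6, a7, a8⟩⟩

/-- The window in the geodesic gauge. -/
theorem win1 (hS : S0) (h : |a| < M) : ∃ l0 ∈ Ioc 0 (64 * M)⁻¹, ∃ δ ∈ Ioc (0 : ℝ) (1 / 32), ∀ k,
    ∃ m, ∃ η > 0, ∃ C, 0 ≤ C ∧ ∀ l ∈ Icc 0 l0, ∀ d d0, ∀ ε ∈ Icc 0 η, Dt M a l m ε d d0 →
      ∃ g W, Lv g W ∧ W ⊆ DX M a l ∧ (∀ z ∈ W, ∀ v, g z eT v = GX M a l z eT v) ∧
        (∀ p ∈ Wd δ (1 / 4) 4, p ∈ W ∧ Bd k (g - GX M a l) p (C * ε)) ∧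
        ∀ y : X, ‖y‖ ∈ Icc (1 / 4) 4 → In0 g d y := by
  obtain ⟨l0, hl0, s, hs, hu, δ, δ0, hA⟩ := winA hS h
  refine ⟨l0, hl0, δ / 2, ⟨half_pos δ0.1, by linarith [δ0.1, δ0.2, hs.2]⟩, fun k => ?_⟩
  obtain ⟨n, hn⟩ := P354YQ.reg N0 N0_is (k + 1)
  obtain ⟨B, b1, hB⟩ := hu (n + 1 + (k + 1))
  obtain ⟨m, η1, η10, C1, c1, h1⟩ := hA (n + 1 + (k + 1))
  obtain ⟨η2, η20, C2, c2, h2⟩ := jb_wf n B
  have r0 : 0 < min (δ / 2) (1 / 100) := lt_min (half_pos δ0.1) (by norm_num)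
  obtain ⟨η3, η30, C3, h3⟩ := hn (B + 2 * B * (1 + B) * (1 + 3 * B)) _ r0
  obtain ⟨C4, c4, h4⟩ := bd_near' k B
  set C := (|C3| + 1) * ((C2 + 1) * C1)
  have μ0 : 0 < min (min η2 η3) (min (δ / 2) (1 / 100)) := lt_min (lt_min η20 η30) r0
  refine ⟨m, min η1 (min (min η2 η3) (min (δ / 2) (1 / 100)) / (C + 1)),
    lt_min η10 (by positivity), C4 * C, by positivity, fun l hl d d0 ε hε H => ?_⟩
  obtain ⟨g, D, L, a1, a2⟩ := h1 l hl d d0 ε ⟨hε.1, hε.2.trans (min_le_left _ _)⟩ H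
  have e0 := hε.1
  have e1 : C1 * ε ≤ (C2 + 1) * C1 * ε := by nlinarith [mul_nonneg (mul_nonneg c2 c1) e0]
  have e2 : (C2 + 1) * C1 * ε ≤ C * ε := mul_le_mul_of_nonneg_right
    (le_mul_of_one_le_left (by positivity) (by linarith [abs_nonneg C3])) e0
  have e3 : C * ε ≤ min (min η2 η3) (min (δ / 2) (1 / 100)) := by
    have := (le_div_iff₀ (by positivity)).1 (hε.2.trans (min_le_right _ _))
    linarith
  simp only [le_min_iff] at e3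
  have LG := GX_lv h hl.1
  have o := L.isOpen.inter LG.isOpen
  have L1 := L.mono o inter_subset_left
  have L2 := LG.mono o inter_subset_right
  have r1 := rp_tb o L1.met
  have r2 := rp_tb o L2.met
  have nr : ∀ z ∈ Wd (δ / 2) (1 / 4) 4, ∀ q, dist q z ≤ min (δ / 2) (1 / 100) →
      q ∈ Bx s ∧ (0 ≤ q.1 → q ∈ Wd δ (1 / 5) 5) := fun z hz q e => by
    rw [dist_eq_norm, le_min_iff] at e
    have k1 := abs_le.1 ((P354YO.rd_lip q z).trans (mul_le_mul_of_nonneg_left e.2 zero_le_two))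
    have k2 := abs_le.1 (show |q.1 - z.1| ≤ δ / 2 from (norm_fst_le (q - z)).trans e.1)
    obtain ⟨⟨z1, z2⟩, z3, z4⟩ := hz
    exact ⟨⟨abs_le.2 ⟨by linarith [δ0.2], by linarith [δ0.2]⟩, by linarith, by linarith⟩,
      fun t => ⟨⟨t, by linarith⟩, by linarith, by linarith⟩⟩
  have sf := fun z hz => nr z hz z ((dist_self z).trans_le r0.le)
  have w := fun z hz => h2 g _ _ z _ L1 L2 ⟨(a1 z ((sf z hz).2 hz.1.1)).1, (hB l hl z (sf z hz).1).1⟩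
    ((hB l hl z (sf z hz).1).2.le (by omega) le_rfl) (fun _ k => GX_TT h hl.1 k.2)
    (P354YI.bd_le (a1 z ((sf z hz).2 hz.1.1)).2 (by omega) le_rfl) (by linarith [e3.1.1])
  have sw : ∀ z ∈ D ∩ DX M a l, ContDiffAt ℝ ∞ (fun z => (tb g z, tb (GX M a l) z eT)) z :=
    fun z hz => (r1.at hz).prodMk ((r2.at hz).clm_apply contDiffAt_const)
  have b2 : 0 ≤ 2 * B * (1 + B) * (1 + 3 * B) := by positivity
  obtain ⟨W, b, oW, s1, s2, P, k1, k2⟩ := h3 ((C2 + 1) * C1 * ε) (Wd (δ / 2) (1 / 4) 4)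
    ((D ∩ DX M a l) ∩ (fun z => (tb g z, tb (GX M a l) z eT)) ⁻¹' Ow) _ _ g (fun _ => 1)
    (fun _ => 0) (fun z => wf (tb g z, tb (GX M a l) z eT)) ⟨L2, L1,
      ContinuousOn.isOpen_inter_preimage (fun z hz => (sw z hz).continuousAt.continuousWithinAt) o
        Ow_open, ⟨contDiffOn_const, contDiffOn_const, fun z hz =>
          (ContDiffAt.comp (g := wf) z (wf_cd hz.2) (sw z hz.1)).contDiffWithinAt⟩,
      fun z hz t ht => ⟨uIcc_subset_Icc ⟨le_rfl, (half_pos δ0.1).le⟩ hz.1 ht, hz.2⟩,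
      fun z hz => ⟨⟨(a1 z ((sf z hz).2 hz.1.1)).1, (hB l hl z (sf z hz).1).1⟩, (w z hz).1⟩,
      fun z hz => (LG.isOpen.eventually_mem (hB l hl z (sf z hz).1).1).mono fun x hx =>
        (gq_N0 _).2 (GX_geo h hl.1 hx),
      fun z hz => ⟨⟨hz.1.1, by linarith [hz.1.2, δ0.2, hs.2]⟩, by linarith,
        (P354YI.jb_const _ _ _).mono le_rfl (by rw [norm_one]; linarith), by
          rw [fderiv_fun_const]
          exact (P354YI.jb_const _ (0 : R4 →L[ℝ] R4) _).mono le_rfl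
            (by rw [norm_zero]; linarith), fun _ => by
          simp only [one_smul]
          exact (w z hz).2.mono le_rfl (by nlinarith [mul_nonneg c1 e0])⟩,
      fun z hz q e t => by
        have n1 := hB l hl q (nr z hz q e).1
        have n2 := a1 q ((nr z hz q e).2 t)
        exact ⟨⟨n2.1, n1.1⟩, P354YI.bd_le n1.2.bd (by omega) (by linarith),
          (P354YI.inv_le n1.2 LG n1.1).2.trans (by linarith), P354YI.bd_le n2.2 (by omega) e1⟩,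
      fun _ _ _ _ => ⟨trivial, (P354YI.jb_const _ (0 : R4) _).mono le_rfl
        (by rw [norm_zero]; linarith)⟩⟩ (by linarith [e3.1.2])
  have o' := P354YC.st_open oW
  have s3 : Wd (δ / 2) (1 / 4) 4 ⊆ P354YC.st W := fun z hz t ht =>
    s1 ⟨uIcc_subset_Icc ⟨le_rfl, (half_pos δ0.1).le⟩ hz.1 ht, hz.2⟩
  have L' := (L1.pull P).mono o' (P354YC.st_sub W)
  have fx : ∀ y, pt 0 y ∈ W → ∀ᶠ z in 𝓝 y, b (pt 0 z) = pt 0 z := fun y hy =>
    (P354DT.ptL.continuous.continuousAt.eventually (oW.mem_nhds hy)).mono fun z hz =>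
      ((k1 _ hz).2.2 rfl).1
  have fT : ∀ z ∈ W, z.1 = 0 → fderiv ℝ b z eT = wf (tb g z, tb (GX M a l) z eT) :=
    fun z hz e => by simpa only [one_smul] using ((k1 z hz).2.2 e).2
  have z0 : ∀ y, pt 0 y ∈ W → ∀ v, pb b g (pt 0 y) eT v = GX M a l (pt 0 y) eT v := fun y hy v => by
    have m := s2 hy
    rw [pb, (fx y hy).self_of_nhds, P354DT.split_eT v, map_add, map_smul, P354DT.fix_fd
      (P354RC.p_at P hy) (fx y hy), fT _ hy rfl, r1.eq _ m.1, r2.eq _ m.1, map_add, map_add,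
      map_smul, map_smul, wf_nul m.2 (r1.symm _ m.1), ← r2.eq _ m.1 eT eT, GX_TT h hl.1 m.1.2,
      wf_ap m.2, show (pt 0 (xs v)).1 = 0 from rfl, mul_zero, add_zero]
  refine ⟨pb b g, _, L', fun z hz => (s2 (P354YC.st_sub W hz)).1.2, fun z hz v => ?_,
    fun z hz => ⟨s3 hz, ?_⟩, fun y hy => ?_⟩
  · have m0 := hz 0 left_mem_uIcc
    rw [flat_of L' (P354YC.st_star W) (fun z hz => (gq_N0 _).1 (k1 z (P354YC.st_sub W hz)).2.1)
      (fun z hz e => by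
        have m := P354YC.st_sub W hz
        rw [← P354YR.pt_xs z, e] at m ⊢
        exact (z0 _ m eT).trans (GX_TT h hl.1 (s2 m).1.2)) hz]
    refine (z0 (xs z) m0 v).trans ?_
    rw [GX_eT h hl.1 (p := pt 0 (xs z)) (s2 m0).1.2, GX_eT h hl.1 (s2 (P354YC.st_sub W hz)).1.2]
    rfl
  · have j := (k2 z hz).1.mono le_rfl (show _ ≤ C * ε by
      have := mul_le_mul_of_nonneg_right (show C3 ≤ |C3| + 1 by linarith [le_abs_self C3])
        (show 0 ≤ (C2 + 1) * C1 * ε by positivity)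
      simp only [C]; linarith)
    have e4 : C * ε ≤ min (δ / 2) (1 / 100) := le_min e3.2.1 e3.2.2
    rw [mul_assoc]
    exact h4 b g _ _ _ z _ (P354RC.p_at P (s1 hz)) L1 LG (P.maps (s1 hz)) (fun q e =>
      (hB l hl q (nr z hz q (e.trans e4)).1).imp_right fun k => P354YI.bd_le k.bd (by omega) le_rfl)
      j (by linarith [e3.2.2]) (P354YI.bd_le (a1 _ ((nr z hz _
        ((dist_eq_norm _ _).trans_le (j.zero.trans e4))).2 (k2 z hz).2)).2 (by omega) (e1.trans e2))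
  · have m := s1 (show pt 0 y ∈ _ from ⟨⟨le_rfl, (half_pos δ0.1).le⟩, by rwa [rd, xs_pt]⟩)
    exact P354DT.in0_pull P m (fx y m) (fT _ m rfl ▸ wf_pos (s2 m).2)
      (a2 y ⟨by linarith [hy.1], by linarith [hy.2]⟩)

end Vale.Agent.P354XA
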