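import Vale.Agent.P354XA.Xi2

/-!
The chart Xi on the slice, and the induced data.
-/

set_option linter.unusedSectionVars false

open scoped ContDiff
open Set Filter Topology Real

noncomputable section

namespace Vale.Agent.P354XA

open Vale.Agent.P354n (R4)
open Vale.Agent.P354I (X Dat ee rm rp)
open Vale.Agent.P354R (Del Pull Met chr)
open Vale.Agent.P354RC (k2 p_at at_df at_fd surj_of_inj)
open Vale.Agent.P354XS (ds)
open Vale.Agent.P354XE
open Vale.Agent.P354XV (Lv In0)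
open Vale.Agent.P354YT (qm)
open Vale.Agent.P354TR (Inv)
open Vale.Agent.P354DT (ptL split_eT)
open Vale.Agent.P354YR (pol pol_c pol_rd rz kin ci DE Oh b_pos b_sq M_pos rp_pos rm_lt ka_pos xs_ne
  s_rd)

variable {M a l x ρ : ℝ} {p q : R4} {f f' Y Y' : R4 → R4} {g g' g'' : Tw} {D D' D'' : Set R4}
  {d : Dat} {y : X}

/-! ### The slice -/

section
variable (h : |a| < M) (hy : √(M ^ 2 - a ^ 2) / 2 < ‖y‖)
include h hy

theorem kx_p0 (t : ℝ) : 0 < kx M a (pt t y) := by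
  have y0 : 0 < ‖y‖ := (half_pos (b_pos h)).trans hy
  have := sqrt_pos.2 y0
  rw [kx, rd, xs_pt, sub_pos, div_lt_iff₀ (by positivity)]
  nlinarith [mul_self_sqrt y0.le]

theorem p0_ne : y ≠ 0 := norm_pos_iff.1 ((half_pos (b_pos h)).trans hy)

theorem r0_p0 : r0 M a 1 (pt 0 y) = kr M a (pt 0 y) := by
  rw [P354YR.kr_p0 h (p0_ne h hy), r0, rd, xs_pt, P354XS.rad, one_mul, one_pow, one_mul]

theorem r1_p0 : r1 M a 1 (pt 0 y) = kr M a (pt 0 y) := (add_zero _).trans (r0_p0 h hy)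

theorem p0_DE : pt 0 y ∈ DE M a true :=
  ⟨P354YR.p0_mem h (p0_ne h hy), (kx_p0 h hy 0).trans_eq (zero_add _).symm⟩

theorem p0_DX : pt 0 y ∈ DX M a 1 :=
  ⟨by rwa [one_mul, rd, xs_pt], by
    have := pow_pos (kx_p0 h hy 0) 2
    rw [r1_p0 h hy, kr, show (pt 0 y).1 = 0 from rfl]; linarith⟩

/-- On the slice the chart is the ingoing chart of the Kruskal slice. -/
theorem Xi_p0 : Xi M a 1 (pt 0 y) = ci M a true (pt 0 y) := by
  have x0 := kx_p0 h hy 0
  have m := (p0_DE h hy).1.2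
  have e : kr M a (pt 0 y) - rp M a = kx M a (pt 0 y) ^ 2 := by simp [kr, pt]
  have b := b_pos h
  have c := rp_pos h
  have d := M_pos h
  have f : rm M a = rp M a - 2 * √(M ^ 2 - a ^ 2) := by simp only [rm, rp]; ring
  have t : P354YR.kt M a (pt 0 y) = tl M a 1 (kr M a (pt 0 y)) := by
    rw [P354YR.kt, tl, log_div (show 0 < P354YR.kV M a _ from (p0_DE h hy).2).ne'
      (P354YR.mf_pos m).ne', mf,
      log_rpow (sub_pos.2 m), one_mul, one_mul, one_mul, e, log_pow, P354YR.kV,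
      show (pt 0 y).1 = 0 from rfl, zero_add]
    have := ka_pos h
    field_simp
    push_cast; ring
  have j : jl M a 1 (kr M a (pt 0 y)) = Oh M a * tl M a 1 (kr M a (pt 0 y)) -
      a / rp M a * log (kr M a (pt 0 y) - rm M a) := by
    simp only [jl, tl, Oh, ka, one_mul]
    generalize log (_ - rm M a) = L
    field_simp
    rw [f]; ring
  show _ = kin M a _
  rw [Xi, pol, kin, t, ← j, Xt, Xc, r0_p0 h hy, r1_p0 h hy, show (pt 0 y).1 = 0 from rfl]
  congr 2 <;> ring_nf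

theorem kin_eT : 0 < (fderiv ℝ (kin M a) (pt 0 y) eT).1 ∧
    dr (kin M a (pt 0 y)) (fderiv ℝ (kin M a) (pt 0 y) eT) = 0 := by
  have E := p0_DE h hy
  have x0 := kx_p0 h hy 0
  have c : HasDerivAt (fun t : ℝ => pt t y) eT 0 := (hasDerivAt_id _).prodMk (hasDerivAt_const _ _)
  have k := (at_df (P354YR.s_kin E)).hasFDerivAt.comp_hasDerivAt (0 : ℝ) c
  have u : HasDerivAt (fun t => kr M a (pt t y)) 0 0 :=
    ((hasDerivAt_pow 2 (0 : ℝ)).const_sub (rp M a + kx M a (pt 0 y) ^ 2)).congr_deriv (by simp)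
  have m := P354YR.mf_pos E.1.2
  have u1 : HasDerivAt (fun t => mf M a (kr M a (pt t y))) 0 0 :=
    (HasDerivAt.comp (h₂ := mf M a) (h := fun t => kr M a (pt t y)) 0
      ((P354YR.s_mf (q := kr M a (pt 0 y)) contDiffAt_id E.1.2).differentiableAt
        (by simp)).hasDerivAt u).congr_deriv (mul_zero _)
  have u2 := ((((hasDerivAt_id (0 : ℝ)).add_const (kx M a (pt 0 y))).div u1 m.ne').log
    (by simp [x0.ne', m.ne'])).div_const (ka M a)
  obtain ⟨L, hL, eL⟩ := P354YR.hd_rd (P354YR.DI_ne h (P354YR.kin_mem h E.1))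
  refine ⟨?_, ?_⟩
  · have k1 : HasDerivAt (fun t => (kin M a (pt t y)).1) (fderiv ℝ (kin M a) (pt 0 y) eT).1 0 :=
      (ContinuousLinearMap.fst ℝ ℝ (ℝ × ℝ × ℝ)).hasFDerivAt.comp_hasDerivAt (0 : ℝ) k
    rw [k1.unique u2]
    have := ka_pos h
    simp only [id, Pi.div_apply, zero_add, one_mul, mul_zero, sub_zero]
    positivity
  · rw [← eL]
    exact (hL.comp_hasDerivAt (0 : ℝ) k).unique (u.congr_of_eventuallyEq
      ((c.continuousAt.eventually (P354YR.open_DK.mem_nhds E.1)).mono fun _ => P354YR.kin_rd h))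

theorem ev_p0 : ∀ᶠ z in 𝓝 y, Xi M a 1 (pt 0 z) = ci M a true (pt 0 z) :=
  (continuousAt_const.eventually_lt continuous_norm.continuousAt hy).mono fun _ => Xi_p0 h

theorem ori_iff {v w : R4} (e : fderiv ℝ (Xi M a 1) (pt 0 y) w = fderiv ℝ (ci M a true) (pt 0 y) v) :
    0 < w.1 ↔ 0 < v.1 := by
  have hp := p0_DX h hy
  have k := slice_fd (Xi_cd h zero_le_one hp) (P354YR.s_kin (p0_DE h hy)) (ev_p0 h hy) (xs v)
  obtain ⟨a1, a2⟩ := Xi_forms h zero_le_one hp (w - pt 0 (xs v))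
  obtain ⟨b1, b2⟩ := kin_eT h hy
  have e1 : fderiv ℝ (Xi M a 1) (pt 0 y) (w - pt 0 (xs v)) =
      v.1 • fderiv ℝ (kin M a) (pt 0 y) eT := by
    rw [map_sub, e, k, ← map_smul, eq_comm, eq_sub_iff_add_eq, ← map_add, ← split_eT]; rfl
  have q := qm_nn h zero_le_one hp (DX_r0 h zero_le_one hp)
  have z : (w - pt 0 (xs v)).1 = w.1 := sub_zero _
  have z1 : ∀ (p v : R4) (c : ℝ), dr p (c • v) = c * dr p v := fun p v c => by
    simp only [dr_eq, ip, Prod.smul_snd, Prod.smul_fst, smul_eq_mul]; ring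
  rw [e1, Xi_p0 h hy, z1, show ci M a true = kin M a from rfl, b2, mul_zero, z] at a1
  rw [e1, z, ← a1, eq_neg_of_add_eq_zero_left a1.symm, Prod.smul_fst, smul_eq_mul] at a2
  exact ⟨fun t => pos_of_mul_pos_left (a := v.1) (by nlinarith) b1.le, fun t => by
    have := mul_pos t b1
    exact pos_of_mul_pos_left (a := w.1) (b := 1 + _) (by linarith) (add_nonneg zero_le_one q)⟩

/-- The data are the same in the two charts. -/
theorem in0_iff (l : Lv g D) (m : ci M a true (pt 0 y) ∈ D) :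
    In0 (pb (Xi M a 1) g) d y ↔ In0 (pb (ci M a true) g) d y := by
  obtain ⟨Ps, i⟩ := ex_Ps h zero_le_one
  have c := P354YR.isCh h true
  have P := i.pull l (D := DX M a 1 ∩ Xi M a 1 ⁻¹' D) fun _ => Iff.rfl
  have P' : Pull (ci M a true) (pb (ci M a true) g) (DE M a true ∩ ci M a true ⁻¹' D) g D :=
    ⟨c.back.smooth.continuousOn.isOpen_inter_preimage c.back.open' l.isOpen, l.isOpen, l.met,
      c.back.smooth.mono inter_subset_left, fun _ k => k.2, fun _ k => c.back.inj _ k.1,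
      fun _ _ _ _ => rfl⟩
  have m1 : pt 0 y ∈ DX M a 1 ∩ Xi M a 1 ⁻¹' D := 
    ⟨p0_DX h hy, (mem_of_eq_of_mem (Xi_p0 h hy) m : Xi M a 1 _ ∈ D)⟩
  exact ⟨in0_two P' P ⟨p0_DE h hy, m⟩ m1 ((ev_p0 h hy).mono fun _ => .symm)
      fun _ _ e => (ori_iff h hy e.symm).1,
    in0_two P P' m1 ⟨p0_DE h hy, m⟩ (ev_p0 h hy) fun _ _ e => (ori_iff h hy e).2⟩

theorem in0_GX : In0 (GX M a 1) (ds M a) y := by
  have c := (P354YR.isCh h true).back
  have E := p0_DE h hy
  rw [GX, one_mul, one_mul]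
  refine (in0_iff h hy (gin_lv M a) (P354YR.rd_pos (P354YR.DI_ne h (c.maps E)))).2
    (P354YI.in0_congr ⟨_, P354YR.in0_gK h (p0_ne h hy)⟩ ?_)
  filter_upwards [c.open'.mem_nhds E] with z hz
  exact funext₂ fun v w => (c.eq z hz v w).symm

end

end Vale.Agent.P354XA
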